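import Vale.Agent.P159.H686.GlueS

/-!
P159 / H686: GLUE-S, part 2. The chain of levels and the final relation.

At level `i` the base pair `P_i = (N_i, x_i)` and the next pair `P_{i+1}` (both seen at level `i`),
then one window `i → i+1` for the pair `P_{i+1}`.
-/

namespace Vale.Agent.P159.H686

open MeasureTheory

/-- smallness of the parameters of one level (`Lp, bp` = values at the next level) -/
structure Sml (ε δ q b L h τ η κP bW Lp bp : ℝ) : Prop where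
  ε1 : ε ≤ 1 / 100
  δ0 : 0 ≤ δ
  δε : δ ≤ ε
  q0 : 0 ≤ q
  b0 : 0 ≤ b
  L1 : 1 ≤ L
  Lp1 : 1 ≤ Lp
  qb : q + 2 * L * b ≤ ε / 10
  qL : √(2 * (2 * L) * (q + 2 * L * b)) ≤ ε
  h0 : 0 ≤ h
  h1 : h ≤ 1 / 40
  τ0 : 0 ≤ τ
  τ1 : τ ≤ 1
  τL : √τ * L ≤ ε
  η0 : 0 ≤ η
  κ0 : 0 ≤ κP
  bWL : (4 + 2 * η) * (2 * L) * √bW ≤ ε
  nxt : √(2 * Lp * (q + 2 * L * b) + Lp ^ 2 * bp) ≤ ε

/-- the contraction factor -/
noncomputable def al (κP η : ℝ) : ℝ := √(1 + η) * (κP + 2 * η)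

lemma Sml.ε0 {ε δ q b L h τ η κP bW Lp bp : ℝ} (S : Sml ε δ q b L h τ η κP bW Lp bp) : 0 ≤ ε :=
  S.δ0.trans S.δε

lemma Sml.τL' {ε δ q b L h τ η κP bW Lp bp : ℝ} (S : Sml ε δ q b L h τ η κP bW Lp bp) :
    τ * L ≤ ε := by
  refine le_trans ?_ S.τL
  refine mul_le_mul_of_nonneg_right ?_ (by linarith [S.L1])
  exact Real.le_sqrt_of_sq_le (by nlinarith [S.τ0, S.τ1])

/-- the hypothesis of `xfer` -/
lemma Sml.sm {ε δ q b L h τ η κP bW Lp bp : ℝ} (S : Sml ε δ q b L h τ η κP bW Lp bp) :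
    q + 2 * δ + L * b + 3 * h + 2 * (τ * L) ≤ 1 / 8 := by
  have h1 := S.τL'
  have h2 := S.qb
  have h3 := S.δε
  have h4 := S.ε1
  have h5 := S.h1
  have h6 : 0 ≤ L * b := mul_nonneg (by linarith [S.L1]) S.b0
  linarith

/-- the error of the relation -/
lemma Sml.err {ε δ q b L h τ η κP bW Lp bp D E : ℝ} (S : Sml ε δ q b L h τ η κP bW Lp bp)
    (hE : E ≤ 3 * q + 4 * δ + 2 * (L * b) + h * min D 3 + 2 * (τ * L)) :
    E ≤ 7 * ε + h * min D 3 := by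
  have h1 := S.τL'
  have h2 := S.qb
  have h3 := S.δε
  have h6 : 0 ≤ L * b := mul_nonneg (by linarith [S.L1]) S.b0
  have h7 := S.q0
  have h8 := S.ε0
  linarith

/-- the scalar recursion of one level -/
theorem Sml.step {ε δ q b L h τ η κP bW Lp bp D E δp εp : ℝ}
    (S : Sml ε δ q b L h τ η κP bW Lp bp) (hD : 0 ≤ D) (hE0 : 0 ≤ E) (hE : E ≤ 3 / 8)
    (hE' : E ≤ 3 * q + 4 * δ + 2 * (L * b) + h * min D 3 + 2 * (τ * L))
    (hα : al κP η ≤ 1) (hδp : δp ≤ εp) :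
    (1 + 2 * E) * √((1 + h) * D ^ 2 + τ * L ^ 2) + 2 * E ≤ 2 * D + 16 * ε ∧
    2 * (δp + dW κP η bW (2 * L) (2 * D + 16 * ε) (δ * (1 + (2 * D + 16 * ε))) (q + 2 * L * b))
      + √(2 * Lp * (q + 2 * L * b) + Lp ^ 2 * bp)
      ≤ (5 * al κP η + 4 * ε) * D + 45 * ε + 2 * εp := by
  have hε0 := S.ε0
  have hε1 := S.ε1
  have h0 := S.h0
  have h1 := S.h1
  have hL := S.L1
  have hτ := S.τ0
  have hqb0 : 0 ≤ q + 2 * L * b := by
    have := mul_nonneg (by linarith : (0 : ℝ) ≤ 2 * L) S.b0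
    linarith [S.q0]
  constructor
  · have hEe : E ≤ 7 * ε + h * D := by
      refine (S.err hE').trans ?_
      have := mul_le_mul_of_nonneg_left (min_le_left D 3) h0
      linarith
    have hs : √((1 + h) * D ^ 2 + τ * L ^ 2) ≤ (1 + h / 2) * D + ε := by
      apply Real.sqrt_le_iff.2
      have hτL0 : 0 ≤ √τ * L := by positivity
      refine ⟨by positivity, ?_⟩
      have e1 : τ * L ^ 2 = (√τ * L) ^ 2 := by
        rw [mul_pow, Real.sq_sqrt hτ]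
      have e2 : (√τ * L) ^ 2 ≤ ε ^ 2 := pow_le_pow_left₀ hτL0 S.τL 2
      have e3 : (1 + h) * D ^ 2 ≤ ((1 + h / 2) * D) ^ 2 := by
        have : (0 : ℝ) ≤ (h / 2) ^ 2 * D ^ 2 := by positivity
        nlinarith
      have e4 : 0 ≤ (1 + h / 2) * D * ε := by positivity
      rw [e1]
      nlinarith
    have h2 : (1 + 2 * E) * √((1 + h) * D ^ 2 + τ * L ^ 2)
        ≤ (7 / 4) * ((1 + h / 2) * D + ε) := by
      refine mul_le_mul (by linarith) hs (Real.sqrt_nonneg _) (by norm_num)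
    have h3 : h * D ≤ 1 / 40 * D := mul_le_mul_of_nonneg_right h1 hD
    nlinarith
  · have hα0 : 0 ≤ al κP η := by
      have := S.η0
      have := S.κ0
      unfold al
      positivity
    obtain ⟨Z, hZ⟩ : ∃ Z, Z = 2 * D + 16 * ε := ⟨_, rfl⟩
    have hZ0 : 0 ≤ Z := by linarith
    rw [← hZ]
    have hdW : dW κP η bW (2 * L) Z (δ * (1 + Z)) (q + 2 * L * b)
        ≤ al κP η * (Z + 2 * (ε * (1 + Z)) + ε) + ε + ε * (1 + Z) + ε / 10 := by
      unfold dW al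
      have a1 : δ * (1 + Z) ≤ ε * (1 + Z) := mul_le_mul_of_nonneg_right S.δε (by linarith)
      have a2 := S.qL
      have a3 := S.bWL
      have a4 := S.qb
      unfold al at hα0
      have a5 : √(1 + η) * (κP + 2 * η)
          * (Z + 2 * (δ * (1 + Z)) + √(2 * (2 * L) * (q + 2 * L * b)))
          ≤ √(1 + η) * (κP + 2 * η) * (Z + 2 * (ε * (1 + Z)) + ε) :=
        mul_le_mul_of_nonneg_left (by linarith) hα0
      linarith
    have hn := S.nxt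
    have b1 : al κP η * (Z + 2 * (ε * (1 + Z)) + ε) ≤ al κP η * (102 / 100 * Z) + 3 * ε := by
      have c1 : Z + 2 * (ε * (1 + Z)) + ε ≤ 102 / 100 * Z + 3 * ε := by nlinarith
      have c2 := mul_le_mul_of_nonneg_left c1 hα0
      have c3 : al κP η * (3 * ε) ≤ 1 * (3 * ε) := mul_le_mul_of_nonneg_right hα (by linarith)
      linarith
    have b2 : ε * (1 + Z) = ε + ε * (2 * D) + 16 * ε ^ 2 := by
      rw [hZ]
      ring
    have b3 : ε ^ 2 ≤ ε / 100 := by nlinarith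
    have b4 : al κP η * (102 / 100 * Z) ≤ al κP η * (51 / 25 * D) + 1632 / 100 * ε := by
      have c1 : al κP η * ε ≤ 1 * ε := mul_le_mul_of_nonneg_right hα hε0
      rw [hZ]
      nlinarith
    have b5 : 0 ≤ al κP η * D := mul_nonneg hα0 hD
    nlinarith

/-- solution of the linear recursion -/
theorem rec_sol {D ε θ : ℕ → ℝ} (hθ0 : ∀ i, 0 ≤ θ i) (hθ : ∀ i, θ i ≤ 1 / 4)
    (hε0 : ∀ i, 0 ≤ ε i) (hε : ∀ i, ε i ≤ 2 * ε (i + 1)) (hD0 : 0 ≤ D 0)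
    (hD : ∀ i, D (i + 1) ≤ θ i * D i + 45 * ε i + 2 * ε (i + 1)) (i : ℕ) :
    D i ≤ (1 / 4) ^ i * D 0 + 184 * ε i := by
  induction i with
  | zero =>
    have := hε0 0
    simp
    linarith
  | succ i ih =>
    have h1 := hD i
    have h2 : θ i * D i ≤ θ i * ((1 / 4) ^ i * D 0 + 184 * ε i) :=
      mul_le_mul_of_nonneg_left ih (hθ0 i)
    have h3 : θ i * ((1 / 4) ^ i * D 0 + 184 * ε i) ≤ 1 / 4 * ((1 / 4) ^ i * D 0 + 184 * ε i) := by
      have := hε0 i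
      exact mul_le_mul_of_nonneg_right (hθ i) (by positivity)
    have h4 := hε i
    rw [pow_succ]
    linarith

/-- **the chain of levels** -/
structure Chain (Ω Ω' X : ℕ → Type) [∀ i, MeasurableSpace (Ω i)] [∀ i, MeasurableSpace (Ω' i)]
    [∀ i, MeasurableSpace (X i)] (ν : ∀ i, Measure (Ω i)) (ν' : ∀ i, Measure (Ω' i))
    (Ψ : ∀ i, Ω i → ℝ) (Ψ' : ∀ i, Ω' i → ℝ) (c κ : ℕ → ℝ) (w : ∀ i, Ω i → X i)
    (w' : ∀ i, Ω' i → X i) (G : ∀ i, X i → ℝ) (Gd : ∀ i, Set (Ω i)) (Gd' : ∀ i, Set (Ω' i))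
    (ε δ q b L h τ η κP bW : ℕ → ℝ) : Prop where
  pr : ∀ i, IsProbabilityMeasure (ν i)
  pr' : ∀ i, IsProbabilityMeasure (ν' i)
  loc : ∀ i, Lcl (ν i) (Ψ i) (c i) (c i) (w i) (G i) (Gd i) (L i) (δ i) (q i) (b i)
  loc' : ∀ i, Lcl (ν' i) (Ψ' i) (c (i + 1)) (κ i) (w' i) (G i) (Gd' i) (L i) (δ i) (q i) (b i)
  cmp : ∀ i, Cmp (ν i) (ν' i) (w i) (w' i) (h i) (τ i)
  stp : ∀ i, Stp (ν' i) (ν (i + 1)) (Ψ' i) (Ψ (i + 1)) (c (i + 1)) (w' i) (κP i) (η i) (bW i)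
  sml : ∀ i, Sml (ε i) (δ i) (q i) (b i) (L i) (h i) (τ i) (η i) (κP i) (bW i)
    (L (i + 1)) (b (i + 1))
  alp : ∀ i, 5 * al (κP i) (η i) + 4 * ε i ≤ 1 / 4
  slow : ∀ i, ε i ≤ 2 * ε (i + 1)

section chain

variable {Ω Ω' X : ℕ → Type} [∀ i, MeasurableSpace (Ω i)] [∀ i, MeasurableSpace (Ω' i)]
  [∀ i, MeasurableSpace (X i)] {ν : ∀ i, Measure (Ω i)} {ν' : ∀ i, Measure (Ω' i)}
  {Ψ : ∀ i, Ω i → ℝ} {Ψ' : ∀ i, Ω' i → ℝ} {c κ : ℕ → ℝ} {w : ∀ i, Ω i → X i}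
  {w' : ∀ i, Ω' i → X i} {G : ∀ i, X i → ℝ} {Gd : ∀ i, Set (Ω i)} {Gd' : ∀ i, Set (Ω' i)}
  {ε δ q b L h τ η κP bW : ℕ → ℝ}

/-- the distance at level `i` -/
theorem Chain.dst_le
    (C : Chain Ω Ω' X ν ν' Ψ Ψ' c κ w w' G Gd Gd' ε δ q b L h τ η κP bW) (i : ℕ) :
    dst (ν i) (w i) (G i) ≤ (1 / 4) ^ i * L 0 + 184 * ε i := by
  have hα0 : ∀ i, 0 ≤ al (κP i) (η i) := fun i => by
    have := (C.sml i).η0
    have := (C.sml i).κ0
    unfold al
    positivity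
  have hrec : ∀ i, dst (ν (i + 1)) (w (i + 1)) (G (i + 1))
      ≤ (5 * al (κP i) (η i) + 4 * ε i) * dst (ν i) (w i) (G i) + 45 * ε i + 2 * ε (i + 1) := by
    intro i
    have := C.pr i
    have := C.pr' i
    have := C.pr (i + 1)
    have S := C.sml i
    have Sp := C.sml (i + 1)
    have H := C.loc i
    have H' := C.loc' i
    obtain ⟨r1, r2, _, _⟩ := xfer H H' (C.cmp i) S.L1 S.δ0 S.q0 S.h0 S.τ0 S.sm
    have hα : al (κP i) (η i) ≤ 1 := by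
      have := C.alp i
      have := S.ε0
      linarith
    obtain ⟨s1, s2⟩ := S.step (D := dst (ν i) (w i) (G i)) (δp := δ (i + 1)) (εp := ε (i + 1))
      dst_nonneg (abs_nonneg _) r2 r1 hα Sp.δε
    have h1 := one_level H H' (C.cmp i) (C.stp i) (C.loc (i + 1)) S.L1 Sp.L1 S.δ0 Sp.δ0
      (by linarith [Sp.δε, Sp.ε1]) S.q0 S.h0 S.κ0 S.η0 S.τ0 S.sm le_rfl s1
    exact h1.trans s2
  have hD0 : dst (ν 0) (w 0) (G 0) ≤ L 0 := by
    have := C.pr 0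
    have H := C.loc 0
    have S := C.sml 0
    unfold dst
    rw [Real.sqrt_le_left H.L0]
    have hI := int_sub_sq (ν := ν 0) H.Gm H.wm H.G0 H.Gb S.L1
    calc ∫ x, (G 0 (w 0 x) - 1) ^ 2 ∂(ν 0) ≤ ∫ _, L 0 ^ 2 ∂(ν 0) := by
          refine integral_mono hI (integrable_const _) fun x => ?_
          simp only
          rw [← sq_abs]
          exact pow_le_pow_left₀ (abs_nonneg _) (abs_sub_one_le S.L1 (H.G0 _) (H.Gb _)) 2
      _ = L 0 ^ 2 := by simp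
  have h := rec_sol (D := fun i => dst (ν i) (w i) (G i)) (ε := ε)
    (θ := fun i => 5 * al (κP i) (η i) + 4 * ε i)
    (fun i => by
      have := hα0 i
      have := (C.sml i).ε0
      positivity) C.alp (fun i => (C.sml i).ε0) C.slow
    (by
      have := C.pr 0
      exact dst_nonneg) hrec i
  refine h.trans ?_
  have := mul_le_mul_of_nonneg_left hD0 (by positivity : (0 : ℝ) ≤ (1 / 4) ^ i)
  linarith

/-- **the relation at level `i`** between the base pair and any other pair `R` -/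
theorem Chain.rel
    (C : Chain Ω Ω' X ν ν' Ψ Ψ' c κ w w' G Gd Gd' ε δ q b L h τ η κP bW) (i : ℕ)
    {ΩR : Type} [MeasurableSpace ΩR] {νR : Measure ΩR} [IsProbabilityMeasure νR]
    {ΨR : ΩR → ℝ} {cR κR : ℝ} {wR : ΩR → X i} {GdR : Set ΩR}
    (HR : Lcl νR ΨR cR κR wR (G i) GdR (L i) (δ i) (q i) (b i))
    (hc : Cmp (ν i) νR (w i) wR (h i) (τ i)) :
    |Real.log cR - Real.log κR|
      ≤ 2 * (7 * ε i + h i * min ((1 / 4) ^ i * L 0 + 184 * ε i) 3) := by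
  have := C.pr i
  have S := C.sml i
  obtain ⟨r1, r2, _, _⟩ := xfer (C.loc i) HR hc S.L1 S.δ0 S.q0 S.h0 S.τ0 S.sm
  have r3 := S.err r1
  have r4 : h i * min (dst (ν i) (w i) (G i)) 3
      ≤ h i * min ((1 / 4) ^ i * L 0 + 184 * ε i) 3 :=
    mul_le_mul_of_nonneg_left (min_le_min_right _ (C.dst_le i)) S.h0
  have hp : 0 < cR / κR := div_pos HR.hc HR.hκ
  rw [← Real.log_div HR.hc.ne' HR.hκ.ne']
  have hlow : 5 / 8 ≤ cR / κR := by
    have := (abs_le.1 r2).1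
    linarith
  have hlog : |Real.log (cR / κR)| ≤ 2 * |cR / κR - 1| := by
    rw [abs_le]
    constructor
    · have h1 := Real.one_sub_inv_le_log_of_pos hp
      have h2 : -(2 * |cR / κR - 1|) ≤ 1 - (cR / κR)⁻¹ := by
        have e : 1 - (cR / κR)⁻¹ = (cR / κR)⁻¹ * (cR / κR - 1) := by
          rw [mul_sub, inv_mul_cancel₀ hp.ne', mul_one]
        have hi : (cR / κR)⁻¹ ≤ 2 := by
          rw [inv_le_comm₀ hp (by norm_num)]
          linarith
        have hi0 : 0 < (cR / κR)⁻¹ := inv_pos.2 hp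
        rw [e]
        have h3 := neg_abs_le (cR / κR - 1)
        have h4 := abs_nonneg (cR / κR - 1)
        nlinarith
      linarith
    · have h1 := Real.log_le_sub_one_of_pos hp
      have := le_abs_self (cR / κR - 1)
      have := abs_nonneg (cR / κR - 1)
      linarith
  refine hlog.trans ?_
  linarith

end chain

end Vale.Agent.P159.H686
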