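import Vale.Agent.P159.H686.LvS
import Vale.Agent.P159.H817.Id8

/-!
P159 / H686, module LOC1: the field `loc` of a level (`LvlW`, shifted windows) from the outputs of
the modules: cut step (191), stationarity for ideal pairs (817), the bad sets.
-/

open MeasureTheory Filter Topology Finset Matrix

set_option linter.all false

namespace Vale.Agent.P159.H686

open Vale.Agent.P159.TM.Spec (V)
open Vale.Agent.P159.TM.SpecC (wT)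
open Vale.Agent.P159.H883 (nuM Psi BW Zp PT)
open Vale.Agent.P159.H708 (Bx wd)
open Vale.Agent.P159.H770 (wTD Ed)
open Vale.Agent.P159.H773 (sd ax0 nuF PsF cMn wdF cMn_pos Gcut sd_ge sd_pow)
open Vale.Agent.P159.H817 (eD Dec Idl SysI RefB HasId GB ChI eB CG edec dec cfg rh LPg gr eF bD)

noncomputable section

/-- the side of the torus of the distances in `(2^k, 2^(k+1)]` -/
lemma sd_dbl (i : ℕ) {k R : ℕ} (h1 : 2 ^ k < R) (h2 : R ≤ 2 ^ (k + 1)) :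
    sd i R = sd i (2 ^ (k + 1)) := by
  have h3 : Nat.clog 2 R = k + 1 := by
    refine le_antisymm ?_ ?_
    · exact (Nat.clog_le_iff_le_pow (by norm_num)).2 h2
    · exact (Nat.lt_clog_iff_pow_lt (by norm_num)).2 h1
  rw [sd_pow]
  unfold sd
  rw [h3, ← pow_add]

/-- the decorated field of the pair `R` with window data `z` -/
def dcF (i D : ℕ) (T0 T1 : (Bx D ⊕ Bx D → ℝ) → ℤ → ℤ → ℝ) (R : ℕ) (g : V (sd i R) → ℝ)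
    (z : Bx D ⊕ Bx D → ℝ) (x : V (sd i R)) : ℝ :=
  edec (T0 z) (T1 z) 0 (R • H817.e1) x - g x

lemma measurable_dcF {i D : ℕ} {T0 T1 : (Bx D ⊕ Bx D → ℝ) → ℤ → ℤ → ℝ}
    (h0 : ∀ u v, Measurable fun z => T0 z u v) (h1 : ∀ u v, Measurable fun z => T1 z u v)
    (R : ℕ) (g : V (sd i R) → ℝ) : Measurable (dcF i D T0 T1 R g) := by
  refine measurable_pi_lambda _ fun x => ?_
  unfold dcF edec dec
  exact ((h0 _ _).add (h1 _ _)).sub_const _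

/-- **the inputs of the comparison of the pairs of one window** `2^k0 ≤ R ≤ 2^k1`, tori `sd i R`:
817's chain of doublings, and the ideal corrections `gs R` -/
structure StI (i : ℕ) (b t a : ℝ) (n l : ℕ) (Λc ε₂ ε₃ L S B E : ℝ) (D0 D1 : Dec)
    (b0 : ℤ → ℤ → Bool → ℝ) (k0 k1 : ℕ) (gs : ∀ R, V (sd i R) → ℝ) : Prop where
  ch : ∀ k, k0 ≤ k → k < k1 →
    ChI b t a n l Λc ε₂ ε₃ L D0 D1 b0 (sd i (2 ^ k)) (sd i (2 ^ (k + 1))) k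
  hE : ∀ k, k0 ≤ k → k < k1 → 500000 * eB (sd i (2 ^ (k + 1))) l ε₂ ε₃ ≤ E
  E0 : 0 ≤ E
  rb : RefB b0 (20 * l)
  L0 : 0 ≤ L
  LS : L ≤ S
  B1 : 1 ≤ B
  big : 10000000000 * (1 + CG + S + B) ≤ Λc
  gb : ∀ R, 2 ^ k0 ≤ R → R ≤ 2 ^ k1 → GB (S / l) (gs R)
  gB : ∀ R, 2 ^ k0 ≤ R → R ≤ 2 ^ k1 → ∀ x, |gs R x| ≤ B
  gI : ∀ R, 2 ^ k0 ≤ R → R ≤ 2 ^ k1 →
    Idl b0 (20 * l) (0 : V (sd i R)) (R • H817.e1) (fun x => -gs R x)

section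

variable {i : ℕ} {b t a : ℝ} {n l : ℕ} {Λc ε₂ ε₃ L S B E : ℝ} {D0 D1 : Dec}
  {b0 : ℤ → ℤ → Bool → ℝ} {k0 k1 : ℕ} {gs : ∀ R, V (sd i R) → ℝ}

/-- 817's chain on a torus which is only propositionally `N_(k+1)` -/
lemma LPg_chain' {Nf : ℕ → ℕ} [∀ k, NeZero (Nf k)] {k0 k1 : ℕ} {ε₄ : ℝ}
    (H : ∀ k, k0 ≤ k → k ≤ k1 → ChI b t a n l Λc ε₂ ε₃ L D0 D1 b0 (Nf k) (Nf (k + 1)) k)
    (hE : ∀ k, k0 ≤ k → k ≤ k1 → 500000 * eB (Nf (k + 1)) l ε₂ ε₃ ≤ E)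
    (hRb : RefB b0 (20 * l)) (hL : 0 ≤ L)
    {F0 F1 : ℤ → ℤ → ℝ} (h0 : F0 ∈ D0) (h1 : F1 ∈ D1) (hLS : L ≤ S) (hB1 : 1 ≤ B)
    (hΛ : 10000000000 * (1 + CG + S + B) ≤ Λc)
    {g : V (Nf k0) → ℝ} (hg : GB (S / l) g) (hgB : ∀ x, |g x| ≤ B)
    (hgI : Idl b0 (20 * l) (0 : V (Nf k0)) ((2 ^ k0) • H817.e1) g)
    {k R : ℕ} (hk : k0 ≤ k) (hk1 : k ≤ k1) (hR1 : 2 ^ k ≤ R) (hR2 : R ≤ 2 ^ (k + 1))
    {N' : ℕ} [NeZero N'] (hN : N' = Nf (k + 1))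
    {g' : V N' → ℝ} (hg' : GB (S / l) g') (hgB' : ∀ x, |g' x| ≤ B)
    (hgI' : Idl b0 (20 * l) (0 : V N') (R • H817.e1) g')
    (hreal : |rh N' b t a n (gr fun x => edec F0 F1 0 (R • H817.e1) x + g' x) -
      rh (Nf k0) b t a n (gr fun x => edec F0 F1 0 ((2 ^ k0) • H817.e1) x + g x)| ≤ ε₄) :
    |LPg N' b t F0 F1 0 (R • H817.e1) g' - LPg (Nf k0) b t F0 F1 0 ((2 ^ k0) • H817.e1) g -
      a / 2 * (eD N' R - eD (Nf k0) (2 ^ k0))| ≤ (k - k0 + 1) * E + ε₄ := by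
  subst hN
  exact H817.LPg_chain H hE hRb hL h0 h1 hLS hB1 hΛ hg hgB hgI hk hk1 hR1 hR2 hg' hgB' hgI' hreal

/-- the real part of the comparison: two decorations and the ideal correction -/
def RealW (i : ℕ) (b t a : ℝ) (n : ℕ) (D0 D1 : Dec) (k0 k1 : ℕ) (gs : ∀ R, V (sd i R) → ℝ)
    (ε₄ : ℝ) : Prop :=
  ∀ R, 2 ^ k0 ≤ R → R ≤ 2 ^ k1 → ∀ F0 ∈ D0, ∀ F1 ∈ D1,
    |rh (sd i R) b t a n (gr fun x => edec F0 F1 0 (R • H817.e1) x + -gs R x) -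
      rh (sd i (2 ^ k0)) b t a n
        (gr fun x => edec F0 F1 0 ((2 ^ k0) • H817.e1) x + -gs (2 ^ k0) x)| ≤ ε₄

/-- **all pairs of the window** against the base pair -/
theorem LPg_win (H : StI i b t a n l Λc ε₂ ε₃ L S B E D0 D1 b0 k0 k1 gs) {ε₄ : ℝ}
    (hr : RealW i b t a n D0 D1 k0 k1 gs ε₄) {F0 F1 : ℤ → ℤ → ℝ} (h0 : F0 ∈ D0) (h1 : F1 ∈ D1)
    {R : ℕ} (hR0 : 2 ^ k0 ≤ R) (hR1 : R ≤ 2 ^ k1) :
    |LPg (sd i R) b t F0 F1 0 (R • H817.e1) (fun x => -gs R x) -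
      LPg (sd i (2 ^ k0)) b t F0 F1 0 ((2 ^ k0) • H817.e1) (fun x => -gs (2 ^ k0) x) -
      a / 2 * (eD (sd i R) R - eD (sd i (2 ^ k0)) (2 ^ k0))| ≤ (k1 - k0) * E + ε₄ := by
  have hε : 0 ≤ ε₄ := (abs_nonneg _).trans (hr R hR0 hR1 F0 h0 F1 h1)
  have hkk : k0 ≤ k1 := (Nat.pow_le_pow_iff_right (by norm_num)).1 (hR0.trans hR1)
  have hkr : (k0 : ℝ) ≤ k1 := by exact_mod_cast hkk
  rcases hR0.eq_or_lt with h | h
  · subst h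
    rw [sub_self, sub_self, mul_zero, sub_zero, abs_zero]
    have := mul_nonneg (sub_nonneg.2 hkr) H.E0
    linarith
  · -- the dyadic interval of `R`
    have h2 : 1 < R := lt_of_le_of_lt Nat.one_le_two_pow h
    obtain ⟨k, hk⟩ : ∃ k, Nat.clog 2 R = k + 1 :=
      ⟨Nat.clog 2 R - 1, by have := Nat.clog_pos (by norm_num : 1 < 2) h2; omega⟩
    have a1 : 2 ^ k < R := (Nat.lt_clog_iff_pow_lt (by norm_num)).1 (by omega)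
    have a2 : R ≤ 2 ^ (k + 1) := (Nat.clog_le_iff_le_pow (by norm_num)).1 hk.le
    have a3 : k0 ≤ k := by
      have h3 := (Nat.pow_lt_pow_iff_right (by norm_num : 1 < 2)).1 (lt_of_lt_of_le h a2)
      omega
    have a4 : k < k1 := (Nat.pow_lt_pow_iff_right (by norm_num : 1 < 2)).1 (lt_of_lt_of_le a1 hR1)
    have hneg : ∀ R, 2 ^ k0 ≤ R → R ≤ 2 ^ k1 → GB (S / l) (fun x => -gs R x) ∧
        ∀ x, |(-gs R x)| ≤ B := fun R g1 g2 =>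
      ⟨(H.gb R g1 g2).neg, fun x => by rw [abs_neg]; exact H.gB R g1 g2 x⟩
    have b1 : 2 ^ k0 ≤ 2 ^ k1 := Nat.pow_le_pow_right (by norm_num) hkk
    have key := LPg_chain' (Nf := fun k => sd i (2 ^ k)) (k0 := k0) (k1 := k) (k := k) (R := R)
      (fun j g1 g2 => H.ch j g1 (by omega)) (fun j g1 g2 => H.hE j g1 (by omega)) H.rb H.L0
      h0 h1 H.LS H.B1 H.big (hneg _ le_rfl b1).1 (hneg _ le_rfl b1).2 (H.gI _ le_rfl b1)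
      a3 le_rfl a1.le a2 (N' := sd i R) (sd_dbl i a1 a2) (hneg R hR0 hR1).1 (hneg R hR0 hR1).2
      (H.gI R hR0 hR1) (hr R hR0 hR1 F0 h0 F1 h1)
    refine key.trans ?_
    have c1 : (k : ℝ) + 1 ≤ k1 := by exact_mod_cast a4
    have := mul_le_mul_of_nonneg_right (show (k : ℝ) - k0 + 1 ≤ k1 - k0 by linarith) H.E0
    linarith

variable {η : ∀ R, Ed (sd i R) → ℤ} {φ : ∀ R, V (sd i R) → ℝ}

/-- `PsF` of the family is 883's `PT` -/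
lemma PsF_PT (R : ℕ) (F : V (sd i R) → ℝ) :
    PsF b (sd i) (fun R => wTD (sd i R) b (η R)) φ t R F =
      PT (sd i R) b (t • (1 : Matrix (V (sd i R)) (V (sd i R)) ℝ)) (η R) (φ R) F := by
  unfold PsF PT
  rw [H770.wTD_zero]

/-- **the hypothesis `stat` of 773**: the functional at the decorated field does not depend on the
pair of the window, up to the energy -/
theorem stat_F (hb : 0 < b) (ht : 0 < t)
    (hφ : ∀ R, 2 ^ k0 ≤ R → R ≤ 2 ^ k1 → bD (0 : V (sd i R)) (R • H817.e1) = eF (η R) (φ R))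
    (H : StI i b t a n l Λc ε₂ ε₃ L S B E D0 D1 b0 k0 k1 gs) {ε₄ : ℝ}
    (hr : RealW i b t a n D0 D1 k0 k1 gs ε₄) {D : ℕ}
    {T0 T1 : (Bx D ⊕ Bx D → ℝ) → ℤ → ℤ → ℝ} {z : Bx D ⊕ Bx D → ℝ} (h0 : T0 z ∈ D0)
    (h1 : T1 z ∈ D1) {R : ℕ} (hR0 : 2 ^ k0 ≤ R) (hR1 : R ≤ 2 ^ k1) :
    |Real.log (PsF b (sd i) (fun R => wTD (sd i R) b (η R)) φ t R (dcF i D T0 T1 R (gs R) z)) -
      Real.log (PsF b (sd i) (fun R => wTD (sd i R) b (η R)) φ t (2 ^ k0)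
        (dcF i D T0 T1 (2 ^ k0) (gs (2 ^ k0)) z)) +
      a / 2 * (eD (sd i R) R - eD (sd i (2 ^ k0)) (2 ^ k0))| ≤ (k1 - k0) * E + ε₄ := by
  have key := LPg_win H hr h0 h1 hR0 hR1
  have hb1 : 2 ^ k0 ≤ 2 ^ k1 := hR0.trans hR1
  rw [H817.LPg_eq hb ht (hφ R hR0 hR1), H817.LPg_eq hb ht (hφ _ le_rfl hb1)] at key
  rw [PsF_PT, PsF_PT]
  have e1 : ∀ R, (fun x => edec (T0 z) (T1 z) 0 (R • H817.e1) x + -gs R x) =
      dcF i D T0 T1 R (gs R) z := fun R => by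
    funext x
    unfold dcF
    ring
  rw [e1, e1] at key
  rw [← abs_neg]
  refine (le_of_eq ?_).trans key
  congr 1
  ring

/-- **THE FIELD `loc` OF A LEVEL** from the cut step, the stationarity, and the bad sets -/
theorem loc_F (hb : 0 < b) (ht : 0 < t)
    (hφ : ∀ R, 2 ^ k0 ≤ R → R ≤ 2 ^ k1 → bD (0 : V (sd i R)) (R • H817.e1) = eF (η R) (φ R))
    (H : StI i b t a n l Λc ε₂ ε₃ L S B E D0 D1 b0 k0 k1 gs) {ε₄ : ℝ}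
    (hr : RealW i b t a n D0 D1 k0 k1 gs ε₄) {D : ℕ}
    {T0 T1 : (Bx D ⊕ Bx D → ℝ) → ℤ → ℤ → ℝ} (m0 : ∀ u v, Measurable fun z => T0 z u v)
    (m1 : ∀ u v, Measurable fun z => T1 z u v) {Λ s1 q bb : ℝ} (hΛ : 0 ≤ Λ)
    (hs : s1 + ((k1 - k0) * E + ε₄) ≤ 1) {Gd : ∀ R, Set (V (sd i R) → ℝ)}
    (mG : ∀ R, 2 ^ k0 ≤ R → R ≤ 2 ^ k1 → MeasurableSet (Gd R))
    (mem0 : ∀ R, 2 ^ k0 ≤ R → R ≤ 2 ^ k1 → ∀ F ∈ Gd R, T0 (wdS (sd i) D R (gs R) F) ∈ D0)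
    (mem1 : ∀ R, 2 ^ k0 ≤ R → R ≤ 2 ^ k1 → ∀ F ∈ Gd R, T1 (wdS (sd i) D R (gs R) F) ∈ D1)
    (cut : ∀ R, 2 ^ k0 ≤ R → R ≤ 2 ^ k1 → ∀ F ∈ Gd R,
      |Real.log (PsF b (sd i) (fun R => wTD (sd i R) b (η R)) φ t R F) -
        Real.log (PsF b (sd i) (fun R => wTD (sd i R) b (η R)) φ t R
          (dcF i D T0 T1 R (gs R) (wdS (sd i) D R (gs R) F)))| ≤ s1)
    (up : ∀ R, 2 ^ k0 ≤ R → R ≤ 2 ^ k1 → ∀ F ∈ Gd R,
      PsF b (sd i) (fun R => wTD (sd i R) b (η R)) φ t (2 ^ k0)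
        (dcF i D T0 T1 (2 ^ k0) (gs (2 ^ k0)) (wdS (sd i) D R (gs R) F)) ≤
      Λ * cMn b (sd i) (fun R => wTD (sd i R) b (η R)) (2 ^ k0))
    (hQ : ∀ R, 2 ^ k0 ≤ R → R ≤ 2 ^ k1 →
      ∫ F in (Gd R)ᶜ, PsF b (sd i) (fun R => wTD (sd i R) b (η R)) φ t R F ∂(nuF b (sd i) t R) ≤
        q * cMn b (sd i) (fun R => wTD (sd i R) b (η R)) R)
    (hP : ∀ R, 2 ^ k0 ≤ R → R ≤ 2 ^ k1 → (nuF b (sd i) t R).real (Gd R)ᶜ ≤ bb) :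
    ∀ R, 2 ^ k0 ≤ R → R ≤ 2 ^ k1 → ∃ Gd : Set (V (sd i R) → ℝ),
      Lcl (nuF b (sd i) t R) (PsF b (sd i) (fun R => wTD (sd i R) b (η R)) φ t R)
        (cMn b (sd i) (fun R => wTD (sd i R) b (η R)) R)
        (cMn b (sd i) (fun R => wTD (sd i R) b (η R)) (2 ^ k0) *
          Real.exp (-(a / 2 * (eD (sd i R) R - eD (sd i (2 ^ k0)) (2 ^ k0)))))
        (wdS (sd i) D R (gs R))
        (Gcut b (sd i) (fun R => wTD (sd i R) b (η R)) φ t (2 ^ k0) D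
          (dcF i D T0 T1 (2 ^ k0) (gs (2 ^ k0))) Λ)
        Gd Λ (2 * (s1 + ((k1 - k0) * E + ε₄))) q bb := by
  intro R hR0 hR1
  have hD : ∀ R, BW (wTD (sd i R) b (η R)) := fun R => H883.bw_wTD hb (η R)
  refine ⟨Gd R, lcl_W (e := fun R => eD (sd i R) R) hb hD ht (measurable_wdS D R (gs R))
    (measurable_dcF m0 m1 _ _) (mG R hR0 hR1) hΛ hs ?_ (up R hR0 hR1) (hQ R hR0 hR1)
    (hP R hR0 hR1)⟩
  intro F hF
  have c1 := cut R hR0 hR1 F hF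
  have c2 := stat_F (T0 := T0) (T1 := T1) hb ht hφ H hr (mem0 R hR0 hR1 F hF)
    (mem1 R hR0 hR1 F hF) hR0 hR1
  rw [abs_le] at c1 c2 ⊢
  constructor <;> linarith [c1.1, c1.2, c2.1, c2.2]

end

end

end Vale.Agent.P159.H686
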