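import Vale.Agent.P159.H708.Wl4

/-!
P159 / H686, module SHIFT: the law `nuM` seen through a linear window is compared (in the sense of
`Cmp`) with the same law shifted by a deterministic field `g` of small energy `qf (An) g`.
Used for the SHIFTED WINDOWS `w F = wd (F + g)` of S (row 6357): the smooth background of the
other core is put into the window variable.
-/

set_option linter.unusedSectionVars false

namespace Vale.Agent.P159.H686

open Finset Matrix MeasureTheory
open Vale.Agent.P159.H37 (gau qf)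
open Vale.Agent.P159.H963 (MF GW An)
open Vale.Agent.P159.H883
open Vale.Agent.P159.H708 (cmp_map cmp_chain cmp_gau_nuM wd mw mw_J1 bB zB)
open Vale.Agent.P159.TM.Spec (V)

noncomputable section

/-! ### shift of a standard Gaussian -/

section gauss

variable {I J : Type*} [Fintype I] [Fintype J]

lemma gau_exp_int (a : I → ℝ) (s : ℝ) :
    Integrable (fun x : I → ℝ => Real.exp (s * ∑ i, a i * x i)) (gau I) ∧
    ∫ x, Real.exp (s * ∑ i, a i * x i) ∂(gau I) = Real.exp (s ^ 2 * (∑ i, a i ^ 2) / 2) := by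
  have e1 : (fun x : I → ℝ => Real.exp (s * ∑ i, a i * x i)) =
      fun x => Real.exp (∑ i, (s * a i) * x i) := by
    funext x
    rw [Finset.mul_sum]
    congr 1
    exact Finset.sum_congr rfl fun i _ => by ring
  rw [e1]
  refine ⟨H37.integrable_exp_lin _, ?_⟩
  rw [H37.gau_exp]
  congr 1
  rw [Finset.mul_sum]
  congr 1
  exact Finset.sum_congr rfl fun i _ => by ring

/-- **shift of a Gaussian by a short vector** -/
theorem cmp_gau_shift {v : I → ℝ} {k u s : ℝ} (hk : ∑ i, v i ^ 2 ≤ k) (hu : 0 ≤ u)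
    (hs : 0 ≤ s) :
    Cmp (gau I) (gau I) (fun x => x) (fun x => x + v) (Real.exp (u + k / 2) - 1)
      (4 * Real.exp (-(s * u) + s ^ 2 * k / 2 + s * k)) := by
  intro ψ B hψ h0 hB
  have hB0 : 0 ≤ B := (h0 0).trans (hB 0)
  set q : ℝ := ∑ i, v i ^ 2 with hq
  have hq0 : 0 ≤ q := Finset.sum_nonneg fun i _ => sq_nonneg _
  have hk0 : 0 ≤ k := hq0.trans hk
  set X : (I → ℝ) → ℝ := fun x => ∑ i, v i * x i with hX
  have hXm : Measurable X := by
    rw [hX]
    fun_prop
  have ei : ∀ a : ℝ, Integrable (fun x => Real.exp (a * X x)) (gau I) := fun a =>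
    (gau_exp_int v a).1
  have ev : ∀ a : ℝ, ∫ x, Real.exp (a * X x) ∂(gau I) = Real.exp (a ^ 2 * q / 2) := fun a =>
    (gau_exp_int v a).2
  have iψ : Integrable ψ (gau I) := Integrable.of_bound hψ.aestronglyMeasurable B
    (Filter.Eventually.of_forall fun x => by
      rw [Real.norm_eq_abs, abs_of_nonneg (h0 x)]
      exact hB x)
  have e1 : ∫ x, ψ (x + v) ∂(gau I) = ∫ x, Real.exp (X x - q / 2) * ψ x ∂(gau I) :=
    H37.gau_shift v ψ
  have iρ : Integrable (fun x => Real.exp (X x - q / 2)) (gau I) := by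
    have h1 := (ei 1).mul_const (Real.exp (-(q / 2)))
    refine h1.congr (Filter.Eventually.of_forall fun x => ?_)
    simp only
    rw [← Real.exp_add]
    congr 1
    ring
  have iρψ : Integrable (fun x => Real.exp (X x - q / 2) * ψ x) (gau I) :=
    iρ.mul_bdd (c := B) hψ.aestronglyMeasurable (Filter.Eventually.of_forall fun x => by
      rw [Real.norm_eq_abs, abs_of_nonneg (h0 x)]
      exact hB x)
  -- the majorant
  set Y : (I → ℝ) → ℝ := fun x => Real.exp (-(s * u)) *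
    (Real.exp (-(q / 2)) * (Real.exp ((1 + s) * X x) + Real.exp ((1 - s) * X x)) +
      (Real.exp (s * X x) + Real.exp (-s * X x))) with hY
  have iY : Integrable Y (gau I) :=
    ((((ei (1 + s)).add (ei (1 - s))).const_mul _).add ((ei s).add (ei (-s)))).const_mul _
  have hpt : ∀ x, |Real.exp (X x - q / 2) - 1| * ψ x
      ≤ (Real.exp (u + k / 2) - 1) * ψ x + B * Y x := by
    intro x
    have hY0 : 0 ≤ Y x := by
      rw [hY]
      positivity
    by_cases hx : |X x| ≤ u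
    · have h1 : |X x - q / 2| ≤ u + k / 2 := by
        have := abs_le.1 hx
        rw [abs_le]
        constructor <;> linarith
      have h2 : |Real.exp (X x - q / 2) - 1| ≤ Real.exp (u + k / 2) - 1 := by
        have h3 := abs_le.1 h1
        rw [abs_le]
        have h4 : Real.exp (X x - q / 2) ≤ Real.exp (u + k / 2) := Real.exp_le_exp.2 h3.2
        have h5 : Real.exp (-(u + k / 2)) ≤ Real.exp (X x - q / 2) := Real.exp_le_exp.2 h3.1
        have h6 : 2 ≤ Real.exp (u + k / 2) + Real.exp (-(u + k / 2)) := by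
          have h7 := Real.add_one_le_exp (u + k / 2)
          have h8 := Real.add_one_le_exp (-(u + k / 2))
          linarith
        constructor <;> linarith
      have h3 := mul_le_mul_of_nonneg_right h2 (h0 x)
      have h4 : 0 ≤ B * Y x := mul_nonneg hB0 hY0
      linarith
    · push Not at hx
      have h1 : |Real.exp (X x - q / 2) - 1| ≤ Real.exp (X x - q / 2) + 1 := by
        have := Real.exp_pos (X x - q / 2)
        rw [abs_le]
        constructor <;> linarith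
      have h2 : 1 ≤ Real.exp (-(s * u)) * (Real.exp (s * X x) + Real.exp (-s * X x)) := by
        rcases lt_abs.1 hx with h3 | h3
        · have h4 : 1 ≤ Real.exp (-(s * u)) * Real.exp (s * X x) := by
            rw [← Real.exp_add]
            apply Real.one_le_exp
            have := mul_le_mul_of_nonneg_left h3.le hs
            linarith
          have h5 : 0 ≤ Real.exp (-(s * u)) * Real.exp (-s * X x) := by positivity
          linarith
        · have h4 : 1 ≤ Real.exp (-(s * u)) * Real.exp (-s * X x) := by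
            rw [← Real.exp_add]
            apply Real.one_le_exp
            have := mul_le_mul_of_nonneg_left h3.le hs
            linarith
          have h5 : 0 ≤ Real.exp (-(s * u)) * Real.exp (s * X x) := by positivity
          linarith
      have h3 : Real.exp (X x - q / 2) + 1 ≤ Y x := by
        have h4 : Real.exp (X x - q / 2) + 1 ≤ (Real.exp (X x - q / 2) + 1) *
            (Real.exp (-(s * u)) * (Real.exp (s * X x) + Real.exp (-s * X x))) :=
          le_mul_of_one_le_right (by positivity) h2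
        refine h4.trans_eq ?_
        rw [hY]
        simp only
        have a1 : Real.exp (X x - q / 2) = Real.exp (-(q / 2)) * Real.exp (X x) := by
          rw [← Real.exp_add]
          congr 1
          ring
        have a2 : Real.exp ((1 + s) * X x) = Real.exp (X x) * Real.exp (s * X x) := by
          rw [← Real.exp_add]
          congr 1
          ring
        have a3 : Real.exp ((1 - s) * X x) = Real.exp (X x) * Real.exp (-s * X x) := by
          rw [← Real.exp_add]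
          congr 1
          ring
        rw [a1, a2, a3]
        ring
      have h4 : |Real.exp (X x - q / 2) - 1| * ψ x ≤ Y x * B :=
        mul_le_mul (h1.trans h3) (hB x) (h0 x) hY0
      have h5 : 0 ≤ (Real.exp (u + k / 2) - 1) * ψ x := by
        refine mul_nonneg ?_ (h0 x)
        have := Real.add_one_le_exp (u + k / 2)
        linarith
      linarith
  have hYv : ∫ x, Y x ∂(gau I) ≤ 4 * Real.exp (-(s * u) + s ^ 2 * k / 2 + s * k) := by
    have e2 : ∫ x, Y x ∂(gau I) = Real.exp (-(s * u)) * (Real.exp (-(q / 2)) *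
        (Real.exp ((1 + s) ^ 2 * q / 2) + Real.exp ((1 - s) ^ 2 * q / 2)) +
        (Real.exp (s ^ 2 * q / 2) + Real.exp ((-s) ^ 2 * q / 2))) := by
      have j1 : ∫ x, (Real.exp ((1 + s) * X x) + Real.exp ((1 - s) * X x)) ∂(gau I) =
          Real.exp ((1 + s) ^ 2 * q / 2) + Real.exp ((1 - s) ^ 2 * q / 2) := by
        rw [integral_add (ei (1 + s)) (ei (1 - s)), ev, ev]
      have j2 : ∫ x, (Real.exp (s * X x) + Real.exp (-s * X x)) ∂(gau I) =
          Real.exp (s ^ 2 * q / 2) + Real.exp ((-s) ^ 2 * q / 2) := by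
        rw [integral_add (ei s) (ei (-s)), ev, ev]
      have i3 : Integrable (fun x => Real.exp (-(q / 2)) *
          (Real.exp ((1 + s) * X x) + Real.exp ((1 - s) * X x))) (gau I) :=
        ((ei (1 + s)).add (ei (1 - s))).const_mul _
      have i4 : Integrable (fun x => Real.exp (s * X x) + Real.exp (-s * X x)) (gau I) :=
        (ei s).add (ei (-s))
      rw [hY]
      simp only
      rw [integral_const_mul, integral_add i3 i4, integral_const_mul, j1, j2]
    rw [e2]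
    have b1 : Real.exp (-(q / 2)) * Real.exp ((1 + s) ^ 2 * q / 2)
        ≤ Real.exp (s ^ 2 * k / 2 + s * k) := by
      rw [← Real.exp_add]
      apply Real.exp_le_exp.2
      have h1 : s ^ 2 * q ≤ s ^ 2 * k := mul_le_mul_of_nonneg_left hk (sq_nonneg s)
      have h2 : s * q ≤ s * k := mul_le_mul_of_nonneg_left hk hs
      nlinarith
    have b2 : Real.exp (-(q / 2)) * Real.exp ((1 - s) ^ 2 * q / 2)
        ≤ Real.exp (s ^ 2 * k / 2 + s * k) := by
      rw [← Real.exp_add]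
      apply Real.exp_le_exp.2
      have h1 : s ^ 2 * q ≤ s ^ 2 * k := mul_le_mul_of_nonneg_left hk (sq_nonneg s)
      have h2 : 0 ≤ s * q := mul_nonneg hs hq0
      have h3 : 0 ≤ s * k := mul_nonneg hs hk0
      nlinarith
    have b3 : Real.exp (s ^ 2 * q / 2) ≤ Real.exp (s ^ 2 * k / 2 + s * k) := by
      apply Real.exp_le_exp.2
      have h1 : s ^ 2 * q ≤ s ^ 2 * k := mul_le_mul_of_nonneg_left hk (sq_nonneg s)
      have h3 : 0 ≤ s * k := mul_nonneg hs hk0
      linarith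
    have b4 : Real.exp ((-s) ^ 2 * q / 2) ≤ Real.exp (s ^ 2 * k / 2 + s * k) := by
      rw [neg_sq]
      exact b3
    have b5 : Real.exp (-(q / 2)) * (Real.exp ((1 + s) ^ 2 * q / 2) +
        Real.exp ((1 - s) ^ 2 * q / 2)) + (Real.exp (s ^ 2 * q / 2) +
        Real.exp ((-s) ^ 2 * q / 2)) ≤ 4 * Real.exp (s ^ 2 * k / 2 + s * k) := by
      rw [mul_add]
      linarith
    refine (mul_le_mul_of_nonneg_left b5 (Real.exp_pos _).le).trans_eq ?_
    rw [add_assoc, Real.exp_add (-(s * u))]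
    ring
  rw [e1]
  have e3 : ∫ x, Real.exp (X x - q / 2) * ψ x ∂(gau I) - ∫ x, ψ x ∂(gau I) =
      ∫ x, (Real.exp (X x - q / 2) - 1) * ψ x ∂(gau I) := by
    rw [← integral_sub iρψ iψ]
    refine integral_congr_ae (Filter.Eventually.of_forall fun x => ?_)
    simp only
    ring
  rw [e3]
  have i1 : Integrable (fun x => (Real.exp (X x - q / 2) - 1) * ψ x) (gau I) := by
    refine (iρψ.sub iψ).congr (Filter.Eventually.of_forall fun x => ?_)
    simp only [Pi.sub_apply]
    ring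
  calc |∫ x, (Real.exp (X x - q / 2) - 1) * ψ x ∂(gau I)|
      ≤ ∫ x, |(Real.exp (X x - q / 2) - 1) * ψ x| ∂(gau I) := abs_integral_le_integral_abs
    _ ≤ ∫ x, ((Real.exp (u + k / 2) - 1) * ψ x + B * Y x) ∂(gau I) := by
        refine integral_mono i1.abs ((iψ.const_mul _).add (iY.const_mul _)) fun x => ?_
        simp only
        rw [abs_mul, abs_of_nonneg (h0 x)]
        exact hpt x
    _ = (Real.exp (u + k / 2) - 1) * ∫ x, ψ x ∂(gau I) + B * ∫ x, Y x ∂(gau I) := by
        rw [integral_add (iψ.const_mul _) (iY.const_mul _), integral_const_mul,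
          integral_const_mul]
    _ ≤ _ := by
        have := mul_le_mul_of_nonneg_left hYv hB0
        linarith

end gauss

/-! ### shift under `nuM` -/

section gen

variable {V : Type} [Fintype V] [DecidableEq V] [Nonempty V]
variable {w : (V → ℤ) → ℝ} {M : Matrix V V ℝ} {m : ℝ} {x₀ : V}
variable {β : Type*} [Fintype β]

/-- **SHIFT**: the law of `D (F + g)` against the law of `D F` under `nuM` -/
theorem cmp_shift (hw : GW w) (hb : BW w) (hM : MF M m)
    {Bd : Set (V → ℝ)} (hBd : MeasurableSet Bd) {η b : ℝ} (hη0 : 0 ≤ η)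
    (hη : ∀ F, F ∉ Bd → Wt w M m x₀ F ≤ 1 + η) (hbd : (nuM w M x₀).real Bd ≤ b)
    (hηb : η + b ≤ 1 / 8) {D : Matrix β V ℝ} (hD : D * J1 V = 0) (g : V → ℝ) {k u s : ℝ}
    (hk : qf (An w M m x₀) g ≤ k) (hu : 0 ≤ u) (hs : 0 ≤ s)
    (hd : Real.exp (u + k / 2) - 1 ≤ 1 / 8) :
    Cmp (nuM w M x₀) (nuM w M x₀) (fun F => D *ᵥ F) (fun F => D *ᵥ (F + g))
      (4 * (η + b) + 2 * (Real.exp (u + k / 2) - 1))
      (4 * b + 2 * (4 * Real.exp (-(s * u) + s ^ 2 * k / 2 + s * k))) := by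
  have hb0 : 0 ≤ b := measureReal_nonneg.trans hbd
  have hH := pc_An hw hb hM x₀
  obtain ⟨S, hS, hS2, -⟩ := hH.exists_S
  have hHi : An w M m x₀ * Hi (An w M m x₀) * An w M m x₀ = An w M m x₀ := by
    rw [hH.H_Hi, Matrix.sub_mul, Matrix.one_mul, hH.J1_mul, sub_zero]
  have e1 : (D * S) * (D * S)ᵀ = D * Hi (An w M m x₀) * Dᵀ := by
    rw [transpose_mul, ← hS]
    simp only [Matrix.mul_assoc]
  -- the centred field
  set g' : V → ℝ := (1 - J1 V) *ᵥ g with hg'
  set v : V → ℝ := Sᵀ *ᵥ ((An w M m x₀ + J1 V) *ᵥ g') with hv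
  have hDg : D *ᵥ g' = D *ᵥ g := by
    rw [hg', mulVec_mulVec, Matrix.mul_sub, Matrix.mul_one, hD, sub_zero]
  have hSv : S *ᵥ v = g' := by
    rw [hv, mulVec_mulVec, mulVec_mulVec, hS, hH.Hi_mul, one_mulVec]
  have hBv : (D * S) *ᵥ v = D *ᵥ g := by
    rw [← mulVec_mulVec, hSv, hDg]
  have hJg : J1 V *ᵥ g' = 0 := by
    rw [hg', mulVec_mulVec, Matrix.mul_sub, Matrix.mul_one, J1_mul_J1, sub_self, zero_mulVec]
  have hv2 : ∑ i, v i ^ 2 = qf (An w M m x₀) g := by
    have h1 : ∑ i, v i ^ 2 = v ⬝ᵥ v := by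
      unfold dotProduct
      exact Finset.sum_congr rfl fun i _ => by ring
    have h2 : v ⬝ᵥ v = ((An w M m x₀ + J1 V) *ᵥ g') ⬝ᵥ (S *ᵥ v) := by
      conv_lhs => rw [hv]
      rw [dotProduct_comm, dotProduct_mulVec, vecMul_transpose, dotProduct_comm]
    have h3 : (An w M m x₀ + J1 V) *ᵥ g' = An w M m x₀ *ᵥ g := by
      rw [add_mulVec, hJg, add_zero, hg', mulVec_mulVec, Matrix.mul_sub, Matrix.mul_one,
        hH.mul_J1, sub_zero]
    rw [h1, h2, h3, hSv, hg', sub_mulVec, one_mulVec, dotProduct_sub]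
    have h4 : (An w M m x₀ *ᵥ g) ⬝ᵥ (J1 V *ᵥ g) = 0 := by
      rw [dotProduct_mulVec, ← mulVec_transpose, J1_symm, mulVec_mulVec, hH.J1_mul,
        zero_mulVec, zero_dotProduct]
    rw [h4, sub_zero, dotProduct_comm]
    unfold qf
    simp only [dotProduct, mulVec, Finset.mul_sum, mul_assoc]
  have c1 := cmp_gau_nuM hw hb hM hBd hη0 hη hbd hD hHi e1
  have c2 : Cmp (gau V) (gau V) (fun x => (D * S) *ᵥ x) (fun x => (D * S) *ᵥ (x + v))
      (Real.exp (u + k / 2) - 1) (4 * Real.exp (-(s * u) + s ^ 2 * k / 2 + s * k)) :=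
    cmp_map (cmp_gau_shift (hv2.le.trans hk) hu hs) (H363.measurable_mulVec (D * S))
  have c3 : Cmp (gau V) (nuM w M x₀) (fun x => (D * S) *ᵥ (x + v)) (fun F => D *ᵥ (F + g))
      (η + b) b := by
    have h1 := cmp_map c1 (T := fun z : β → ℝ => z + D *ᵥ g) (by fun_prop)
    have e2 : (fun x : V → ℝ => (D * S) *ᵥ (x + v)) = fun x => (D * S) *ᵥ x + D *ᵥ g := by
      funext x
      rw [mulVec_add, hBv]
    have e3 : (fun F : V → ℝ => D *ᵥ (F + g)) = fun F => D *ᵥ F + D *ᵥ g := by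
      funext F
      rw [mulVec_add]
    rw [e2, e3]
    exact h1
  have hk0 : 0 ≤ k := (hv2 ▸ Finset.sum_nonneg fun i _ => sq_nonneg (v i) :
    0 ≤ qf (An w M m x₀) g).trans hk
  refine cmp_chain (by linarith) hηb hb0 ?_ hd (by positivity) c1 c2 c3
  have := Real.add_one_le_exp (u + k / 2)
  linarith

end gen

section tor

variable {N : ℕ} [NeZero N]
variable {w : (V N → ℤ) → ℝ} {M : Matrix (V N) (V N) ℝ} {m : ℝ} {x₀ : V N}

/-- **SHIFT for the two core windows** -/
theorem cmp_shift_wd (hw : GW w) (hb : BW w) (hM : MF M m)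
    {Bd : Set (V N → ℝ)} (hBd : MeasurableSet Bd) {η b : ℝ} (hη0 : 0 ≤ η)
    (hη : ∀ F, F ∉ Bd → Wt w M m x₀ F ≤ 1 + η) (hbd : (nuM w M x₀).real Bd ≤ b)
    (hηb : η + b ≤ 1 / 8) (D : ℕ) (p q : V N) (g : V N → ℝ) {k u s : ℝ}
    (hk : qf (An w M m x₀) g ≤ k) (hu : 0 ≤ u) (hs : 0 ≤ s)
    (hd : Real.exp (u + k / 2) - 1 ≤ 1 / 8) :
    Cmp (nuM w M x₀) (nuM w M x₀) (wd D p q) (fun F => wd D p q (F + g))
      (4 * (η + b) + 2 * (Real.exp (u + k / 2) - 1))
      (4 * b + 2 * (4 * Real.exp (-(s * u) + s ^ 2 * k / 2 + s * k))) :=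
  cmp_shift hw hb hM hBd hη0 hη hbd hηb (D := mw (bB D p q) (zB D)) (mw_J1 _ _) g hk hu hs hd

/-- **SHIFT in numbers**: `qf (An) g ≤ ρ ^ 4` -/
theorem cmp_shift_num (hw : GW w) (hb : BW w) (hM : MF M m)
    {Bd : Set (V N → ℝ)} (hBd : MeasurableSet Bd) {η b : ℝ} (hη0 : 0 ≤ η)
    (hη : ∀ F, F ∉ Bd → Wt w M m x₀ F ≤ 1 + η) (hbd : (nuM w M x₀).real Bd ≤ b)
    (hηb : η + b ≤ 1 / 8) (D : ℕ) (p q : V N) (g : V N → ℝ) {ρ : ℝ} (hρ : 0 < ρ)
    (hρ1 : ρ ≤ 1 / 24) (hk : qf (An w M m x₀) g ≤ ρ ^ 4) :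
    Cmp (nuM w M x₀) (nuM w M x₀) (wd D p q) (fun F => wd D p q (F + g))
      (4 * (η + b) + 6 * ρ) (4 * b + 8 * Real.exp (1 - 1 / (2 * ρ ^ 2))) := by
  have h4 : ρ ^ 4 ≤ ρ := by
    have h1 : ρ ^ 4 ≤ ρ ^ 1 := pow_le_pow_of_le_one hρ.le (by linarith) (by norm_num)
    rwa [pow_one] at h1
  have hx0 : 0 ≤ ρ + ρ ^ 4 / 2 := by positivity
  have hx : ρ + ρ ^ 4 / 2 ≤ 3 / 2 * ρ := by linarith
  have hexp : Real.exp (ρ + ρ ^ 4 / 2) - 1 ≤ 3 * ρ := by
    have h1 := Real.abs_exp_sub_one_le (x := ρ + ρ ^ 4 / 2)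
      (by rw [abs_of_nonneg hx0]; linarith)
    rw [abs_of_nonneg hx0] at h1
    have h2 := (abs_le.1 h1).2
    linarith
  have hρ3 : (0 : ℝ) ≤ (ρ ^ 3)⁻¹ := by positivity
  have c := cmp_shift_wd hw hb hM hBd hη0 hη hbd hηb D p q g hk hρ.le hρ3 (by linarith)
  refine H708.cmp_mono c (by linarith) ?_
  have e1 : -((ρ ^ 3)⁻¹ * ρ) + (ρ ^ 3)⁻¹ ^ 2 * ρ ^ 4 / 2 + (ρ ^ 3)⁻¹ * ρ ^ 4 =
      -(1 / (2 * ρ ^ 2)) + ρ := by
    field_simp
    ring
  rw [e1]
  have h5 : Real.exp (-(1 / (2 * ρ ^ 2)) + ρ) ≤ Real.exp (1 - 1 / (2 * ρ ^ 2)) := by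
    apply Real.exp_le_exp.2
    linarith
  linarith

end tor

/-! ### composition -/

section comp

variable {Ω Ω' X : Type*} [MeasurableSpace Ω] [MeasurableSpace Ω'] [MeasurableSpace X]

/-- comparison of shifted windows from the comparison of the windows and the two shifts -/
theorem cmp_shifted [Nonempty X] {ν : Measure Ω} {ν' : Measure Ω'} {w ws : Ω → X}
    {w' ws' : Ω' → X} {a b a₁ b₁ a₂ b₂ : ℝ} (ha : 0 ≤ a) (ha' : a ≤ 1 / 8) (hb : 0 ≤ b)
    (ha₁ : 0 ≤ a₁) (ha₁' : a₁ ≤ 1 / 8) (hb₁ : 0 ≤ b₁) (ha₂ : 0 ≤ a₂) (ha₂' : a₂ ≤ 1 / 8)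
    (hb₂ : 0 ≤ b₂) (h : Cmp ν ν' w w' a b) (h₁ : Cmp ν ν w ws a₁ b₁)
    (h₂ : Cmp ν' ν' w' ws' a₂ b₂) :
    Cmp ν ν' ws ws' (2 * (2 * a₁ + a + a₂)) (2 * (2 * b₁ + b + b₂)) := by
  have s1 : Cmp ν ν ws w (2 * a₁) (2 * b₁) := by
    have h3 : a₁ < 1 := by linarith
    refine H708.cmp_mono (H708.cmp_symm h3 ha₁ h₁) ?_ ?_
    · rw [div_le_iff₀ (by linarith)]
      nlinarith
    · rw [div_le_iff₀ (by linarith)]
      nlinarith
  have s2 := H708.cmp_trans ha s1 h
  have s3 := H708.cmp_trans ha₂ s2 h₂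
  refine H708.cmp_mono s3 ?_ ?_
  · nlinarith [mul_nonneg ha₁ ha, mul_nonneg ha ha₂, mul_nonneg ha₁ ha₂,
      mul_nonneg (mul_nonneg ha₁ ha) ha₂]
  · nlinarith [mul_nonneg hb₁ ha, mul_nonneg hb ha₂, mul_nonneg hb₁ ha₂,
      mul_nonneg (mul_nonneg hb₁ ha) ha₂]

end comp

end

end Vale.Agent.P159.H686
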