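import Vale.Agent.P159.H773.Sk4
import Vale.Agent.P159.H686.Shf

/-!
P159 / H686, module LVS: the skeleton of S (773's `Lvl`, `SInB`, `xy_amp_SInB`) with ARBITRARY
windows `W j R` (for instance the SHIFTED WINDOWS `W j R F = wdF (D j) R (F + gs j R)` of row 6357),
and the fields `loc`, `cmp`, `stp` of a level for shifted windows.
-/

open MeasureTheory Filter Topology Finset Matrix

set_option linter.all false

namespace Vale.Agent.P159.H686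

open Vale.Agent.P159.TM.Spec (V)
open Vale.Agent.P159.TM.SpecC (wT)
open Vale.Agent.P159.TM.H459 (sn)
open Vale.Agent.P159.H552.Dx7 (kk nx RawCc xy_amp_Cc)
open Vale.Agent.P159.H801 (itw T3 itw_succ)
open Vale.Agent.P159.H264 (kap)
open Vale.Agent.P159.H883 (nuM Psi BW Zp Wt CT)
open Vale.Agent.P159.H708 (Bx wd)
open Vale.Agent.P159.H770 (wTD Ed)
open Vale.Agent.P159.H817 (eD)
open Vale.Agent.P159.H462 (Dom)
open Vale.Agent.P159.H963 (Anm)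
open Vale.Agent.P159.H27 (Rb BelR LevR Num er chain_of_belowR)
open Vale.Agent.P159.H773 (sd sd_ge ax0 nuF PsF cMn wdF cMn_pos ej ej_le Sma Blw Gcut Pth
  cMn_pt eD_en PsF_fields sn_ax0)

noncomputable section

section fam

variable (b : ℝ) (Nf : ℕ → ℕ) [∀ R, NeZero (Nf R)]

/-- **inputs of one level with arbitrary windows `W R`**, masses `t` (level) and `t'` (next
level), distances `R0 ≤ R ≤ R1` -/
structure LvlW (wD : ∀ R, (V (Nf R) → ℤ) → ℝ) (φ : ∀ R, V (Nf R) → ℝ) (e : ℕ → ℝ)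
    (t t' a : ℝ) (R0 R1 D : ℕ) (W : ∀ R, (V (Nf R) → ℝ) → Bx D ⊕ Bx D → ℝ)
    (G : (Bx D ⊕ Bx D → ℝ) → ℝ) (δ q bb Λ h τ η κP bW : ℝ) : Prop where
  loc : ∀ R, R0 ≤ R → R ≤ R1 → ∃ Gd : Set (V (Nf R) → ℝ),
    Lcl (nuF b Nf t R) (PsF b Nf wD φ t R) (cMn b Nf wD R)
      (cMn b Nf wD R0 * Real.exp (-(a / 2 * (e R - e R0)))) (W R) G Gd Λ δ q bb
  cmp : ∀ R, R0 ≤ R → R ≤ R1 → Cmp (nuF b Nf t R0) (nuF b Nf t R) (W R0) (W R) h τ
  stp : Stp (nuF b Nf t R1) (nuF b Nf t' R1) (PsF b Nf wD φ t R1) (PsF b Nf wD φ t' R1)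
    (cMn b Nf wD R1) (W R1) κP η bW

/-- the shifted window of the pair `R`: the smooth field `g` is put into the window variable -/
def wdS (D R : ℕ) (g : V (Nf R) → ℝ) (F : V (Nf R) → ℝ) : Bx D ⊕ Bx D → ℝ :=
  wdF Nf D R (F + g)

end fam

section chain

variable {b : ℝ} {Nf : ℕ → ℕ} [∀ R, NeZero (Nf R)]
variable {wD : ∀ R, (V (Nf R) → ℤ) → ℝ} {φ : ∀ R, V (Nf R) → ℝ} {e a : ℕ → ℝ}
variable {k w : ℕ → ℕ} {n0 : ℕ} {t : ℕ → ℝ} {D : ℕ → ℕ}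
variable {W : ∀ j R, (V (Nf R) → ℝ) → Bx (D j) ⊕ Bx (D j) → ℝ}
variable {G : ∀ j, (Bx (D j) ⊕ Bx (D j) → ℝ) → ℝ} {ε δ q bb Λ h τ η κP bW : ℕ → ℝ}

/-- 773's `Lvl` is `LvlW` with the windows `wdF` -/
lemma LvlW.of_lvl {t t' a : ℝ} {R0 R1 D : ℕ} {G : (Bx D ⊕ Bx D → ℝ) → ℝ}
    {δ q bb Λ h τ η κP bW : ℝ}
    (H : H773.Lvl b Nf wD φ e t t' a R0 R1 D G δ q bb Λ h τ η κP bW) :
    LvlW b Nf wD φ e t t' a R0 R1 D (wdF Nf D) G δ q bb Λ h τ η κP bW :=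
  ⟨H.loc, H.cmp, H.stp⟩

/-- **the relation at every level, from level-wise inputs which may use the relation below**
(arbitrary windows) -/
theorem stat_of_lvlW (hb : 0 < b) (ht : ∀ j, 0 < t j) (hD : ∀ R, BW (wD R))
    (hmono : ∀ j, Rb k w n0 j ≤ Rb k w n0 (j + 1))
    (hL : ∀ j, Blw b Nf wD e a k w n0 (ej ε h Λ) j →
      LvlW b Nf wD φ e (t j) (t (j + 1)) (a (itw w n0 j)) (Rb k w n0 j)
      (Rb k w n0 (j + 1)) (D j) (W j) (G j) (δ j) (q j) (bb j) (Λ j) (h j) (τ j) (η j)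
      (κP j) (bW j))
    (sml : ∀ i, Sml (ε i) (δ i) (q i) (bb i) (Λ i) (h i) (τ i) (η i) (κP i) (bW i)
      (Λ (i + 1)) (bb (i + 1)))
    (alp : ∀ i, 5 * al (κP i) (η i) + 4 * ε i ≤ 1 / 4)
    (slow : ∀ i, ε i ≤ 2 * ε (i + 1)) (j : ℕ) :
    Blw b Nf wD e a k w n0 (ej ε h Λ) j := by
  classical
  have hpr : ∀ (s : ℝ), 0 < s → ∀ R, IsProbabilityMeasure (nuF b Nf s R) := fun s hs R =>
    H883.prob_nuM (H963.gw_wT hb.le) (H883.bw_wT hb) (H883.mf_scalar hs) 0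
  set Rj : ℕ → ℕ := fun j => Rb k w n0 j with hRj
  have hcp := cMn_pos (b := b) (Nf := Nf) hb hD
  -- the good set of the pair `R` at level `j`
  let P : ∀ j R, Set (V (Nf R) → ℝ) → Prop := fun j R Gd =>
    Lcl (nuF b Nf (t j) R) (PsF b Nf wD φ (t j) R) (cMn b Nf wD R)
      (cMn b Nf wD (Rj j) * Real.exp (-(a (itw w n0 j) / 2 * (e R - e (Rj j)))))
      (W j R) (G j) Gd (Λ j) (δ j) (q j) (bb j)
  let Gd : ∀ j R, Set (V (Nf R) → ℝ) := fun j R =>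
    if hx : ∃ Gd, P j R Gd then Classical.choose hx else ∅
  have hGd : ∀ j R, (∃ Gd, P j R Gd) → P j R (Gd j R) := fun j R hx => by
    have : Gd j R = Classical.choose hx := dif_pos hx
    rw [this]
    exact Classical.choose_spec hx
  have N : Num (fun j => V (Nf (Rj j)) → ℝ) (fun j => V (Nf (Rj (j + 1))) → ℝ)
      (fun j => nuF b Nf (t j) (Rj j)) (fun j => nuF b Nf (t j) (Rj (j + 1)))
      ε δ q bb Λ h τ η κP bW :=
    ⟨fun i => hpr _ (ht i) _, fun i => hpr _ (ht i) _, sml, alp, slow⟩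
  have H : ∀ i, BelR (fun R => Real.log (cMn b Nf wD R)) e a k w n0 (er ε h Λ) i →
      LevR (fun j => V (Nf (Rj j)) → ℝ) (fun j => V (Nf (Rj (j + 1))) → ℝ)
      (fun j => Bx (D j) ⊕ Bx (D j) → ℝ) (fun j => nuF b Nf (t j) (Rj j))
      (fun j => nuF b Nf (t j) (Rj (j + 1))) (fun j => PsF b Nf wD φ (t j) (Rj j))
      (fun j => PsF b Nf wD φ (t j) (Rj (j + 1))) (fun j => cMn b Nf wD (Rj j))
      (fun j => cMn b Nf wD (Rj j) *
        Real.exp (-(a (itw w n0 j) / 2 * (e (Rj (j + 1)) - e (Rj j)))))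
      (fun j => W j (Rj j)) (fun j => W j (Rj (j + 1))) G
      (fun j => Gd j (Rj j)) (fun j => Gd j (Rj (j + 1)))
      δ q bb Λ h τ η κP bW (fun R => Real.log (cMn b Nf wD R)) e a k w n0 i := by
    intro i hB
    have hLi := hL i hB
    refine ⟨⟨?_, ?_, ?_, ?_⟩, fun R h1 h2 => ?_⟩
    · have h3 := hGd i (Rj i) (hLi.loc (Rj i) le_rfl (hmono i))
      have e1 : cMn b Nf wD (Rj i) * Real.exp (-(a (itw w n0 i) / 2 *
          (e (Rj i) - e (Rj i)))) = cMn b Nf wD (Rj i) := by simp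
      simp only [P] at h3
      rw [e1] at h3
      exact h3
    · exact hGd i (Rj (i + 1)) (hLi.loc (Rj (i + 1)) (hmono i) le_rfl)
    · exact hLi.cmp (Rj (i + 1)) (hmono i) le_rfl
    · exact hLi.stp
    · obtain ⟨GdR, hGR⟩ := hLi.loc R h1 h2
      refine ⟨_, _, nuF b Nf (t i) R, PsF b Nf wD φ (t i) R, W i R, GdR,
        hpr _ (ht i) R, ?_, hLi.cmp R h1 h2⟩
      rw [Real.exp_log (hcp R), sub_eq_add_neg, Real.exp_add, Real.exp_log (hcp _)]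
      exact hGR
  exact (chain_of_belowR N H).2 j

/-- **all inputs of S at one ratio**, arbitrary windows, with the relation below as knowledge -/
structure SInW (b : ℝ) (Nf : ℕ → ℕ) [∀ R, NeZero (Nf R)] (wD : ∀ R, (V (Nf R) → ℤ) → ℝ)
    (φ : ∀ R, V (Nf R) → ℝ) (e x y a : ℕ → ℝ) (k w : ℕ → ℕ) (n0 : ℕ) (c' : ℝ) : Prop where
  ex : ∃ (t : ℕ → ℝ) (D : ℕ → ℕ) (W : ∀ j R, (V (Nf R) → ℝ) → Bx (D j) ⊕ Bx (D j) → ℝ)
    (G : ∀ j, (Bx (D j) ⊕ Bx (D j) → ℝ) → ℝ)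
    (ε δ q bb Λ h τ η κP bW : ℕ → ℝ), (∀ j, 0 < t j) ∧
    (∀ j, Blw b Nf wD e a k w n0 (ej ε h Λ) j →
      LvlW b Nf wD φ e (t j) (t (j + 1)) (a (itw w n0 j)) (Rb k w n0 j)
      (Rb k w n0 (j + 1)) (D j) (W j) (G j) (δ j) (q j) (bb j) (Λ j) (h j) (τ j) (η j)
      (κP j) (bW j)) ∧
    (∀ i, Sml (ε i) (δ i) (q i) (bb i) (Λ i) (h i) (τ i) (η i) (κP i) (bW i)
      (Λ (i + 1)) (bb (i + 1))) ∧
    (∀ i, 5 * al (κP i) (η i) + 4 * ε i ≤ 1 / 4) ∧ (∀ i, ε i ≤ 2 * ε (i + 1)) ∧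
    Sma y w n0 c' ε h Λ
  bw : ∀ R, BW (wD R)
  c0 : 0 < c'
  mono : ∀ j, Rb k w n0 j ≤ Rb k w n0 (j + 1)
  kw : ∀ᶠ j in atTop, k (nx w (itw w n0 j)) ≤ 3 * w (itw w n0 j)
  av : ∀ᶠ n in atTop, |a n - H552.Dx7.invS x n| ≤ y n ^ (1 + c')

/-- **the level free inputs of 552 from `SInW`** -/
theorem SInW.raw (hb : 0 < b) {x y : ℕ → ℝ} {c' C0 : ℝ}
    (H : SInW b Nf wD φ e x y a k w n0 c')
    (en : ∀ᶠ R : ℕ in atTop, |e R - 1 / Real.pi * Real.log R| ≤ C0) :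
    RawCc (fun R => Real.log (cMn b Nf wD R)) e a x y k w n0 c' C0 := by
  obtain ⟨t, D, W, G, ε, δ, q, bb, Λ, h, τ, η, κP, bW, ht, hL, sml, alp, slow, hS⟩ := H.ex
  have hst := stat_of_lvlW hb ht H.bw H.mono hL sml alp slow
  refine ⟨H.c0, H.kw, Eventually.of_forall fun j => ?_, H.av, en, ?_⟩
  · have h1 := H.mono j
    unfold Rb at h1
    rw [H801.itw_succ] at h1
    exact (Nat.pow_le_pow_iff_right (by norm_num)).1 h1
  · filter_upwards [ej_le hS.ε0 hS.h0 hS.h1 hS.εy hS.Λy] with j hj R h1 h2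
    have h4 : R ≤ Rb k w n0 (j + 1) := by
      unfold Rb
      rw [H801.itw_succ]
      exact h2
    exact (hst (j + 1) j (Nat.lt_succ_self j) R h1 h4).trans hj

end chain

/-- **THE AMPLITUDE THEOREM FROM THE CONDITIONAL LEVEL-WISE INPUTS** (point cores, arbitrary
windows) -/
theorem xy_amp_SInW {b : ℝ} (hb : 0 < b) {x y : ℕ → ℝ} {i1 : ℕ}
    (hF : ∀ i, i1 ≤ i → ∃ (c r q B A : ℝ) (w : ℕ → ℕ) (n1 n0 : ℕ) (a : ℕ → ℝ) (k : ℕ → ℕ)
      (c' : ℝ) (η : ∀ R, Ed (sd i R) → ℤ) (φ : ∀ R, V (sd i R) → ℝ),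
      T3 x y kap c r q B A w n1 ∧ n1 ≤ n0 ∧ Pth i η ∧
      SInW b (sd i) (fun R => wTD (sd i R) b (η R)) φ (fun R => eD (sd i R) R) x y a k w n0 c') :
    ∃ a : ℝ, 0 < a ∧ Tendsto (fun r : ℕ => corrInf b ((r : ℤ), 0) /
      ((r : ℝ) ^ (-(1 / 4) : ℝ) * Real.log r ^ (1 / 8 : ℝ))) atTop (𝓝 a) := by
  refine xy_amp_Cc hb (x := x) (y := y) (i1 := max i1 1) fun i hi => ?_
  obtain ⟨c, r, q, B, A, w, n1, n0, a, k, c', η, φ, hT, h01, hη, hS⟩ :=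
    hF i ((le_max_left _ _).trans hi)
  have hi1 : 1 ≤ i := (le_max_right _ _).trans hi
  have hN : ∀ᶠ R : ℕ in atTop, 2 * R ≤ sd i R := Eventually.of_forall fun R => by
    have h3 : 2 ^ 1 ≤ 2 ^ i := Nat.pow_le_pow_right (by norm_num) hi1
    exact (Nat.mul_le_mul_right R (by simpa using h3)).trans (sd_ge i R)
  obtain ⟨C0, hC0⟩ := eD_en hN
  have hR := hS.raw hb hC0
  refine ⟨c, r, q, B, A, w, n1, n0, a, k, c', C0, sd i, hT, h01,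
    Eventually.of_forall fun R => by exact_mod_cast sd_ge i R, ?_⟩
  refine ⟨hR.c0, hR.kw, hR.k1, hR.av, hR.en, ?_⟩
  filter_upwards [hR.stat] with j hj R h1 h2
  have h0 : 1 ≤ 2 ^ kk k (itw w n0 j) := Nat.one_le_two_pow
  have h3 := hj R h1 h2
  rw [cMn_pt hb.le hi1 hη (h0.trans h1), cMn_pt hb.le hi1 hη h0] at h3
  exact h3

/-! ### the fields of a level -/

section lev

variable {b : ℝ} {Nf : ℕ → ℕ} [∀ R, NeZero (Nf R)]
variable {wD : ∀ R, (V (Nf R) → ℤ) → ℝ} {φ : ∀ R, V (Nf R) → ℝ} {e : ℕ → ℝ}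

lemma measurable_wdS (D R : ℕ) (g : V (Nf R) → ℝ) : Measurable (wdS Nf D R g) :=
  (H708.measurable_wd _ _ _).comp (measurable_id.add_const g)

/-- **`Lcl` of the pair `R` with the window functional of the base pair `R0`**, any window -/
theorem lcl_W (hb : 0 < b) (hD : ∀ R, BW (wD R)) {t a : ℝ} (ht : 0 < t) {R0 R D : ℕ}
    {W : (V (Nf R) → ℝ) → Bx D ⊕ Bx D → ℝ} (hW : Measurable W)
    {dec : (Bx D ⊕ Bx D → ℝ) → V (Nf R0) → ℝ} (hdec : Measurable dec)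
    {Gd : Set (V (Nf R) → ℝ)} (hGd : MeasurableSet Gd) {Λ s q bb : ℝ} (hΛ : 0 ≤ Λ)
    (hs1 : s ≤ 1)
    (st : ∀ F ∈ Gd, |Real.log (PsF b Nf wD φ t R F) -
      Real.log (PsF b Nf wD φ t R0 (dec (W F))) + a / 2 * (e R - e R0)| ≤ s)
    (up : ∀ F ∈ Gd, PsF b Nf wD φ t R0 (dec (W F)) ≤ Λ * cMn b Nf wD R0)
    (hQ : ∫ F in Gdᶜ, PsF b Nf wD φ t R F ∂(nuF b Nf t R) ≤ q * cMn b Nf wD R)
    (hP : (nuF b Nf t R).real Gdᶜ ≤ bb) :
    Lcl (nuF b Nf t R) (PsF b Nf wD φ t R) (cMn b Nf wD R)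
      (cMn b Nf wD R0 * Real.exp (-(a / 2 * (e R - e R0)))) W
      (Gcut b Nf wD φ t R0 D dec Λ) Gd Λ (2 * s) q bb := by
  obtain ⟨f1, f2, f3, f4⟩ := PsF_fields (φ := φ) hb hD ht R
  obtain ⟨g1, g2, _, _⟩ := PsF_fields (φ := φ) hb hD ht R0
  have c0 := cMn_pos (Nf := Nf) hb hD R0
  refine ⟨cMn_pos hb hD R, mul_pos c0 (Real.exp_pos _), fun F => (f1 F).le, f2, f3, f4,
    hW, ?_, fun z => ?_, fun z => min_le_left _ _, hGd, fun F hF => ?_,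
    hQ, hP⟩
  · exact measurable_const.min ((g2.comp hdec).div_const _)
  · exact le_min hΛ (div_nonneg (g1 _).le c0.le)
  · have h1 := st F hF
    have h2 := up F hF
    obtain ⟨A, hA⟩ : ∃ A, A = PsF b Nf wD φ t R F := ⟨_, rfl⟩
    obtain ⟨B, hB⟩ : ∃ B, B = PsF b Nf wD φ t R0 (dec (W F)) := ⟨_, rfl⟩
    have hA0 : 0 < A := hA ▸ f1 F
    have hB0 : 0 < B := hB ▸ g1 _
    have e1 : Gcut b Nf wD φ t R0 D dec Λ (W F) = B / cMn b Nf wD R0 := by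
      unfold Gcut
      rw [← hB]
      refine min_eq_right ?_
      rw [div_le_iff₀ c0, hB]
      exact h2
    rw [e1, ← hA]
    rw [← hA, ← hB] at h1
    obtain ⟨u, hu⟩ : ∃ u, u = Real.log A - Real.log B + a / 2 * (e R - e R0) := ⟨_, rfl⟩
    rw [← hu] at h1
    have e2 : A / (cMn b Nf wD R0 * Real.exp (-(a / 2 * (e R - e R0)))) =
        B / cMn b Nf wD R0 * Real.exp u := by
      rw [hu, Real.exp_add, Real.exp_sub, Real.exp_log hA0, Real.exp_log hB0, Real.exp_neg]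
      have := Real.exp_pos (a / 2 * (e R - e R0))
      field_simp
    rw [e2]
    have e3 : B / cMn b Nf wD R0 * Real.exp u - B / cMn b Nf wD R0 =
        B / cMn b Nf wD R0 * (Real.exp u - 1) := by ring
    rw [e3, abs_mul, abs_of_pos (div_pos hB0 c0), mul_comm (2 * s)]
    refine mul_le_mul_of_nonneg_left ?_ (div_pos hB0 c0).le
    have h3 := Real.abs_exp_sub_one_le (x := u) (h1.trans hs1)
    linarith

/-- **`Stp` of the pair `R1` for the shifted window** -/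
theorem stp_S (hb : 0 < b) (hD : ∀ R, BW (wD R)) {t t' c : ℝ} (ht' : 0 < t') (htt : t' < t)
    {R1 D : ℕ} (hN : 2 * R1 ≤ Nf R1) (hR : 2 * D < R1) (hD1 : 1 ≤ D)
    (hA : Dom (Anm (Nf R1) b t) t c) (hs : 1 ≤ (1 / t' - 1 / t) * t)
    {Bd : Set (V (Nf R1) → ℝ)} (hBd : MeasurableSet Bd) {η : ℝ} (hη0 : 0 ≤ η)
    (hη : ∀ F, F ∉ Bd → Wt (wT b (Nf R1)) (t • 1) t 0 F ≤ 1 + η) {b' : ℝ}
    (hbd : (nuF b Nf t R1).real Bd ≤ b') (g : V (Nf R1) → ℝ) :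
    Stp (nuF b Nf t R1) (nuF b Nf t' R1) (PsF b Nf wD φ t R1) (PsF b Nf wD φ t' R1)
      (cMn b Nf wD R1) (wdS Nf D R1 g)
      (√(Real.pi ^ 2 / 8) * rho2 2 D c t (1 / t' - 1 / t)) η b' := by
  have h1 : sn (ax0 (Nf R1) R1 - 0) = R1 := by rw [sub_zero]; exact sn_ax0 hN
  have h2 : ax0 (Nf R1) R1 ∉ H462.box (0 : V (Nf R1)) D := by
    intro h
    rw [H462.mem_box] at h
    have h3 : sn (ax0 (Nf R1) R1 - 0) ≤ D := by
      rw [H733.Torg.sn_eq]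
      exact max_le h.1 h.2
    omega
  refine H883.stp_tor (S := H462.box (0 : V (Nf R1)) D ∪ H462.box (ax0 (Nf R1) R1) D)
    (cen := H686.cen2 0 (ax0 (Nf R1) R1) D) (n := 2) hb ht' htt hA hs hD1 (by norm_num)
    (H686.cls_two h2) hBd hη0 hη (measurable_wdS D R1 g) ?_ (hD R1) (φ R1) hbd
  intro F G hFG
  refine H708.wd_loc (by omega) ?_
  have h3 : H686.Dm (H462.box (0 : V (Nf R1)) D ∪ H462.box (ax0 (Nf R1) R1) D)
      (H686.cen2 0 (ax0 (Nf R1) R1) D) *ᵥ F =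
      H686.Dm (H462.box (0 : V (Nf R1)) D ∪ H462.box (ax0 (Nf R1) R1) D)
      (H686.cen2 0 (ax0 (Nf R1) R1) D) *ᵥ G := by
    funext y
    rw [H686.Dm_mulVec, H686.Dm_mulVec]
    split_ifs with hy
    · exact hFG y hy
    · rfl
  rw [mulVec_add, mulVec_add, h3]

end lev

end

end Vale.Agent.P159.H686
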