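import Vale.Agent.P159.H686.Rp1

/-!
P159 / H686, module RP, part 2: mirrors of the square lattice (vertical lines and diagonals made of
sites). Log-convexity of the two-point function on the axis, lower bounds off the axis.
-/

open MeasureTheory Filter Topology
open scoped BigOperators

set_option linter.unusedSectionVars false

namespace Vale.Agent.P159.H686.RP

open Vale.Agent.P159 Vale.Agent.P159.XY

/-- a mirror of the square lattice made of sites -/
structure Mir (θ : ℤ × ℤ → ℤ × ℤ) (σ : ℤ × ℤ → ℤ) : Prop where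
  inv : ∀ u, θ (θ u) = u
  neg : ∀ u, σ (θ u) = -σ u
  fix : ∀ u, σ u = 0 → θ u = u
  iso : ∀ u v, A (θ u) (θ v) = A u v
  loc : ∀ u v, A u v ≠ 0 → (σ u - σ v).natAbs ≤ 1

section fin

variable {θ : ℤ × ℤ → ℤ × ℤ} {σ : ℤ × ℤ → ℤ} {S : Finset (ℤ × ℤ)}

/-- one side -/
def Pm (σ : ℤ × ℤ → ℤ) (S : Finset (ℤ × ℤ)) : Finset (ℤ × ℤ) := S.filter fun u => σ u < 0

/-- the mirror -/
def Mm (σ : ℤ × ℤ → ℤ) (S : Finset (ℤ × ℤ)) : Finset (ℤ × ℤ) := S.filter fun u => σ u = 0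

lemma mem_Pm {u : ℤ × ℤ} : u ∈ Pm σ S ↔ u ∈ S ∧ σ u < 0 := by
  unfold Pm
  rw [Finset.mem_filter]

lemma mem_Mm {u : ℤ × ℤ} : u ∈ Mm σ S ↔ u ∈ S ∧ σ u = 0 := by
  unfold Mm
  rw [Finset.mem_filter]

/-- the three parts make up the set -/
def eM (hS : ∀ u ∈ S, θ u ∈ S) : Mm σ S ⊕ (Pm σ S ⊕ Pm σ S) → S :=
  Sum.elim (fun m => ⟨m, (mem_Mm.1 m.2).1⟩)
    (Sum.elim (fun u => ⟨u, (mem_Pm.1 u.2).1⟩) fun u => ⟨θ u, hS _ (mem_Pm.1 u.2).1⟩)

theorem eM_bij (h : Mir θ σ) (hS : ∀ u ∈ S, θ u ∈ S) :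
    Function.Bijective (eM (σ := σ) hS) := by
  have hσ : ∀ u : Pm σ S, 0 < σ (θ u) := fun u => by
    rw [h.neg]
    have := (mem_Pm.1 u.2).2
    omega
  constructor
  · rintro (m | u | u) (n | v | v) huv
    · have h1 : (m : ℤ × ℤ) = n := congrArg (fun z : S => (z : ℤ × ℤ)) huv
      rw [Subtype.ext h1]
    · exfalso
      have h1 : (m : ℤ × ℤ) = v := congrArg (fun z : S => (z : ℤ × ℤ)) huv
      have h2 := (mem_Mm.1 m.2).2
      have h3 := (mem_Pm.1 v.2).2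
      rw [h1] at h2
      omega
    · exfalso
      have h1 : (m : ℤ × ℤ) = θ v := congrArg (fun z : S => (z : ℤ × ℤ)) huv
      have h2 := (mem_Mm.1 m.2).2
      have h3 := hσ v
      rw [h1] at h2
      omega
    · exfalso
      have h1 : (u : ℤ × ℤ) = n := congrArg (fun z : S => (z : ℤ × ℤ)) huv
      have h2 := (mem_Mm.1 n.2).2
      have h3 := (mem_Pm.1 u.2).2
      rw [← h1] at h2
      omega
    · have h1 : (u : ℤ × ℤ) = v := congrArg (fun z : S => (z : ℤ × ℤ)) huv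
      rw [Subtype.ext h1]
    · exfalso
      have h1 : (u : ℤ × ℤ) = θ v := congrArg (fun z : S => (z : ℤ × ℤ)) huv
      have h2 := (mem_Pm.1 u.2).2
      have h3 := hσ v
      rw [h1] at h2
      omega
    · exfalso
      have h1 : θ u = (n : ℤ × ℤ) := congrArg (fun z : S => (z : ℤ × ℤ)) huv
      have h2 := (mem_Mm.1 n.2).2
      have h3 := hσ u
      rw [← h1] at h2
      omega
    · exfalso
      have h1 : θ u = (v : ℤ × ℤ) := congrArg (fun z : S => (z : ℤ × ℤ)) huv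
      have h2 := (mem_Pm.1 v.2).2
      have h3 := hσ u
      rw [← h1] at h2
      omega
    · have h1 : θ u = θ v := congrArg (fun z : S => (z : ℤ × ℤ)) huv
      have h2 : (u : ℤ × ℤ) = v := by rw [← h.inv u, h1, h.inv]
      rw [Subtype.ext h2]
  · rintro ⟨w, hw⟩
    rcases lt_trichotomy (σ w) 0 with h1 | h1 | h1
    · exact ⟨Sum.inr (Sum.inl ⟨w, mem_Pm.2 ⟨hw, h1⟩⟩), rfl⟩
    · exact ⟨Sum.inl ⟨w, mem_Mm.2 ⟨hw, h1⟩⟩, rfl⟩
    · refine ⟨Sum.inr (Sum.inr ⟨θ w, mem_Pm.2 ⟨hS w hw, ?_⟩⟩), Subtype.ext ?_⟩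
      · rw [h.neg]
        omega
      · exact h.inv w

/-- **Cauchy-Schwarz in a symmetric finite set** -/
theorem KS_rp (h : Mir θ σ) (hS : ∀ u ∈ S, θ u ∈ S) {b : ℝ} (hb : 0 ≤ b) {x y : ℤ × ℤ}
    (hx : x ∈ Pm σ S) (hy : y ∈ Pm σ S) :
    KS S b x (θ y) ^ 2 ≤ KS S b x (θ x) * KS S b y (θ y) := by
  classical
  have x1 := (mem_Pm.1 hx).1
  have y1 := (mem_Pm.1 hy).1
  rw [KS_of_mem b x1 (hS y y1), KS_of_mem b x1 (hS x x1), KS_of_mem b y1 (hS y y1)]
  set L : Mm σ S → Mm σ S → ℝ := fun m n => b * A m n with hL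
  set K : Pm σ S → Mm σ S → ℝ := fun u m => b * A u m with hK
  set J : Pm σ S → Pm σ S → ℝ := fun u v => b * A u v with hJ
  have key := corr_JR (L := L) (K := K) (J := J) (fun u v => mul_nonneg hb (A_nonneg _ _))
    (fun u v => mul_nonneg hb (A_nonneg _ _)) (fun u v => mul_nonneg hb (A_nonneg _ _))
    ⟨x, hx⟩ ⟨y, hy⟩
  have hJJ : ∀ u v, 0 ≤ JR L K J u v := by
    rintro (m | u | u) (n | v | v) <;> simp only [JR] <;>
      first | exact mul_nonneg hb (A_nonneg _ _) | exact le_rfl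
  have hfix : ∀ m : Mm σ S, θ m = m := fun m => h.fix _ (mem_Mm.1 m.2).2
  have hcr : ∀ u v : Pm σ S, A u (θ v) = 0 := by
    intro u v
    by_contra h0
    have h1 := h.loc _ _ h0
    have h2 := (mem_Pm.1 u.2).2
    have h3 := (mem_Pm.1 v.2).2
    rw [h.neg] at h1
    omega
  have hcoup : ∀ u v, JR L K J u v = (fun u v : S => b * A u v)
      (Equiv.ofBijective _ (eM_bij h hS) u) (Equiv.ofBijective _ (eM_bij h hS) v) := by
    rintro (m | u | u) (n | v | v)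
    · rfl
    · change b * A v m = b * A m v
      rw [A_symm]
    · change b * A v m = b * A m (θ v)
      conv_rhs => rw [← hfix m]
      rw [h.iso, A_symm]
    · rfl
    · rfl
    · change (0 : ℝ) = b * A u (θ v)
      rw [hcr, mul_zero]
    · change b * A u n = b * A (θ u) n
      conv_rhs => rw [← hfix n]
      rw [h.iso]
    · change (0 : ℝ) = b * A (θ u) v
      rw [A_symm, hcr, mul_zero]
    · change b * A u v = b * A (θ u) (θ v)
      rw [h.iso]
  have t := fun a c => corr_equiv (J' := fun u v : S => b * A u v)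
    (Equiv.ofBijective _ (eM_bij h hS)) hJJ hcoup a c
  rw [t, t, t] at key
  exact key

end fin

/-- **Cauchy-Schwarz in the plane** -/
theorem CI_rp {θ : ℤ × ℤ → ℤ × ℤ} {σ : ℤ × ℤ → ℤ} (h : Mir θ σ) {b : ℝ} (hb : 0 ≤ b)
    {x y : ℤ × ℤ} (hx : σ x < 0) (hy : σ y < 0) :
    CI b x (θ y) ^ 2 ≤ CI b x (θ x) * CI b y (θ y) := by
  classical
  refine le_of_tendsto' ((tendsto_KS hb x (θ y)).pow 2) fun R => ?_
  have hpos : 0 ≤ CI b x (θ x) * CI b y (θ y) := mul_nonneg (CI_nonneg hb _ _) (CI_nonneg hb _ _)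
  by_cases hm : x ∈ box R ∧ θ y ∈ box R
  swap
  · have h0 : KS (box R) b x (θ y) = 0 := by
      unfold KS
      rw [dif_neg hm]
    rw [h0]
    simpa using hpos
  obtain ⟨h1, h2⟩ := hm
  set S : Finset (ℤ × ℤ) := box R ∪ (box R).image θ with hSd
  have hS : ∀ u ∈ S, θ u ∈ S := by
    intro u hu
    rw [hSd, Finset.mem_union, Finset.mem_image] at hu ⊢
    rcases hu with h3 | ⟨v, hv, rfl⟩
    · exact Or.inr ⟨u, h3, rfl⟩
    · left
      rw [h.inv]
      exact hv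
  have hsub : box R ⊆ S := Finset.subset_union_left
  have hyS : y ∈ S := by
    have := hS _ (hsub h2)
    rwa [h.inv] at this
  have k1 := KS_mono hsub hb x (θ y)
  have k0 := KS_nonneg (box R) hb x (θ y)
  have k2 := KS_rp h hS hb (mem_Pm.2 ⟨hsub h1, hx⟩) (mem_Pm.2 ⟨hyS, hy⟩)
  calc KS (box R) b x (θ y) ^ 2 ≤ KS S b x (θ y) ^ 2 := pow_le_pow_left₀ k0 k1 2
    _ ≤ KS S b x (θ x) * KS S b y (θ y) := k2
    _ ≤ CI b x (θ x) * CI b y (θ y) :=
        mul_le_mul (KS_le_CI S hb _ _) (KS_le_CI S hb _ _) (KS_nonneg S hb _ _) (CI_nonneg hb _ _)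

/-- the vertical mirror through the origin -/
theorem mir_vert : Mir XY.refl1 fun u => u.1 where
  inv u := by
    unfold XY.refl1
    refine Prod.ext ?_ rfl
    simp
  neg u := rfl
  fix u hu := by
    have hu' : u.1 = 0 := hu
    unfold XY.refl1
    refine Prod.ext ?_ rfl
    show -u.1 = u.1
    omega
  iso u v := A_refl1 u v
  loc u v huv := by
    rw [A_eq] at huv
    simp only [ne_eq, ite_eq_right_iff, not_forall] at huv
    obtain ⟨h1, -⟩ := huv
    omega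

/-- the diagonal mirror `u₁ + u₂ = c` -/
def dg (c : ℤ) (u : ℤ × ℤ) : ℤ × ℤ := (c - u.2, c - u.1)

theorem mir_diag (c : ℤ) : Mir (dg c) fun u => u.1 + u.2 - c where
  inv u := by
    unfold dg
    refine Prod.ext ?_ ?_ <;> simp
  neg u := by
    show c - u.2 + (c - u.1) - c = -(u.1 + u.2 - c)
    ring
  fix u hu := by
    have hu' : u.1 + u.2 - c = 0 := hu
    unfold dg
    refine Prod.ext ?_ ?_ <;> simp only <;> omega
  iso u v := by
    apply A_congr
    unfold dg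
    simp only
    omega
  loc u v huv := by
    rw [A_eq] at huv
    simp only [ne_eq, ite_eq_right_iff, not_forall] at huv
    obtain ⟨h1, -⟩ := huv
    omega

/-- **log-convexity on the axis** -/
theorem C_logconv {b : ℝ} (hb : 0 ≤ b) (m n : ℕ) :
    C b (((m + n : ℕ) : ℤ), 0) ^ 2 ≤ C b (((2 * m : ℕ) : ℤ), 0) * C b (((2 * n : ℕ) : ℤ), 0) := by
  have triv : ∀ k : ℕ, C b ((k : ℤ), 0) ^ 2 ≤ C b (((2 * k : ℕ) : ℤ), 0) := by
    intro k
    have h := C_supermul hb ((k : ℤ), 0) ((k : ℤ), 0)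
    rw [← pow_two] at h
    refine h.trans (le_of_eq ?_)
    congr 1
    refine Prod.ext ?_ ?_ <;> simp
    ring
  rcases Nat.eq_zero_or_pos m with rfl | hm
  · have h0 : C b (((2 * 0 : ℕ) : ℤ), 0) = 1 := C_zero b
    rw [h0, one_mul, zero_add]
    exact triv n
  rcases Nat.eq_zero_or_pos n with rfl | hn
  · have h0 : C b (((2 * 0 : ℕ) : ℤ), 0) = 1 := C_zero b
    rw [h0, mul_one, add_zero]
    exact triv m
  have h := CI_rp mir_vert hb (x := (-(m : ℤ), 0)) (y := (-(n : ℤ), 0))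
    (by simp only; omega) (by simp only; omega)
  have r : ∀ k : ℕ, XY.refl1 (-(k : ℤ), 0) = ((k : ℤ), 0) := by
    intro k
    unfold XY.refl1
    simp
  rw [r, r, CI_eq hb, CI_eq hb, CI_eq hb] at h
  have e : ∀ j k : ℕ, ((k : ℤ), (0 : ℤ)) - (-(j : ℤ), 0) = (((j + k : ℕ) : ℤ), 0) := by
    intro j k
    refine Prod.ext ?_ ?_ <;> simp
    ring
  rw [e, e, e] at h
  rw [show 2 * m = m + m by ring, show 2 * n = n + n by ring]
  exact h

/-- **the diagonal against the axis** -/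
theorem C_diag {b : ℝ} (hb : 0 ≤ b) (n : ℕ) :
    C b (((2 * n : ℕ) : ℤ), 0) ≤ C b ((n : ℤ), (n : ℤ)) := by
  rcases Nat.eq_zero_or_pos n with rfl | hn
  · simp
  have h := CI_rp (mir_diag (n : ℤ)) hb (x := (0, 0)) (y := ((n : ℤ), -(n : ℤ)))
    (by simp only; omega) (by simp only; omega)
  have r1 : dg (n : ℤ) (0, 0) = ((n : ℤ), (n : ℤ)) := by
    unfold dg
    simp
  have r2 : dg (n : ℤ) ((n : ℤ), -(n : ℤ)) = (((2 * n : ℕ) : ℤ), 0) := by
    unfold dg
    refine Prod.ext ?_ ?_ <;> simp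
    ring
  rw [r1, r2, CI_eq hb, CI_eq hb, CI_eq hb] at h
  have e1 : (((2 * n : ℕ) : ℤ), (0 : ℤ)) - (0, 0) = (((2 * n : ℕ) : ℤ), 0) := by
    refine Prod.ext ?_ ?_ <;> simp
  have e2 : ((n : ℤ), (n : ℤ)) - (0, 0) = ((n : ℤ), (n : ℤ)) := by
    refine Prod.ext ?_ ?_ <;> simp
  have e3 : (((2 * n : ℕ) : ℤ), (0 : ℤ)) - ((n : ℤ), -(n : ℤ)) = ((n : ℤ), (n : ℤ)) := by
    refine Prod.ext ?_ ?_ <;> simp
    ring
  rw [e1, e2, e3, ← pow_two] at h
  exact (pow_le_pow_iff_left₀ (C_nonneg hb _) (C_nonneg hb _) (by norm_num)).1 h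

/-- **lower bound in every direction** -/
theorem C_ge_axis {b : ℝ} (hb : 0 ≤ b) (x : ℤ × ℤ) :
    C b (((2 * nm x : ℕ) : ℤ), 0) ≤ C b x := by
  -- monotone in the second coordinate
  have mono : ∀ (i : ℤ) (j k : ℕ), j ≤ k → C b (i, (k : ℤ)) ≤ C b (i, (j : ℤ)) := by
    intro i j k hjk
    induction k, hjk using Nat.le_induction with
    | base => exact le_rfl
    | succ k _ ih =>
      refine le_trans ?_ ih
      have h := H556.step hb i ((k : ℤ) + 1) (by omega)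
      rw [add_sub_cancel_right] at h
      push_cast
      exact h
  have sw : ∀ i j : ℤ, C b (i, j) = C b (j, i) := fun i j => C_swap hb (j, i)
  rw [H556.C_abs hb x]
  set n := nm x with hn
  have h1 : x.1.natAbs ≤ n := le_max_left _ _
  have h2 : x.2.natAbs ≤ n := le_max_right _ _
  have a1 := mono (x.1.natAbs : ℤ) x.2.natAbs n h2
  have a2 := mono (n : ℤ) x.1.natAbs n h1
  rw [sw (x.1.natAbs : ℤ) (n : ℤ)] at a1
  exact (C_diag hb n).trans (a2.trans a1)

end Vale.Agent.P159.H686.RP
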