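import Vale.Agent.P159.H686.Loc2

/-!
P159 / H686, module LOC4: **the glue of the field `loc` at a pair `R`**: door, cut, plateau, class,
size of `Ψ`, `Q` and `P` as numbers on one good event `Gd`; the field `up` is proved inside from the size
of `Ψ_R` on `Gd`.
-/

open MeasureTheory Filter Topology Finset Matrix

set_option linter.all false

namespace Vale.Agent.P159.H686

open Vale.Agent.P159.TM.Spec (V)
open Vale.Agent.P159.TM.SpecC (wT)
open Vale.Agent.P159.H883 (nuM Psi BW Zp PT)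
open Vale.Agent.P159.H708 (Bx wd)
open Vale.Agent.P159.H770 (wTD Ed)
open Vale.Agent.P159.H773 (sd ax0 nuF PsF cMn wdF cMn_pos Gcut sd_ge sd_pow)
open Vale.Agent.P159.H817 (eD Dec Idl SysI RefB HasId GB ChI eB CG edec dec cfg rh LPg gr eF bD)

noncomputable section

/-- a finite family of good events -/
lemma real_iInter_compl {Ω ι : Type*} [MeasurableSpace Ω] [Fintype ι] {ν : Measure Ω}
    [IsProbabilityMeasure ν] {G : ι → Set Ω} {p : ι → ℝ} (h : ∀ i, ν.real (G i)ᶜ ≤ p i) :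
    ν.real (⋂ i, G i)ᶜ ≤ ∑ i, p i := by
  rw [Set.compl_iInter]
  refine (measureReal_iUnion_fintype_le _).trans (Finset.sum_le_sum fun i _ => h i)

/-- two good events -/
lemma real_inter_compl {Ω : Type*} [MeasurableSpace Ω] {ν : Measure Ω} [IsProbabilityMeasure ν]
    {G H : Set Ω} {p q : ℝ} (hG : ν.real Gᶜ ≤ p) (hH : ν.real Hᶜ ≤ q) :
    ν.real (G ∩ H)ᶜ ≤ p + q := by
  rw [Set.compl_inter]
  exact (measureReal_union_le _ _).trans (add_le_add hG hH)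

section

variable {i : ℕ} {b t a : ℝ} {n : ℕ} {l : ℕ → ℕ} {Λc ε₂ ε₃ : ℕ → ℝ} {L S B E : ℝ} {D0 D1 : Dec}
  {b0 : ℤ → ℤ → Bool → ℝ} {k0 R : ℕ}
variable {η : ∀ R, Ed (sd i R) → ℤ} {φ : ∀ R, V (sd i R) → ℝ} {gs : ∀ R, V (sd i R) → ℝ}

/-- **THE FIELD `loc` OF A LEVEL AT THE PAIR `R` FROM DOOR, CUT, PLATEAU, CLASS AND SIZE** -/
theorem loc_G (hb : 0 < b) (ht : 0 < t)
    (hφ0 : bD (0 : V (sd i (2 ^ k0))) ((2 ^ k0) • H817.e1) = eF (η (2 ^ k0)) (φ (2 ^ k0)))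
    (hφ : bD (0 : V (sd i R)) (R • H817.e1) = eF (η R) (φ R))
    (H : StV i b t a n l Λc ε₂ ε₃ L S B E D0 D1 b0 k0 R (gs (2 ^ k0)) (gs R)) {ε₄ : ℝ}
    (hr : RealR i b t a n D0 D1 k0 R (gs (2 ^ k0)) (gs R) ε₄) {D : ℕ}
    {T0 T1 : (Bx D ⊕ Bx D → ℝ) → ℤ → ℤ → ℝ} (m0 : ∀ u v, Measurable fun z => T0 z u v)
    (m1 : ∀ u v, Measurable fun z => T1 z u v) (hR0 : 2 ^ k0 ≤ R)
    {e1 e2 e3 lam K q0 q1 bb δ : ℝ} {F1 F2 : (V (sd i R) → ℝ) → V (sd i R) → ℝ}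
    {Gd : Set (V (sd i R) → ℝ)} (mG : MeasurableSet Gd)
    (mem0 : ∀ F ∈ Gd, T0 (wdS (sd i) D R (gs R) F) ∈ D0)
    (mem1 : ∀ F ∈ Gd, T1 (wdS (sd i) D R (gs R) F) ∈ D1)
    (door : ∀ F ∈ Gd,
      |Real.log (PsF b (sd i) (fun R => wTD (sd i R) b (η R)) φ t R F) -
        Real.log (PsF b (sd i) (fun R => wTD (sd i R) b (η R)) φ t R (F1 F))| ≤ e1)
    (cut : ∀ F ∈ Gd,
      |Real.log (PsF b (sd i) (fun R => wTD (sd i R) b (η R)) φ t R (F1 F)) -
        Real.log (PsF b (sd i) (fun R => wTD (sd i R) b (η R)) φ t R (F2 F))| ≤ e2)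
    (plat : ∀ F ∈ Gd,
      |Real.log (PsF b (sd i) (fun R => wTD (sd i R) b (η R)) φ t R (F2 F)) -
        Real.log (PsF b (sd i) (fun R => wTD (sd i R) b (η R)) φ t R
          (dcF i D T0 T1 R (gs R) (wdS (sd i) D R (gs R) F)))| ≤ e3)
    (size : ∀ F ∈ Gd, PsF b (sd i) (fun R => wTD (sd i R) b (η R)) φ t R F ≤
      Real.exp lam * cMn b (sd i) (fun R => wTD (sd i R) b (η R)) R)
    (hK : cMn b (sd i) (fun R => wTD (sd i R) b (η R)) R *
        Real.exp (a / 2 * (eD (sd i R) R - eD (sd i (2 ^ k0)) (2 ^ k0))) ≤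
      K * cMn b (sd i) (fun R => wTD (sd i R) b (η R)) (2 ^ k0))
    (hs : e1 + e2 + e3 + ((Nat.clog 2 R - k0) * E + ε₄) ≤ 1)
    (hδ : 2 * (e1 + e2 + e3 + ((Nat.clog 2 R - k0) * E + ε₄)) ≤ δ)
    (hQ : ∀ A : Set (V (sd i R) → ℝ), MeasurableSet A →
      ∫ F in A, PsF b (sd i) (fun R => wTD (sd i R) b (η R)) φ t R F ∂(nuF b (sd i) t R) ≤
        cMn b (sd i) (fun R => wTD (sd i R) b (η R)) R *
          (q0 + q1 * √((nuF b (sd i) t R).real A)))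
    (hq1 : 0 ≤ q1) (hP : (nuF b (sd i) t R).real Gdᶜ ≤ bb) :
    Lcl (nuF b (sd i) t R) (PsF b (sd i) (fun R => wTD (sd i R) b (η R)) φ t R)
        (cMn b (sd i) (fun R => wTD (sd i R) b (η R)) R)
        (cMn b (sd i) (fun R => wTD (sd i R) b (η R)) (2 ^ k0) *
          Real.exp (-(a / 2 * (eD (sd i R) R - eD (sd i (2 ^ k0)) (2 ^ k0)))))
        (wdS (sd i) D R (gs R))
        (Gcut b (sd i) (fun R => wTD (sd i R) b (η R)) φ t (2 ^ k0) D
          (dcF i D T0 T1 (2 ^ k0) (gs (2 ^ k0))) (K * Real.exp (lam + 1)))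
        Gd (K * Real.exp (lam + 1)) δ (q0 + q1 * √bb) bb := by
  have hD : ∀ R, BW (wTD (sd i R) b (η R)) := fun R => H883.bw_wTD hb (η R)
  have cR := cMn_pos (Nf := sd i) hb hD R
  have c0 := cMn_pos (Nf := sd i) hb hD (2 ^ k0)
  have pR : ∀ F, 0 < PsF b (sd i) (fun R => wTD (sd i R) b (η R)) φ t R F := fun F =>
    H883.Psi_pos (H883.bw_wT hb) (hD R) (H883.mf_scalar ht) (φ R) F
  have p0 : ∀ F, 0 < PsF b (sd i) (fun R => wTD (sd i R) b (η R)) φ t (2 ^ k0) F := fun F =>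
    H883.Psi_pos (H883.bw_wT hb) (hD (2 ^ k0)) (H883.mf_scalar ht) (φ (2 ^ k0)) F
  have hK0 : 0 < K := by
    by_contra h
    have h1 : K * cMn b (sd i) (fun R => wTD (sd i R) b (η R)) (2 ^ k0) ≤ 0 :=
      mul_nonpos_of_nonpos_of_nonneg (not_lt.1 h) c0.le
    have h2 := mul_pos cR (Real.exp_pos (a / 2 * (eD (sd i R) R - eD (sd i (2 ^ k0)) (2 ^ k0))))
    linarith
  refine loc_V (s1 := e1 + e2 + e3) hb ht hφ0 hφ H hr m0 m1 hR0
    (mul_pos hK0 (Real.exp_pos _)).le hs hδ mG mem0 mem1 (fun F hF => ?_) (fun F hF => ?_) ?_ hP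
  · have d1 := door F hF
    have d2 := cut F hF
    have d3 := plat F hF
    rw [abs_le] at d1 d2 d3 ⊢
    constructor <;> linarith [d1.1, d1.2, d2.1, d2.2, d3.1, d3.2]
  · have d1 := door F hF
    have d2 := cut F hF
    have d3 := plat F hF
    have d4 := stat_V (T0 := T0) (T1 := T1) hb ht hφ0 hφ H hr (mem0 F hF) (mem1 F hF) hR0
    have d5 := size F hF
    obtain ⟨X, hX⟩ : ∃ X, X = PsF b (sd i) (fun R => wTD (sd i R) b (η R)) φ t R F := ⟨_, rfl⟩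
    obtain ⟨Y, hY⟩ : ∃ Y, Y = PsF b (sd i) (fun R => wTD (sd i R) b (η R)) φ t (2 ^ k0)
        (dcF i D T0 T1 (2 ^ k0) (gs (2 ^ k0)) (wdS (sd i) D R (gs R) F)) := ⟨_, rfl⟩
    have hX0 : 0 < X := hX ▸ pR F
    have hY0 : 0 < Y := hY ▸ p0 _
    rw [← hX] at d1 d5
    rw [← hY] at d4 ⊢
    have l1 : Real.log X ≤ lam +
        Real.log (cMn b (sd i) (fun R => wTD (sd i R) b (η R)) R) := by
      have h1 := Real.log_le_log hX0 d5
      rwa [Real.log_mul (Real.exp_pos _).ne' cR.ne', Real.log_exp] at h1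
    have l2 : Real.log Y ≤ (lam + 1) +
        (Real.log (cMn b (sd i) (fun R => wTD (sd i R) b (η R)) R) +
          a / 2 * (eD (sd i R) R - eD (sd i (2 ^ k0)) (2 ^ k0))) := by
      rw [abs_le] at d1 d2 d3 d4
      linarith [d1.1, d1.2, d2.1, d2.2, d3.1, d3.2, d4.1, d4.2]
    calc Y = Real.exp (Real.log Y) := (Real.exp_log hY0).symm
      _ ≤ Real.exp ((lam + 1) +
        (Real.log (cMn b (sd i) (fun R => wTD (sd i R) b (η R)) R) +
          a / 2 * (eD (sd i R) R - eD (sd i (2 ^ k0)) (2 ^ k0)))) := Real.exp_le_exp.2 l2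
      _ = Real.exp (lam + 1) * (cMn b (sd i) (fun R => wTD (sd i R) b (η R)) R *
          Real.exp (a / 2 * (eD (sd i R) R - eD (sd i (2 ^ k0)) (2 ^ k0)))) := by
        rw [Real.exp_add (lam + 1), Real.exp_add (Real.log _), Real.exp_log cR]
      _ ≤ Real.exp (lam + 1) *
          (K * cMn b (sd i) (fun R => wTD (sd i R) b (η R)) (2 ^ k0)) :=
        mul_le_mul_of_nonneg_left hK (Real.exp_pos _).le
      _ = _ := by ring
  · refine (hQ Gdᶜ mG.compl).trans ?_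
    rw [mul_comm]
    refine mul_le_mul_of_nonneg_right ?_ cR.le
    have h1 := mul_le_mul_of_nonneg_left (Real.sqrt_le_sqrt hP) hq1
    linarith

end

end

end Vale.Agent.P159.H686
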