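import Vale.Agent.P159.H686.SwinD
import Vale.Agent.P159.H363.Inst

/-!
P159 / H686: the Loewner inequality of SWIN on the cell torus, for functionals which are neutral
in each of `n` boxes of half side `D` (for a pair of dislocations `n = 2`: the balls around the two
cores): `ρ² = 5100 n ((1+c)/c)² (1+D⁴ν²)(1+log(sν))/(sν)`.
-/

namespace Vale.Agent.P159.H686

open Finset Matrix MeasureTheory
open Vale.Agent.P159.TM.H764 (EE cN dt ch hatu)
open Vale.Agent.P159.TM.Spec (V)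
open Vale.Agent.P159.H37 (qf gau)
open Vale.Agent.P159.H864 (TI sym fc mlt hsq)
open Vale.Agent.P159.H462 (Dom ahat Gam Spr Cpr ti_ahat ti_Gam ti_Cpr sym_ahat
  sym_Gam sym_Cpr EE_nonneg high_bound low_bound collect low hatu_mulVec ch_dt_le ch_normSq
  gam_psd)
open Vale.Agent.P159.H363 (gm cgm gm_mul cgm_mul vecMul_sq)
open scoped Real

noncomputable section

variable {N : ℕ} [NeZero N] {A : Matrix (V N) (V N) ℝ}

/-- collecting the constants -/
lemma collect_n {c2 c s ν D L1 G2 lg lm n : ℝ} (hc20 : 0 < c2) (hc21 : c2 ≤ 1) (hc2c : c2 ≤ c)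
    (hs0 : 0 < s) (hν : 0 < ν) (hG0 : 0 ≤ G2) (hD : 1 ≤ D) (hlg : 0 ≤ lg) (hlm : lm ≤ 1 + lg)
    (hn : 1 ≤ n) (hL1 : L1 ^ 2 ≤ n * (18 * D ^ 2 * ν * G2)) :
    2 / (c2 * ν * s) * G2 + 2 * (2 * D ^ 2 * L1 ^ 2) / (c2 ^ 2 * s) * (25 * (1 + lm))
      ≤ n * (5100 * (c2 ^ 2)⁻¹ * (1 + D ^ 4 * ν ^ 2) * (1 + lg) / (s * ν)) * G2 := by
  have hn0 : 0 < n := by linarith
  have hsn : √n ^ 2 = n := Real.sq_sqrt hn0.le
  have hM1sq : (L1 / √n) ^ 2 = L1 ^ 2 / n := by rw [div_pow, hsn]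
  have hM1b : (L1 / √n) ^ 2 ≤ 18 * D ^ 2 * ν * G2 := by
    rw [hM1sq, div_le_iff₀ hn0]
    linarith
  have hcol := collect (L := 0) (L1 := L1 / √n) hc20 hc21 hc2c hs0 hν hG0 hD hlg hlm
    (by
      have : 0 ≤ 18 * D ^ 2 * ν * G2 := by positivity
      simpa using this) hM1b
  have h0 : (0 : ℝ) ^ 2 = 0 := by norm_num
  rw [hM1sq, h0, mul_zero, zero_div, zero_mul, add_zero, zero_div, zero_mul, add_zero] at hcol
  have hcol2 := mul_le_mul_of_nonneg_left hcol hn0.le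
  have e1 : n * (2 / (c2 * ν * s) * G2 +
      2 * (2 * D ^ 2 * (L1 ^ 2 / n)) / (c2 ^ 2 * s) * (25 * (1 + lm)))
      = n * (2 / (c2 * ν * s) * G2)
        + 2 * (2 * D ^ 2 * L1 ^ 2) / (c2 ^ 2 * s) * (25 * (1 + lm)) := by
    field_simp
  rw [e1] at hcol2
  have h9 : 0 ≤ 2 / (c2 * ν * s) * G2 := by positivity
  have h10 : 2 / (c2 * ν * s) * G2 ≤ n * (2 / (c2 * ν * s) * G2) := by nlinarith
  calc _ ≤ n * (2 / (c2 * ν * s) * G2)
        + 2 * (2 * D ^ 2 * L1 ^ 2) / (c2 ^ 2 * s) * (25 * (1 + lm)) := by linarith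
    _ ≤ _ := hcol2
    _ = _ := by ring

/-- **(IN3)** for a functional with small Fourier transform at low modes -/
theorem in3n {ν c s : ℝ} (h : Dom A ν c) (hs : 1 ≤ s * ν) {D n : ℕ} (hD : 1 ≤ D) (hn : 1 ≤ n)
    {ℓ : V N → ℝ} {L1 : ℝ} (hdev : ∀ k, hsq ℓ k ≤ 2 * (D : ℝ) ^ 2 * L1 ^ 2 * EE k)
    (hL1 : L1 ^ 2 ≤ n * (2 * (D : ℝ) + 1) ^ 2 * ∑ x, ℓ x ^ 2) :
    qf (Cpr s A) (ahat s A *ᵥ ℓ) ≤
      (n : ℝ) * (5100 * ((1 + c) / c) ^ 2 * (1 + (D : ℝ) ^ 4 * ν ^ 2) * (1 + Real.log (s * ν))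
        / (s * ν)) * qf (Gam s A) ℓ := by
  have hν := h.hν
  have hc := h.hc
  have hs0 : 0 < s := by
    by_contra hcon
    push Not at hcon
    have := mul_nonpos_of_nonpos_of_nonneg hcon hν.le
    linarith
  have hN : (0 : ℝ) < (N : ℝ) ^ 2 := H864.N_pos
  have hnr : (1 : ℝ) ≤ n := by exact_mod_cast hn
  set c2 : ℝ := c / (1 + c) with hc2
  have hc20 : 0 < c2 := by positivity
  have hc21 : c2 ≤ 1 := by
    rw [hc2, div_le_one (by positivity)]
    linarith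
  have hc2c : c2 ≤ c := by
    rw [hc2, div_le_iff₀ (by positivity)]
    nlinarith
  set G2 : ℝ := qf (Gam s A) ℓ with hG2
  have hG2' : G2 = ((N : ℝ) ^ 2)⁻¹ * ∑ k, s * (1 + s * sym A k)⁻¹ * hsq ℓ k := by
    rw [hG2, H864.qf_eq_sum (ti_Gam _ _)]
    simp_rw [sym_Gam]
  have hG2N : ∑ k, s * (1 + s * sym A k)⁻¹ * hsq ℓ k = (N : ℝ) ^ 2 * G2 := by
    rw [hG2', ← mul_assoc, mul_inv_cancel₀ hN.ne', one_mul]
  have hl2 : ∑ x, ℓ x ^ 2 ≤ 2 * ν * G2 := by
    rw [← H864.sum_hsq, hG2', mul_left_comm]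
    refine mul_le_mul_of_nonneg_left ?_ (by positivity)
    rw [Finset.mul_sum]
    refine Finset.sum_le_sum fun k _ => ?_
    have h1 := h.nn k
    have h2 := h.le k
    have h3 : 1 ≤ 2 * ν * (s * (1 + s * sym A k)⁻¹) := by
      rw [← mul_assoc, ← div_eq_mul_inv, le_div_iff₀ (by positivity)]
      nlinarith
    calc hsq ℓ k = 1 * hsq ℓ k := (one_mul _).symm
      _ ≤ 2 * ν * (s * (1 + s * sym A k)⁻¹) * hsq ℓ k :=
          mul_le_mul_of_nonneg_right h3 (H864.hsq_nonneg _ _)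
      _ = _ := by ring
  have hG0 : 0 ≤ G2 := gam_psd h hs0 ℓ
  have hDr : (1 : ℝ) ≤ D := by exact_mod_cast hD
  have hL1b : L1 ^ 2 ≤ n * (18 * (D : ℝ) ^ 2 * ν * G2) := by
    have h2 : (2 * (D : ℝ) + 1) ^ 2 ≤ 9 * (D : ℝ) ^ 2 := by nlinarith
    calc L1 ^ 2 ≤ n * (2 * (D : ℝ) + 1) ^ 2 * ∑ x, ℓ x ^ 2 := hL1
      _ ≤ n * (9 * (D : ℝ) ^ 2) * (2 * ν * G2) :=
          mul_le_mul (mul_le_mul_of_nonneg_left h2 (by positivity)) hl2
            (Finset.sum_nonneg fun x _ => sq_nonneg _) (by positivity)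
      _ = _ := by ring
  -- the form mode by mode
  set T : V N → ℝ := fun k => Complex.normSq (hatu ℓ k) / (sym A k * (1 + s * sym A k)) with hT
  have hq : qf (Cpr s A) (ahat s A *ᵥ ℓ) = ((N : ℝ) ^ 2)⁻¹ * ∑ k, T k := by
    rw [H864.qf_eq_sum (ti_Cpr _ _)]
    congr 1
    refine Finset.sum_congr rfl fun k _ => ?_
    rw [sym_Cpr, H864.hsq, hatu_mulVec (ti_ahat _ _), sym_ahat, Complex.normSq_mul,
      Complex.normSq_ofReal, hT]
    simp only []
    set Z := Complex.normSq (hatu ℓ k) with hZ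
    have h2 := h.nn k
    have h3 : 0 < 1 + s * sym A k := by positivity
    by_cases h4 : sym A k = 0
    · rw [h4]
      simp
    · field_simp
  set m : ℝ := (s * c2)⁻¹ with hm
  have hm0 : 0 < m := by positivity
  set F1 : ℝ := 2 / (c2 * ν * s) with hF1
  set F3 : ℝ := 2 * (2 * (D : ℝ) ^ 2 * L1 ^ 2) / (c2 ^ 2 * s) with hF3
  have hF10 : 0 ≤ F1 := by positivity
  have hF30 : 0 ≤ F3 := by positivity
  have hTk : ∀ k, T k ≤ F1 * (s * (1 + s * sym A k)⁻¹ * hsq ℓ k) +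
      (if k ≠ 0 ∧ EE k < ν then F3 * (EE k + m)⁻¹ else 0) := by
    intro k
    have hnn : 0 ≤ s * (1 + s * sym A k)⁻¹ * hsq ℓ k := by
      have := h.nn k
      have := H864.hsq_nonneg ℓ k
      positivity
    have hE := EE_nonneg k
    rcases le_or_gt ν (EE k) with hk | hk
    · have h1 := high_bound h hs0 hk 0 (hatu ℓ k) 1 (by simp)
      have h2 : ¬ (k ≠ 0 ∧ EE k < ν) := fun h3 => absurd h3.2 (not_lt.2 hk)
      rw [if_neg h2, add_zero]
      simpa [hT, hF1, H864.hsq] using h1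
    · by_cases hk0 : k = 0
      · have h2 : ¬ (k ≠ 0 ∧ EE k < ν) := fun h3 => h3.1 hk0
        rw [if_neg h2, add_zero]
        have h3 : T k = 0 := by
          simp only [hT, hk0, h.zero, zero_mul, div_zero]
        rw [h3]
        positivity
      · rw [if_pos ⟨hk0, hk⟩]
        have h1 := low_bound h hs0 hk0 hk 0 (2 * (D : ℝ) ^ 2 * L1 ^ 2) (hatu ℓ k) 1
          (by simp) (by
            have := hdev k
            simpa [H864.hsq] using this)
        have h2 : 0 ≤ F1 * (s * (1 + s * sym A k)⁻¹ * hsq ℓ k) := mul_nonneg hF10 hnn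
        have h4 : T k ≤ F3 * (EE k + m)⁻¹ := by
          have e0 : hatu ℓ k - ((0 * (1 - sym A k / ν) : ℝ) : ℂ) * 1 = hatu ℓ k := by simp
          have e9 : 2 * (0 : ℝ) ^ 2 / (ν ^ 2 * s) = 0 := by simp
          rw [e0, e9, add_zero] at h1
          exact h1
        linarith
  have hsum : ∑ k, T k ≤ F1 * ((N : ℝ) ^ 2 * G2) +
      F3 * (25 * (N : ℝ) ^ 2 * (1 + Real.log (1 + ν / m))) := by
    calc ∑ k, T k ≤ ∑ k, (F1 * (s * (1 + s * sym A k)⁻¹ * hsq ℓ k) +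
        (if k ≠ 0 ∧ EE k < ν then F3 * (EE k + m)⁻¹ else 0)) :=
          Finset.sum_le_sum fun k _ => hTk k
      _ = F1 * ((N : ℝ) ^ 2 * G2) + F3 * ∑ k ∈ low N ν, (EE k + m)⁻¹ := by
          rw [Finset.sum_add_distrib, ← Finset.mul_sum, ← Finset.sum_filter, ← Finset.mul_sum,
            hG2N]
          unfold low
          ring
      _ ≤ _ := add_le_add le_rfl (mul_le_mul_of_nonneg_left (H462.sum_log hν hm0) hF30)
  have hlog : Real.log (1 + ν / m) ≤ 1 + Real.log (s * ν) := by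
    have h1 : 1 + ν / m ≤ 2 * (s * ν) := by
      have h2 : ν / m = s * ν * c2 := by
        rw [hm]
        field_simp
      rw [h2]
      nlinarith [mul_le_mul_of_nonneg_left hc21 (by linarith : (0 : ℝ) ≤ s * ν)]
    have h2 : Real.log (1 + ν / m) ≤ Real.log (2 * (s * ν)) :=
      Real.log_le_log (by positivity) h1
    rw [Real.log_mul (by norm_num) (by positivity)] at h2
    have := Real.log_two_lt_d9
    linarith
  have hlg : 0 ≤ Real.log (s * ν) := Real.log_nonneg hs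
  have hcc : ((1 + c) / c) ^ 2 = (c2 ^ 2)⁻¹ := by
    rw [hc2, div_pow, div_pow, inv_div]
  rw [hq, hcc]
  have hsum2 : ((N : ℝ) ^ 2)⁻¹ * ∑ k, T k ≤ F1 * G2 +
      F3 * (25 * (1 + Real.log (1 + ν / m))) := by
    calc ((N : ℝ) ^ 2)⁻¹ * ∑ k, T k ≤ ((N : ℝ) ^ 2)⁻¹ * (F1 * ((N : ℝ) ^ 2 * G2) +
        F3 * (25 * (N : ℝ) ^ 2 * (1 + Real.log (1 + ν / m)))) :=
          mul_le_mul_of_nonneg_left hsum (by positivity)
      _ = (((N : ℝ) ^ 2)⁻¹ * (N : ℝ) ^ 2) * (F1 * G2 +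
            F3 * (25 * (1 + Real.log (1 + ν / m)))) := by ring
      _ = _ := by rw [inv_mul_cancel₀ hN.ne', one_mul]
  exact hsum2.trans (collect_n hc20 hc21 hc2c hs0 hν hG0 hDr hlg hlog hnr hL1b)

/-- neutral classes: a set `S` of cells, a centre for each cell of `S`, within distance `D` -/
structure Cls (S : Finset (V N)) (cen : V N → V N) (D n : ℕ) : Prop where
  mem : ∀ y ∈ S, cen y ∈ S
  idem : ∀ y ∈ S, cen (cen y) = cen y
  near : ∀ y ∈ S, y ∈ H462.box (cen y) D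
  card : (S.card : ℝ) ≤ n * (2 * (D : ℝ) + 1) ^ 2

/-- the matrix of the neutral data `F_y - F_{cen y}`, `y ∈ S` -/
def Dm (S : Finset (V N)) (cen : V N → V N) : Matrix (V N) (V N) ℝ :=
  Matrix.of fun y x => if y ∈ S then (if x = y then 1 else 0) - (if x = cen y then 1 else 0) else 0

lemma Dm_mulVec (S : Finset (V N)) (cen : V N → V N) (F : V N → ℝ) (y : V N) :
    (Dm S cen *ᵥ F) y = if y ∈ S then F y - F (cen y) else 0 := by
  unfold Dm mulVec dotProduct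
  simp only [Matrix.of_apply]
  split_ifs with h
  · simp [sub_mul, Finset.sum_sub_distrib]
  · simp

lemma vecMul_Dm (S : Finset (V N)) (cen : V N → V N) (l : V N → ℝ) (u : V N → ℝ) :
    ∑ x, (l ᵥ* Dm S cen) x * u x = ∑ y ∈ S, l y * (u y - u (cen y)) := by
  have h1 : ∑ x, (l ᵥ* Dm S cen) x * u x = l ⬝ᵥ (Dm S cen *ᵥ u) := by
    rw [dotProduct_mulVec]
    rfl
  rw [h1]
  unfold dotProduct
  simp only [Dm_mulVec]
  rw [← Finset.sum_filter_add_sum_filter_not Finset.univ (fun y => y ∈ S)]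
  have e1 : ∑ y ∈ univ.filter (fun y => ¬ y ∈ S), l y * (if y ∈ S then u y - u (cen y) else 0)
      = 0 := Finset.sum_eq_zero fun y hy => by
    rw [if_neg (Finset.mem_filter.1 hy).2, mul_zero]
  rw [e1, add_zero]
  have e2 : univ.filter (fun y => y ∈ S) = S := by
    ext y
    simp
  rw [e2]
  exact Finset.sum_congr rfl fun y hy => by rw [if_pos hy]

lemma Cls.supp {S : Finset (V N)} {cen : V N → V N} {D n : ℕ} (h : Cls S cen D n)
    (l : V N → ℝ) {x : V N} (hx : x ∉ S) : (l ᵥ* Dm S cen) x = 0 := by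
  have h1 := vecMul_Dm S cen l (Pi.single x 1)
  have h2 : ∑ z, (l ᵥ* Dm S cen) z * (Pi.single x (1 : ℝ) : V N → ℝ) z = (l ᵥ* Dm S cen) x := by
    rw [Finset.sum_eq_single x]
    · simp
    · intro b _ hb
      rw [Pi.single_eq_of_ne hb, mul_zero]
    · intro h
      exact absurd (Finset.mem_univ _) h
  rw [h2] at h1
  rw [h1]
  refine Finset.sum_eq_zero fun y hy => ?_
  have a1 : y ≠ x := fun e => hx (e ▸ hy)
  have a2 : cen y ≠ x := fun e => hx (e ▸ h.mem y hy)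
  rw [Pi.single_eq_of_ne a1, Pi.single_eq_of_ne a2]
  ring

lemma Cls.dev {S : Finset (V N)} {cen : V N → V N} {D n : ℕ} (h : Cls S cen D n)
    (l : V N → ℝ) (k : V N) :
    hsq (l ᵥ* Dm S cen) k ≤ 2 * (D : ℝ) ^ 2 * (∑ x, |(l ᵥ* Dm S cen) x|) ^ 2 * EE k := by
  set ℓ := l ᵥ* Dm S cen with hℓ
  -- the transform sees `ch x - ch (cen x)`
  have h0 : ∑ x, (ℓ x : ℂ) * (if x ∈ S then ch (dt k (cen x)) else 0) = 0 := by
    have hre : ∀ u : V N → ℝ, (∀ y ∈ S, u (cen y) = u y) → ∑ x, ℓ x * u x = 0 := by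
      intro u hu
      rw [hℓ, vecMul_Dm]
      refine Finset.sum_eq_zero fun y hy => ?_
      rw [hu y hy, sub_self, mul_zero]
    have hr := hre (fun x => (if x ∈ S then ch (dt k (cen x)) else 0 : ℂ).re) (fun y hy => by
      rw [if_pos hy, if_pos (h.mem y hy), h.idem y hy])
    have hi := hre (fun x => (if x ∈ S then ch (dt k (cen x)) else 0 : ℂ).im) (fun y hy => by
      rw [if_pos hy, if_pos (h.mem y hy), h.idem y hy])
    apply Complex.ext
    · rw [Complex.re_sum]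
      simp only [Complex.re_ofReal_mul, Complex.zero_re]
      exact hr
    · rw [Complex.im_sum]
      simp only [Complex.im_ofReal_mul, Complex.zero_im]
      exact hi
  have h1 : hatu ℓ k = ∑ x, (ℓ x : ℂ) * (ch (dt k x) - (if x ∈ S then ch (dt k (cen x)) else 0)) := by
    simp only [mul_sub, Finset.sum_sub_distrib]
    rw [h0, sub_zero]
    rfl
  set q : ℝ := 2 * (D : ℝ) ^ 2 * EE k with hq
  have hq0 : 0 ≤ q := by
    have := EE_nonneg k
    positivity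
  have h2 : ‖hatu ℓ k‖ ≤ (∑ x, |ℓ x|) * √q := by
    rw [h1]
    refine (norm_sum_le _ _).trans ?_
    rw [Finset.sum_mul]
    refine Finset.sum_le_sum fun x _ => ?_
    rw [norm_mul, Complex.norm_real, Real.norm_eq_abs]
    by_cases hx : x ∈ S
    · rw [if_pos hx]
      refine mul_le_mul_of_nonneg_left ?_ (abs_nonneg _)
      exact Real.le_sqrt_of_sq_le (ch_dt_le (h.near x hx) k)
    · rw [hℓ, h.supp l hx]
      simp
  unfold H864.hsq
  rw [Complex.normSq_eq_norm_sq]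
  refine (pow_le_pow_left₀ (norm_nonneg _) h2 2).trans (le_of_eq ?_)
  rw [mul_pow, Real.sq_sqrt hq0]
  ring

lemma Cls.l1 {S : Finset (V N)} {cen : V N → V N} {D n : ℕ} (h : Cls S cen D n)
    (l : V N → ℝ) :
    (∑ x, |(l ᵥ* Dm S cen) x|) ^ 2
      ≤ n * (2 * (D : ℝ) + 1) ^ 2 * ∑ x, (l ᵥ* Dm S cen) x ^ 2 := by
  set ℓ := l ᵥ* Dm S cen with hℓ
  have h1 : ∑ x, |ℓ x| = ∑ x ∈ S, |ℓ x| := by
    symm
    refine Finset.sum_subset (Finset.subset_univ _) fun x _ hx => ?_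
    rw [hℓ, h.supp l hx, abs_zero]
  have h2 : ∑ x ∈ S, |ℓ x| ^ 2 ≤ ∑ x, ℓ x ^ 2 := by
    simp_rw [sq_abs]
    exact Finset.sum_le_sum_of_subset_of_nonneg (Finset.subset_univ _) fun x _ _ => sq_nonneg _
  rw [h1]
  calc (∑ x ∈ S, |ℓ x|) ^ 2 ≤ S.card * ∑ x ∈ S, |ℓ x| ^ 2 := sq_sum_le_card_mul_sum_sq
    _ ≤ n * (2 * (D : ℝ) + 1) ^ 2 * ∑ x, ℓ x ^ 2 := by
        refine mul_le_mul h.card h2 (Finset.sum_nonneg fun x _ => by positivity) (by positivity)

/-- the contraction constant of SWIN on the cell torus -/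
def rho2 (n D : ℕ) (c ν s : ℝ) : ℝ :=
  √((n : ℝ) * (5100 * ((1 + c) / c) ^ 2 * (1 + (D : ℝ) ^ 4 * ν ^ 2) * (1 + Real.log (s * ν))
    / (s * ν)))

lemma rho2_nonneg (n D : ℕ) (c ν s : ℝ) : 0 ≤ rho2 n D c ν s := Real.sqrt_nonneg _

/-- the hypothesis `hD` of `swin` on the cell torus -/
theorem loewner {ν c s : ℝ} (h : Dom A ν c) (hs : 1 ≤ s * ν) {S : Finset (V N)}
    {cen : V N → V N} {D n : ℕ} (hD : 1 ≤ D) (hn : 1 ≤ n) (hC : Cls S cen D n) (l : V N → ℝ) :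
    ∑ j, (l ᵥ* (Dm S cen * (ahat s A * cgm s A))) j ^ 2
      ≤ rho2 n D c ν s ^ 2 * ∑ i, (l ᵥ* (Dm S cen * gm s A)) i ^ 2 := by
  have hν := h.hν
  have hs0 : 0 < s := by
    by_contra hcon
    push Not at hcon
    have := mul_nonpos_of_nonpos_of_nonneg hcon hν.le
    linarith
  have hc := h.hc
  have hlg : 0 ≤ Real.log (s * ν) := Real.log_nonneg hs
  set ℓ := l ᵥ* Dm S cen with hℓ
  have h1 := in3n h hs hD hn (hC.dev l) (hC.l1 l)
  have e1 : ∑ i, (l ᵥ* (Dm S cen * gm s A)) i ^ 2 = qf (Gam s A) ℓ := by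
    rw [← vecMul_vecMul, vecMul_sq, gm_mul h hs0, H37.qf_eq]
  have e2 : ∑ j, (l ᵥ* (Dm S cen * (ahat s A * cgm s A))) j ^ 2
      = qf (Cpr s A) (ahat s A *ᵥ ℓ) := by
    have e3 : l ᵥ* (Dm S cen * (ahat s A * cgm s A)) = (ahat s A *ᵥ ℓ) ᵥ* cgm s A := by
      rw [← vecMul_vecMul, ← vecMul_vecMul, ← hℓ]
      congr 1
      rw [← mulVec_transpose, (ti_ahat s A).transpose]
    rw [e3, vecMul_sq, cgm_mul h hs0, H37.qf_eq]
  have hsq : rho2 n D c ν s ^ 2 = (n : ℝ) * (5100 * ((1 + c) / c) ^ 2 *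
      (1 + (D : ℝ) ^ 4 * ν ^ 2) * (1 + Real.log (s * ν)) / (s * ν)) := by
    unfold rho2
    exact Real.sq_sqrt (by positivity)
  rw [e1, e2, hsq]
  exact h1

/-- two boxes: centre `w₀` for the cells of the first box, `w₁` for the others -/
def cen2 (w₀ w₁ : V N) (D : ℕ) (y : V N) : V N := if y ∈ H462.box w₀ D then w₀ else w₁

lemma self_mem_box (w : V N) (D : ℕ) : w ∈ H462.box w D := by
  rw [H462.mem_box]
  simp

theorem cls_two {w₀ w₁ : V N} {D : ℕ} (h : w₁ ∉ H462.box w₀ D) :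
    Cls (H462.box w₀ D ∪ H462.box w₁ D) (cen2 w₀ w₁ D) D 2 := by
  have a0 := self_mem_box w₀ D
  have a1 := self_mem_box w₁ D
  refine ⟨fun y _ => ?_, fun y _ => ?_, fun y hy => ?_, ?_⟩
  · unfold cen2
    split_ifs
    · exact Finset.mem_union_left _ a0
    · exact Finset.mem_union_right _ a1
  · unfold cen2
    by_cases hy : y ∈ H462.box w₀ D
    · rw [if_pos hy, if_pos a0]
    · rw [if_neg hy, if_neg h]
  · unfold cen2
    by_cases hy0 : y ∈ H462.box w₀ D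
    · rw [if_pos hy0]
      exact hy0
    · rw [if_neg hy0]
      rcases Finset.mem_union.1 hy with h1 | h1
      · exact absurd h1 hy0
      · exact h1
  · have h1 := H462.card_box w₀ D
    have h2 := H462.card_box w₁ D
    have h3 : ((H462.box w₀ D ∪ H462.box w₁ D).card : ℝ)
        ≤ (H462.box w₀ D).card + (H462.box w₁ D).card := by
      exact_mod_cast Finset.card_union_le _ _
    push_cast
    linarith

/-- **SWIN on the cell torus**: one window for a linear functional which is local and neutral in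
each class of `S` (two boxes: `cls_two`), exact laws, letters of `one_window_torus`. -/
theorem swin_torus {ν c s : ℝ} (h : Dom A ν c) (hs : 1 ≤ s * ν) {S : Finset (V N)}
    {cen : V N → V N} {D n : ℕ} (hD : 1 ≤ D) (hn : 1 ≤ n) (hC : Cls S cen D n)
    {W : (V N → ℝ) → ℝ} (hW1 : ∀ F, 1 ≤ W F)
    (hWi : Integrable (fun p => W (fl (ahat s A * cgm s A) (gm s A) p))
      ((gau (V N)).prod (gau (V N))))
    {B : Set (V N → ℝ)} (hB : MeasurableSet B) {η L : ℝ} (hη0 : 0 ≤ η)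
    (hη : ∀ F, F ∉ B → W F ≤ 1 + η)
    {loc : (V N → ℝ) → ℝ} (hlm : Measurable loc) (hL0 : 0 ≤ L) (hL : ∀ F, |loc F| ≤ L)
    (hloc : ∀ F G : V N → ℝ, (∀ y ∈ S, F y - F (cen y) = G y - G (cen y)) → loc F = loc G)
    {u v e₂ e₁ : (V N → ℝ) → ℝ} {d e q q₀ b Z : ℝ}
    (hZ : Z = ∫ p, W (fl (ahat s A * cgm s A) (gm s A) p) ∂((gau (V N)).prod (gau (V N))))
    (hdec : ∀ F, u F + v F = loc F + e₂ F + e₁ F)
    (hum : Measurable u) (hvm : Measurable v) (he2m : Measurable e₂) (he1m : Measurable e₁)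
    (hui : Integrable (fun p => W (fl (ahat s A * cgm s A) (gm s A) p) *
      u (fl (ahat s A * cgm s A) (gm s A) p) ^ 2) ((gau (V N)).prod (gau (V N))))
    (hvi : Integrable (fun p => W (fl (ahat s A * cgm s A) (gm s A) p) *
      |v (fl (ahat s A * cgm s A) (gm s A) p)|) ((gau (V N)).prod (gau (V N))))
    (he2i : Integrable (fun p => W (fl (ahat s A * cgm s A) (gm s A) p) *
      e₂ (fl (ahat s A * cgm s A) (gm s A) p) ^ 2) ((gau (V N)).prod (gau (V N))))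
    (he1i : Integrable (fun p => W (fl (ahat s A * cgm s A) (gm s A) p) *
      |e₁ (fl (ahat s A * cgm s A) (gm s A) p)|) ((gau (V N)).prod (gau (V N))))
    (hd0 : 0 ≤ d) (he0 : 0 ≤ e)
    (hd : ∫ p, W (fl (ahat s A * cgm s A) (gm s A) p) *
      u (fl (ahat s A * cgm s A) (gm s A) p) ^ 2 ∂((gau (V N)).prod (gau (V N))) ≤ d ^ 2 * Z)
    (hq₀ : ∫ p, W (fl (ahat s A * cgm s A) (gm s A) p) *
      |v (fl (ahat s A * cgm s A) (gm s A) p)| ∂((gau (V N)).prod (gau (V N))) ≤ q₀ * Z)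
    (he : ∫ p, W (fl (ahat s A * cgm s A) (gm s A) p) *
      e₂ (fl (ahat s A * cgm s A) (gm s A) p) ^ 2 ∂((gau (V N)).prod (gau (V N))) ≤ e ^ 2 * Z)
    (hq : ∫ p, W (fl (ahat s A * cgm s A) (gm s A) p) *
      |e₁ (fl (ahat s A * cgm s A) (gm s A) p)| ∂((gau (V N)).prod (gau (V N))) ≤ q * Z)
    (hb : ∫ p in (fl (ahat s A * cgm s A) (gm s A)) ⁻¹' B,
      W (fl (ahat s A * cgm s A) (gm s A) p) ∂((gau (V N)).prod (gau (V N))) ≤ b * Z)
    (hmean : ∫ p, W (fl (ahat s A * cgm s A) (gm s A) p) *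
      (u (fl (ahat s A * cgm s A) (gm s A) p) + v (fl (ahat s A * cgm s A) (gm s A) p))
        ∂((gau (V N)).prod (gau (V N))) = 0) :
    ∃ u' v' : (V N → ℝ) → ℝ,
      (∀ᵐ a ∂(gau (V N)), tl (gau (V N)) (fun p => W (fl (ahat s A * cgm s A) (gm s A) p))
        (fun p => u (fl (ahat s A * cgm s A) (gm s A) p)
          + v (fl (ahat s A * cgm s A) (gm s A) p)) a = u' a + v' a) ∧
      AEStronglyMeasurable u' (gau (V N)) ∧ AEStronglyMeasurable v' (gau (V N)) ∧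
      Integrable (fun a => mg (gau (V N)) (fun p => W (fl (ahat s A * cgm s A) (gm s A) p)) a
        * u' a ^ 2) (gau (V N)) ∧
      Integrable (fun a => mg (gau (V N)) (fun p => W (fl (ahat s A * cgm s A) (gm s A) p)) a
        * |v' a|) (gau (V N)) ∧
      ∫ a, mg (gau (V N)) (fun p => W (fl (ahat s A * cgm s A) (gm s A) p)) a * |v' a|
        ∂(gau (V N)) ≤ q * Z ∧
      ∫ a, mg (gau (V N)) (fun p => W (fl (ahat s A * cgm s A) (gm s A) p)) a * u' a ^ 2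
        ∂(gau (V N))
        ≤ (√(1 + η) * (√(π ^ 2 / 8) * rho2 n D c ν s + 2 * η) * (d + e + √(L * (q₀ + q)))
          + (4 + 2 * η) * L * √b + e + q) ^ 2 * Z := by
  refine swin (Dm S cen) (rho2_nonneg n D c ν s) (loewner h hs hD hn hC) hW1 hWi hB hη0 hη hlm
    hL0 hL ?_ hZ hdec hum hvm he2m he1m hui hvi he2i he1i hd0 he0 hd hq₀ he hq hb hmean
  intro F G hFG
  refine hloc F G fun y hy => ?_
  have h1 := congrFun hFG y
  rwa [Dm_mulVec, Dm_mulVec, if_pos hy, if_pos hy] at h1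

end

end Vale.Agent.P159.H686
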