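import Vale.Agent.P159.H686.Xfer2

/-!
P159 / H686: GLUE-S, part 1. One level of the induction for the dislocation functional:
transfer to the next pair (XFER), then one window (SWIN, as the hypothesis `Stp`).
-/

namespace Vale.Agent.P159.H686

open MeasureTheory

variable {Ω Ω' Ω₂ X X₂ : Type*} [MeasurableSpace Ω] [MeasurableSpace Ω'] [MeasurableSpace Ω₂]
  [MeasurableSpace X] [MeasurableSpace X₂]
  {ν : Measure Ω} {ν' : Measure Ω'} {ν₂ : Measure Ω₂}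
  [IsProbabilityMeasure ν] [IsProbabilityMeasure ν'] [IsProbabilityMeasure ν₂]
  {Ψ : Ω → ℝ} {Ψ' : Ω' → ℝ} {Ψ₂ : Ω₂ → ℝ} {c c' κ : ℝ} {w : Ω → X} {w' : Ω' → X}
  {w₂ : Ω₂ → X₂} {G : X → ℝ} {G₂ : X₂ → ℝ}
  {Gd : Set Ω} {Gd' : Set Ω'} {Gd₂ : Set Ω₂} {L L₂ δ δ₂ q q₂ b b₂ h τ : ℝ}

/-- the error after one window -/
noncomputable def dW (κP η b L D e q : ℝ) : ℝ :=
  √(1 + η) * (κP + 2 * η) * (D + 2 * e + √(2 * L * q)) + (4 + 2 * η) * L * √b + e + q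

/-- **one window** as a property of the two levels (instance: `swin`, `swin_torus`) -/
def Stp (ν : Measure Ω) (ν₂ : Measure Ω₂) (Ψ : Ω → ℝ) (Ψ₂ : Ω₂ → ℝ) (c : ℝ) (w : Ω → X)
    (κP η b : ℝ) : Prop :=
  ∀ (G : X → ℝ) (e₂ e₁ : Ω → ℝ) (L D e q : ℝ), Measurable G → (∀ z, 0 ≤ G z) → (∀ z, G z ≤ L) →
    1 ≤ L → 0 ≤ D → 0 ≤ e → 0 ≤ q → Measurable e₂ → Measurable e₁ →
    (∀ x, Ψ x / c - 1 = (G (w x) - 1) + e₂ x + e₁ x) →
    dst ν w G ≤ D → Integrable (fun x => e₂ x ^ 2) ν → ∫ x, e₂ x ^ 2 ∂ν ≤ e ^ 2 →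
    Integrable (fun x => |e₁ x|) ν → ∫ x, |e₁ x| ∂ν ≤ q →
    ∃ u v : Ω₂ → ℝ, AEStronglyMeasurable u ν₂ ∧ AEStronglyMeasurable v ν₂ ∧
      Integrable (fun x => u x ^ 2) ν₂ ∧ Integrable (fun x => |v x|) ν₂ ∧
      (∀ᵐ x ∂ν₂, Ψ₂ x / c = 1 + u x + v x) ∧
      ∫ x, u x ^ 2 ∂ν₂ ≤ dW κP η b L D e q ^ 2 ∧ ∫ x, |v x| ∂ν₂ ≤ q

/-- the two error functions of a local functional -/
theorem Lcl.split (H : Lcl ν Ψ c c w G Gd L δ q b) (hL : 1 ≤ L) (hδ0 : 0 ≤ δ) :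
    ∃ e₂ e₁ : Ω → ℝ, Measurable e₂ ∧ Measurable e₁ ∧
      (∀ x, Ψ x / c - 1 = (G (w x) - 1) + e₂ x + e₁ x) ∧
      Integrable (fun x => e₂ x ^ 2) ν ∧ ∫ x, e₂ x ^ 2 ∂ν ≤ (δ * (1 + dst ν w G)) ^ 2 ∧
      Integrable (fun x => |e₁ x|) ν ∧ ∫ x, |e₁ x| ∂ν ≤ q + L * b := by
  set r : Ω → ℝ := fun x => Ψ x / c - G (w x) with hr
  have hrm : Measurable r := (H.Ψm.div_const c).sub (H.Gm.comp H.wm)
  have hGw : Measurable fun x => G (w x) := H.Gm.comp H.wm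
  have hc := H.hc
  refine ⟨Gd.indicator r, Gdᶜ.indicator r, hrm.indicator H.Gdm, hrm.indicator H.Gdm.compl,
    fun x => ?_, ?_⟩
  · have := Set.indicator_self_add_compl_apply Gd r x
    simp only [hr] at this ⊢
    linarith
  have hb : ∀ x, |Gd.indicator r x| ≤ δ * (1 + |G (w x) - 1|) := by
    intro x
    by_cases hx : x ∈ Gd
    · rw [Set.indicator_of_mem hx]
      refine (H.loc x hx).trans (mul_le_mul_of_nonneg_left ?_ hδ0)
      have := le_abs_self (G (w x) - 1)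
      linarith
    · rw [Set.indicator_of_notMem hx, abs_zero]
      positivity
  have hI1 := int_abs_sub (ν := ν) H.Gm H.wm H.G0 H.Gb hL
  have hI2 := int_sub_sq (ν := ν) H.Gm H.wm H.G0 H.Gb hL
  have hbb : ∀ x, (Gd.indicator r x) ^ 2 ≤ (δ * (1 + |G (w x) - 1|)) ^ 2 := fun x => by
    rw [← sq_abs]
    exact pow_le_pow_left₀ (abs_nonneg _) (hb x) 2
  have hI3 : Integrable (fun x => (δ * (1 + |G (w x) - 1|)) ^ 2) ν := by
    have e : (fun x => (δ * (1 + |G (w x) - 1|)) ^ 2)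
        = fun x => δ ^ 2 * (1 + 2 * |G (w x) - 1| + (G (w x) - 1) ^ 2) := by
      funext x
      rw [← sq_abs (G (w x) - 1)]
      ring
    rw [e]
    exact (((integrable_const _).add (hI1.const_mul 2)).add hI2).const_mul _
  have hI4 : Integrable (fun x => (Gd.indicator r x) ^ 2) ν :=
    hI3.mono' ((hrm.indicator H.Gdm).pow_const 2).aestronglyMeasurable
      (Filter.Eventually.of_forall fun x => by
        rw [Real.norm_eq_abs, abs_of_nonneg (sq_nonneg _)]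
        exact hbb x)
  refine ⟨hI4, ?_, ?_, ?_⟩
  · refine (integral_mono hI4 hI3 hbb).trans ?_
    have e : ∀ x, (δ * (1 + |G (w x) - 1|)) ^ 2
        = δ ^ 2 * (1 + 2 * |G (w x) - 1| + (G (w x) - 1) ^ 2) := fun x => by
      rw [← sq_abs (G (w x) - 1)]
      ring
    simp only [e]
    rw [integral_const_mul, mul_pow]
    refine mul_le_mul_of_nonneg_left ?_ (sq_nonneg δ)
    have i1 : Integrable (fun x => 1 + 2 * |G (w x) - 1|) ν :=
      (integrable_const _).add (hI1.const_mul 2)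
    rw [integral_add i1 hI2, integral_add (integrable_const _) (hI1.const_mul 2),
      integral_const_mul, ← dst_sq]
    have h1 := int_abs_le_dst (ν := ν) H.Gm H.wm H.G0 H.Gb hL
    simp only [integral_const, probReal_univ, smul_eq_mul, mul_one]
    nlinarith
  · have hΨ : Integrable (fun x => Ψ x / c) ν := H.Ψi.div_const c
    have h1 : Integrable r ν := hΨ.sub H.Gi
    exact (h1.indicator H.Gdm.compl).abs
  · have e : (fun x => |Gdᶜ.indicator r x|) = Gdᶜ.indicator fun x => |r x| := by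
      funext x
      by_cases hx : x ∈ Gdᶜ
      · rw [Set.indicator_of_mem hx, Set.indicator_of_mem hx]
      · rw [Set.indicator_of_notMem hx, Set.indicator_of_notMem hx, abs_zero]
    rw [e, integral_indicator H.Gdm.compl]
    have hΨ : Integrable (fun x => Ψ x / c) ν := H.Ψi.div_const c
    have h1 : ∫ x in Gdᶜ, |r x| ∂ν ≤ ∫ x in Gdᶜ, (Ψ x / c + G (w x)) ∂ν := by
      refine integral_mono (hΨ.sub H.Gi).abs.integrableOn (hΨ.add H.Gi).integrableOn fun x => ?_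
      simp only [hr]
      have a1 : 0 ≤ Ψ x / c := div_nonneg (H.Ψ0 x) hc.le
      have a2 := H.G0 (w x)
      rw [abs_le]
      constructor <;> linarith
    refine h1.trans ?_
    rw [integral_add hΨ.integrableOn H.Gi.integrableOn, integral_div]
    refine add_le_add ?_ ?_
    · rw [div_le_iff₀ hc]
      exact H.Q
    · have h2 : ∫ x in Gdᶜ, G (w x) ∂ν ≤ ∫ _ in Gdᶜ, L ∂ν :=
        integral_mono H.Gi.integrableOn (integrable_const _) fun x => H.Gb _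
      refine h2.trans ?_
      rw [setIntegral_const, smul_eq_mul, mul_comm]
      exact mul_le_mul_of_nonneg_left H.P H.L0

/-- **one level** of the induction of S: from the distance `D` of the window functional at
`(P_n, level n)` to the distance at `(P_{n+1}, level n+1)`. -/
theorem one_level (H : Lcl ν Ψ c c w G Gd L δ q b) (H' : Lcl ν' Ψ' c' κ w' G Gd' L δ q b)
    (hc : Cmp ν ν' w w' h τ) {κP η bW : ℝ} (hS : Stp ν' ν₂ Ψ' Ψ₂ c' w' κP η bW)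
    (H₂ : Lcl ν₂ Ψ₂ c' c' w₂ G₂ Gd₂ L₂ δ₂ q₂ b₂)
    (hL : 1 ≤ L) (hL₂ : 1 ≤ L₂) (hδ0 : 0 ≤ δ) (hδ₂ : 0 ≤ δ₂) (hδ₂' : δ₂ ≤ 1 / 2)
    (hq0 : 0 ≤ q) (hh0 : 0 ≤ h) (hκP : 0 ≤ κP) (hη : 0 ≤ η)
    (hτ : 0 ≤ τ) (hsm : q + 2 * δ + L * b + 3 * h + 2 * (τ * L) ≤ 1 / 8)
    {D D' : ℝ} (hD : dst ν w G ≤ D)
    (hD' : (1 + 2 * |c' / κ - 1|) * √((1 + h) * D ^ 2 + τ * L ^ 2) + 2 * |c' / κ - 1| ≤ D') :
    dst ν₂ w₂ G₂ ≤ 2 * (δ₂ + dW κP η bW (2 * L) D' (δ * (1 + D')) (q + 2 * L * b))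
      + √(2 * L₂ * (q + 2 * L * b) + L₂ ^ 2 * b₂) := by
  obtain ⟨_, _, hR, hdst⟩ := xfer H H' hc hL hδ0 hq0 hh0 hτ hsm
  have hD0 : 0 ≤ D := dst_nonneg.trans hD
  have hdst' : dst ν' w' (fun z => κ / c' * G z) ≤ D' := by
    refine hdst.trans (le_trans ?_ hD')
    have h1 : dst ν w G ^ 2 ≤ D ^ 2 := pow_le_pow_left₀ dst_nonneg hD 2
    have h2 : √((1 + h) * dst ν w G ^ 2 + τ * L ^ 2) ≤ √((1 + h) * D ^ 2 + τ * L ^ 2) := by
      apply Real.sqrt_le_sqrt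
      have := mul_le_mul_of_nonneg_left h1 (by linarith : (0 : ℝ) ≤ 1 + h)
      linarith
    have := mul_le_mul_of_nonneg_left h2 (by positivity : 0 ≤ 1 + 2 * |c' / κ - 1|)
    linarith
  have hD0' : 0 ≤ D' := dst_nonneg.trans hdst'
  have h2L : 1 ≤ 2 * L := by linarith
  have hb0 := H.b0
  obtain ⟨e₂, e₁, m2, m1, hdec, i2, n2, i1, n1⟩ := hR.split h2L hδ0
  have n2' : ∫ x, e₂ x ^ 2 ∂ν' ≤ (δ * (1 + D')) ^ 2 := by
    refine n2.trans (pow_le_pow_left₀ ?_ ?_ 2)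
    · have := dst_nonneg (ν := ν') (w := w') (G := fun z => κ / c' * G z)
      positivity
    · exact mul_le_mul_of_nonneg_left (by linarith) hδ0
  obtain ⟨u, v, hum, hvm, hui, hvi, hdec2, hu, hv⟩ := hS (fun z => κ / c' * G z) e₂ e₁ (2 * L) D'
    (δ * (1 + D')) (q + 2 * L * b) hR.Gm hR.G0 hR.Gb h2L hD0' (by positivity) (by positivity)
    m2 m1 hdec hdst' i2 n2' i1 (by
      refine n1.trans (le_of_eq ?_)
      ring)
  have hd0 : 0 ≤ dW κP η bW (2 * L) D' (δ * (1 + D')) (q + 2 * L * b) := by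
    unfold dW
    positivity
  have hfin := H₂.norm_le (u := u) (v := v) hδ₂ hδ₂' hL₂ hd0 hum hui hu hvi hv hdec2
  unfold dst
  exact hfin

end Vale.Agent.P159.H686
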