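import Vale.Agent.P159.H686.Loc1
import Vale.Agent.P159.H770.VlCh

/-!
P159 / H686, module LOC2: the field `loc` of a level at ONE pair `R` of the window, with a locality
length `l k` which depends on the scale (770's `VlCh`), from inputs at the scales `2^k < R` only.
-/

open MeasureTheory Filter Topology Finset Matrix

set_option linter.all false

namespace Vale.Agent.P159.H686

open Vale.Agent.P159.TM.Spec (V)
open Vale.Agent.P159.TM.SpecC (wT)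
open Vale.Agent.P159.H883 (nuM Psi BW Zp PT)
open Vale.Agent.P159.H708 (Bx wd)
open Vale.Agent.P159.H770 (wTD Ed)
open Vale.Agent.P159.H773 (sd ax0 nuF PsF cMn wdF cMn_pos Gcut sd_ge sd_pow)
open Vale.Agent.P159.H817 (eD Dec Idl SysI RefB HasId GB ChI eB CG edec dec cfg rh LPg gr eF bD)

noncomputable section

/-- **the inputs of the comparison of the pair `R` with the base pair `2^k0`**: 817's chain of
doublings with the length `l k` at the scale `2^k`, the ideal corrections `g0` (base pair) and `g`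
(pair `R`) -/
structure StV (i : ℕ) (b t a : ℝ) (n : ℕ) (l : ℕ → ℕ) (Λc ε₂ ε₃ : ℕ → ℝ) (L S B E : ℝ)
    (D0 D1 : Dec) (b0 : ℤ → ℤ → Bool → ℝ) (k0 R : ℕ) (g0 : V (sd i (2 ^ k0)) → ℝ)
    (g : V (sd i R) → ℝ) : Prop where
  ch : ∀ k, k0 ≤ k → k < Nat.clog 2 R →
    ChI b t a n (l k) (Λc k) (ε₂ k) (ε₃ k) L D0 D1 b0 (sd i (2 ^ k)) (sd i (2 ^ (k + 1))) k
  mono : ∀ k, k0 ≤ k → k < Nat.clog 2 R → l k ≤ l (k + 1)
  hE : ∀ k, k0 ≤ k → k < Nat.clog 2 R →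
    500000 * eB (sd i (2 ^ (k + 1))) (l k) (ε₂ k) (ε₃ k) ≤ E
  E0 : 0 ≤ E
  rb : ∀ k, k0 ≤ k → k < Nat.clog 2 R → RefB b0 (20 * l k)
  L0 : 0 ≤ L
  LS : L ≤ S
  B1 : 1 ≤ B
  big : ∀ k, k0 ≤ k → k < Nat.clog 2 R → 10000000000 * (1 + CG + S + B) ≤ Λc k
  gb0 : GB (S / l k0) g0
  gB0 : ∀ x, |g0 x| ≤ B
  gI0 : Idl b0 (20 * l k0) (0 : V (sd i (2 ^ k0))) ((2 ^ k0) • H817.e1) (fun x => -g0 x)
  gb : GB (S / l (Nat.log 2 R)) g
  gB : ∀ x, |g x| ≤ B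
  gI : Idl b0 (20 * l (Nat.log 2 R)) (0 : V (sd i R)) (R • H817.e1) (fun x => -g x)

/-- the real part of the comparison at the pair `R` -/
def RealR (i : ℕ) (b t a : ℝ) (n : ℕ) (D0 D1 : Dec) (k0 R : ℕ) (g0 : V (sd i (2 ^ k0)) → ℝ)
    (g : V (sd i R) → ℝ) (ε₄ : ℝ) : Prop :=
  ∀ F0 ∈ D0, ∀ F1 ∈ D1,
    |rh (sd i R) b t a n (gr fun x => edec F0 F1 0 (R • H817.e1) x + -g x) -
      rh (sd i (2 ^ k0)) b t a n
        (gr fun x => edec F0 F1 0 ((2 ^ k0) • H817.e1) x + -g0 x)| ≤ ε₄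

lemma RealW.at {i : ℕ} {b t a : ℝ} {n : ℕ} {D0 D1 : Dec} {k0 k1 : ℕ}
    {gs : ∀ R, V (sd i R) → ℝ} {ε₄ : ℝ} (h : RealW i b t a n D0 D1 k0 k1 gs ε₄) {R : ℕ}
    (h0 : 2 ^ k0 ≤ R) (h1 : R ≤ 2 ^ k1) :
    RealR i b t a n D0 D1 k0 R (gs (2 ^ k0)) (gs R) ε₄ := fun F0 f0 F1 f1 => h R h0 h1 F0 f0 F1 f1

section

variable {i : ℕ} {b t a : ℝ} {n : ℕ} {l : ℕ → ℕ} {Λc ε₂ ε₃ : ℕ → ℝ} {L S B E : ℝ} {D0 D1 : Dec}
  {b0 : ℤ → ℤ → Bool → ℝ} {k0 R : ℕ} {g0 : V (sd i (2 ^ k0)) → ℝ} {g : V (sd i R) → ℝ}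

/-- 770's chain on a torus which is only propositionally `N_(k+1)` -/
lemma LPg_chainV {Nf : ℕ → ℕ} [∀ k, NeZero (Nf k)] {k0 k1 : ℕ} {ε₄ : ℝ}
    (H : ∀ k, k0 ≤ k → k ≤ k1 →
      ChI b t a n (l k) (Λc k) (ε₂ k) (ε₃ k) L D0 D1 b0 (Nf k) (Nf (k + 1)) k)
    (hl : ∀ k, k0 ≤ k → k < k1 → l k ≤ l (k + 1))
    (hE : ∀ k, k0 ≤ k → k ≤ k1 → 500000 * eB (Nf (k + 1)) (l k) (ε₂ k) (ε₃ k) ≤ E)
    (hRb : ∀ k, k0 ≤ k → k ≤ k1 → RefB b0 (20 * l k)) (hL : 0 ≤ L)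
    {F0 F1 : ℤ → ℤ → ℝ} (h0 : F0 ∈ D0) (h1 : F1 ∈ D1) (hLS : L ≤ S) (hB1 : 1 ≤ B)
    (hΛ : ∀ k, k0 ≤ k → k ≤ k1 → 10000000000 * (1 + CG + S + B) ≤ Λc k)
    {g : V (Nf k0) → ℝ} (hg : GB (S / l k0) g) (hgB : ∀ x, |g x| ≤ B)
    (hgI : Idl b0 (20 * l k0) (0 : V (Nf k0)) ((2 ^ k0) • H817.e1) g)
    {k R : ℕ} (hk : k0 ≤ k) (hk1 : k ≤ k1) (hR1 : 2 ^ k ≤ R) (hR2 : R ≤ 2 ^ (k + 1))
    {N' : ℕ} [NeZero N'] (hN : N' = Nf (k + 1))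
    {g' : V N' → ℝ} (hg' : GB (S / l k) g') (hgB' : ∀ x, |g' x| ≤ B)
    (hgI' : Idl b0 (20 * l k) (0 : V N') (R • H817.e1) g')
    (hreal : |rh N' b t a n (gr fun x => edec F0 F1 0 (R • H817.e1) x + g' x) -
      rh (Nf k0) b t a n (gr fun x => edec F0 F1 0 ((2 ^ k0) • H817.e1) x + g x)| ≤ ε₄) :
    |LPg N' b t F0 F1 0 (R • H817.e1) g' - LPg (Nf k0) b t F0 F1 0 ((2 ^ k0) • H817.e1) g -
      a / 2 * (eD N' R - eD (Nf k0) (2 ^ k0))| ≤ (k - k0 + 1) * E + ε₄ := by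
  subst hN
  exact H770.Vl.LPg_chain H hl hE hRb hL h0 h1 hLS hB1 hΛ hg hgB hgI hk hk1 hR1 hR2 hg' hgB'
    hgI' hreal

/-- **the pair `R` against the base pair** -/
theorem LPg_one (H : StV i b t a n l Λc ε₂ ε₃ L S B E D0 D1 b0 k0 R g0 g) {ε₄ : ℝ}
    (hr : RealR i b t a n D0 D1 k0 R g0 g ε₄) {F0 F1 : ℤ → ℤ → ℝ} (h0 : F0 ∈ D0) (h1 : F1 ∈ D1)
    (hR0 : 2 ^ k0 ≤ R) (hg : ∀ h : 2 ^ k0 = R, h ▸ g0 = g) :
    |LPg (sd i R) b t F0 F1 0 (R • H817.e1) (fun x => -g x) -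
      LPg (sd i (2 ^ k0)) b t F0 F1 0 ((2 ^ k0) • H817.e1) (fun x => -g0 x) -
      a / 2 * (eD (sd i R) R - eD (sd i (2 ^ k0)) (2 ^ k0))| ≤ (Nat.clog 2 R - k0) * E + ε₄ := by
  have hε : 0 ≤ ε₄ := (abs_nonneg _).trans (hr F0 h0 F1 h1)
  rcases hR0.eq_or_lt with h | h
  · subst h
    have h2 : g0 = g := hg rfl
    subst h2
    rw [sub_self, sub_self, mul_zero, sub_zero, abs_zero, Nat.clog_pow 2 k0 (by norm_num), sub_self,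
      zero_mul, zero_add]
    exact hε
  · -- the dyadic interval of `R`
    have h2 : 1 < R := lt_of_le_of_lt Nat.one_le_two_pow h
    obtain ⟨k, hk⟩ : ∃ k, Nat.clog 2 R = k + 1 :=
      ⟨Nat.clog 2 R - 1, by have := Nat.clog_pos (by norm_num : 1 < 2) h2; omega⟩
    have a1 : 2 ^ k < R := (Nat.lt_clog_iff_pow_lt (by norm_num)).1 (by omega)
    have a2 : R ≤ 2 ^ (k + 1) := (Nat.clog_le_iff_le_pow (by norm_num)).1 hk.le
    have a3 : k0 ≤ k := by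
      have h3 := (Nat.pow_lt_pow_iff_right (by norm_num : 1 < 2)).1 (lt_of_lt_of_le h a2)
      omega
    have hS : 0 ≤ S := H.L0.trans H.LS
    have hlk : 0 < l k := by
      have := (H.ch k a3 (by omega)).sys.hl
      omega
    -- the length at `R`
    have hlog1 : k ≤ Nat.log 2 R := Nat.le_log_of_pow_le (by norm_num) a1.le
    have hlog2 : Nat.log 2 R ≤ k + 1 := by
      have h4 : Nat.log 2 R < k + 2 := by
        refine Nat.log_lt_of_lt_pow (by omega) ?_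
        refine lt_of_le_of_lt a2 ?_
        exact Nat.pow_lt_pow_right (by norm_num) (by omega)
      omega
    have hll : l k ≤ l (Nat.log 2 R) := by
      rcases hlog1.eq_or_lt with h5 | h5
      · rw [← h5]
      · have h6 : Nat.log 2 R = k + 1 := by omega
        rw [h6]
        exact H.mono k a3 (by omega)
    have gb' : GB (S / l k) (fun x => -g x) := (H770.Vl.GB_len hS hlk hll H.gb).neg
    have gI' : Idl b0 (20 * l k) (0 : V (sd i R)) (R • H817.e1) (fun x => -g x) :=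
      H.gI.mono (by omega)
    have key := LPg_chainV (Nf := fun k => sd i (2 ^ k)) (k0 := k0) (k1 := k) (k := k) (R := R)
      (fun j g1 g2 => H.ch j g1 (by omega)) (fun j g1 g2 => H.mono j g1 (by omega))
      (fun j g1 g2 => H.hE j g1 (by omega)) (fun j g1 g2 => H.rb j g1 (by omega)) H.L0
      h0 h1 H.LS H.B1 (fun j g1 g2 => H.big j g1 (by omega)) H.gb0.neg
      (fun x => by rw [abs_neg]; exact H.gB0 x) H.gI0
      a3 le_rfl a1.le a2 (N' := sd i R) (sd_dbl i a1 a2) gb'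
      (fun x => by rw [abs_neg]; exact H.gB x) gI' (hr F0 h0 F1 h1)
    refine key.trans (le_of_eq ?_)
    rw [hk]
    push_cast
    ring

variable {η : ∀ R, Ed (sd i R) → ℤ} {φ : ∀ R, V (sd i R) → ℝ} {gs : ∀ R, V (sd i R) → ℝ}

/-- **the hypothesis `stat` of 773 at one pair** -/
theorem stat_V (hb : 0 < b) (ht : 0 < t)
    (hφ0 : bD (0 : V (sd i (2 ^ k0))) ((2 ^ k0) • H817.e1) = eF (η (2 ^ k0)) (φ (2 ^ k0)))
    (hφ : bD (0 : V (sd i R)) (R • H817.e1) = eF (η R) (φ R))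
    (H : StV i b t a n l Λc ε₂ ε₃ L S B E D0 D1 b0 k0 R (gs (2 ^ k0)) (gs R)) {ε₄ : ℝ}
    (hr : RealR i b t a n D0 D1 k0 R (gs (2 ^ k0)) (gs R) ε₄) {D : ℕ}
    {T0 T1 : (Bx D ⊕ Bx D → ℝ) → ℤ → ℤ → ℝ} {z : Bx D ⊕ Bx D → ℝ} (h0 : T0 z ∈ D0)
    (h1 : T1 z ∈ D1) (hR0 : 2 ^ k0 ≤ R) :
    |Real.log (PsF b (sd i) (fun R => wTD (sd i R) b (η R)) φ t R (dcF i D T0 T1 R (gs R) z)) -
      Real.log (PsF b (sd i) (fun R => wTD (sd i R) b (η R)) φ t (2 ^ k0)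
        (dcF i D T0 T1 (2 ^ k0) (gs (2 ^ k0)) z)) +
      a / 2 * (eD (sd i R) R - eD (sd i (2 ^ k0)) (2 ^ k0))| ≤ (Nat.clog 2 R - k0) * E + ε₄ := by
  have key := LPg_one H hr h0 h1 hR0 (fun h => by subst h; rfl)
  rw [H817.LPg_eq hb ht hφ, H817.LPg_eq hb ht hφ0] at key
  rw [PsF_PT, PsF_PT]
  have e1 : ∀ R, (fun x => edec (T0 z) (T1 z) 0 (R • H817.e1) x + -gs R x) =
      dcF i D T0 T1 R (gs R) z := fun R => by
    funext x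
    unfold dcF
    ring
  rw [e1, e1] at key
  rw [← abs_neg]
  refine (le_of_eq ?_).trans key
  congr 1
  ring

/-- **THE FIELD `loc` OF A LEVEL AT THE PAIR `R`** -/
theorem loc_V (hb : 0 < b) (ht : 0 < t)
    (hφ0 : bD (0 : V (sd i (2 ^ k0))) ((2 ^ k0) • H817.e1) = eF (η (2 ^ k0)) (φ (2 ^ k0)))
    (hφ : bD (0 : V (sd i R)) (R • H817.e1) = eF (η R) (φ R))
    (H : StV i b t a n l Λc ε₂ ε₃ L S B E D0 D1 b0 k0 R (gs (2 ^ k0)) (gs R)) {ε₄ : ℝ}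
    (hr : RealR i b t a n D0 D1 k0 R (gs (2 ^ k0)) (gs R) ε₄) {D : ℕ}
    {T0 T1 : (Bx D ⊕ Bx D → ℝ) → ℤ → ℤ → ℝ} (m0 : ∀ u v, Measurable fun z => T0 z u v)
    (m1 : ∀ u v, Measurable fun z => T1 z u v) (hR0 : 2 ^ k0 ≤ R) {Λ s1 δ q bb : ℝ}
    (hΛ : 0 ≤ Λ) (hs : s1 + ((Nat.clog 2 R - k0) * E + ε₄) ≤ 1)
    (hδ : 2 * (s1 + ((Nat.clog 2 R - k0) * E + ε₄)) ≤ δ) {Gd : Set (V (sd i R) → ℝ)}
    (mG : MeasurableSet Gd) (mem0 : ∀ F ∈ Gd, T0 (wdS (sd i) D R (gs R) F) ∈ D0)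
    (mem1 : ∀ F ∈ Gd, T1 (wdS (sd i) D R (gs R) F) ∈ D1)
    (cut : ∀ F ∈ Gd,
      |Real.log (PsF b (sd i) (fun R => wTD (sd i R) b (η R)) φ t R F) -
        Real.log (PsF b (sd i) (fun R => wTD (sd i R) b (η R)) φ t R
          (dcF i D T0 T1 R (gs R) (wdS (sd i) D R (gs R) F)))| ≤ s1)
    (up : ∀ F ∈ Gd,
      PsF b (sd i) (fun R => wTD (sd i R) b (η R)) φ t (2 ^ k0)
        (dcF i D T0 T1 (2 ^ k0) (gs (2 ^ k0)) (wdS (sd i) D R (gs R) F)) ≤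
      Λ * cMn b (sd i) (fun R => wTD (sd i R) b (η R)) (2 ^ k0))
    (hQ : ∫ F in Gdᶜ, PsF b (sd i) (fun R => wTD (sd i R) b (η R)) φ t R F ∂(nuF b (sd i) t R) ≤
        q * cMn b (sd i) (fun R => wTD (sd i R) b (η R)) R)
    (hP : (nuF b (sd i) t R).real Gdᶜ ≤ bb) :
    Lcl (nuF b (sd i) t R) (PsF b (sd i) (fun R => wTD (sd i R) b (η R)) φ t R)
        (cMn b (sd i) (fun R => wTD (sd i R) b (η R)) R)
        (cMn b (sd i) (fun R => wTD (sd i R) b (η R)) (2 ^ k0) *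
          Real.exp (-(a / 2 * (eD (sd i R) R - eD (sd i (2 ^ k0)) (2 ^ k0)))))
        (wdS (sd i) D R (gs R))
        (Gcut b (sd i) (fun R => wTD (sd i R) b (η R)) φ t (2 ^ k0) D
          (dcF i D T0 T1 (2 ^ k0) (gs (2 ^ k0))) Λ)
        Gd Λ δ q bb := by
  have hD : ∀ R, BW (wTD (sd i R) b (η R)) := fun R => H883.bw_wTD hb (η R)
  have key := lcl_W (e := fun R => eD (sd i R) R) (wD := fun R => wTD (sd i R) b (η R)) (φ := φ)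
    (a := a) (R0 := 2 ^ k0) (R := R) (D := D) hb hD ht (measurable_wdS D R (gs R))
    (measurable_dcF m0 m1 (2 ^ k0) (gs (2 ^ k0))) mG hΛ hs ?_ up hQ hP
  · exact ⟨key.hc, key.hκ, key.Ψ0, key.Ψm, key.Ψi, key.mean, key.wm, key.Gm, key.G0, key.Gb,
      key.Gdm, fun F hF => (key.loc F hF).trans
        (mul_le_mul_of_nonneg_right hδ (key.G0 _)), key.Q, key.P⟩
  intro F hF
  have c1 := cut F hF
  have c2 := stat_V (T0 := T0) (T1 := T1) hb ht hφ0 hφ H hr (mem0 F hF) (mem1 F hF) hR0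
  rw [abs_le] at c1 c2 ⊢
  constructor <;> linarith [c1.1, c1.2, c2.1, c2.2]

end

end

end Vale.Agent.P159.H686
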