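import Vale.Agent.P159.H686.Loc2
import Vale.Agent.P159.H191.Ct6
import Vale.Agent.P159.H817.Id10
import Vale.Agent.P159.H817.Id11
import Vale.Agent.P159.H817.St13

/-!
P159 / H686, module LOC3: **the plateau step at the pair `R`**.

`plC P W w c q x = ∑ v, w v * (c v * U P W (x - v - q))` : smeared plateau with the heights `c v`
(191's `plp` with `pl = U P W`); only the average `∑ v, w v * |c v|` enters the bounds.
-/

open MeasureTheory Filter Topology Finset Matrix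

set_option linter.all false

namespace Vale.Agent.P159.H686

open Vale.Agent.P159.TM.Spec (V)
open Vale.Agent.P159.TM.SpecC (wT)
open Vale.Agent.P159.TM.H764 (EE)
open Vale.Agent.P159.H963 (Pin)
open Vale.Agent.P159.H963.Core (RF nS)
open Vale.Agent.P159.H883 (nuM Psi BW Zp PT)
open Vale.Agent.P159.H708 (Bx wd)
open Vale.Agent.P159.H770 (wTD Ed)
open Vale.Agent.P159.H773 (sd ax0 nuF PsF cMn wdF cMn_pos Gcut sd_ge sd_pow)
open Vale.Agent.P159.H191 (Wts plp mn dcs)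
open Vale.Agent.P159.H817 (eD Dec Idl SysI RefB HasId GB ChI eB CG edec dec cfg rh LPg gr eF bD sz U
  eb gr_eq gr_add gr_sub gr_neg gr_smul U_one U_zero U_nonneg U_le_one U_GB sz_add_le sz_sub_comm
  sz_zero sz_step sz_neg nrm Far e5 RealT PT_plat nrm_local)

noncomputable section

/-! ### the smeared plateau -/

section one

variable {N : ℕ} [NeZero N]

/-- **the smeared plateau** -/
def plC (P W : ℕ) (w c : V N → ℝ) (q x : V N) : ℝ := ∑ v, w v * (c v * U P W (x - v - q))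

/-- 191's plateau -/
lemma plp_plC (P W : ℕ) (μ w : V N → ℝ) (p q : V N) (H : V N → ℝ) (x : V N) :
    plp (U P W) μ w p q H x = plC P W w (fun v => mn μ (q + v) H - mn μ (p + v) H) q x := rfl

variable {w c : V N → ℝ} {s P W m : ℕ} {p q : V N} {Mc : ℝ}

/-- constant near the centre -/
lemma plC_one (hw : Wts w s) (hW : 0 < W) {x : V N} (hx : sz (x - q) + s ≤ P) :
    plC P W w c q x = ∑ v, w v * c v := by
  unfold plC
  refine Finset.sum_congr rfl fun v _ => ?_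
  by_cases h : w v = 0
  · rw [h, zero_mul, zero_mul]
  · have h1 := hw.sup v h
    have h2 := sz_add_le (x - q) (-v)
    rw [sz_neg] at h2
    have e : x - q + -v = x - v - q := by ring
    rw [e] at h2
    rw [U_one hW (by omega), mul_one]

/-- zero far away -/
lemma plC_zero (hw : Wts w s) {x : V N} (hx : P + W + s ≤ sz (x - q)) :
    plC P W w c q x = 0 := by
  unfold plC
  refine Finset.sum_eq_zero fun v _ => ?_
  by_cases h : w v = 0
  · rw [h, zero_mul]
  · have h1 := hw.sup v h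
    have h2 := sz_add_le (x - v - q) v
    have e : x - v - q + v = x - q := by ring
    rw [e] at h2
    rw [U_zero (by omega), mul_zero, mul_zero]

/-- the size -/
lemma abs_plC (hw : Wts w s) (hM : ∑ v, w v * |c v| ≤ Mc) (x : V N) : |plC P W w c q x| ≤ Mc := by
  refine le_trans ?_ hM
  refine (Finset.abs_sum_le_sum_abs _ _).trans (Finset.sum_le_sum fun v _ => ?_)
  rw [abs_mul, abs_of_nonneg (hw.nn v), abs_mul]
  refine mul_le_mul_of_nonneg_left ?_ (hw.nn v)
  refine mul_le_of_le_one_right (abs_nonneg _) ?_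
  rw [abs_of_nonneg (U_nonneg _ _ _)]
  exact U_le_one _ _ _

/-- the slope -/
lemma plC_GB (hw : Wts w s) (hW : 0 < W) (hM : ∑ v, w v * |c v| ≤ Mc) :
    GB (Mc / W) (plC P W w c q) := by
  rintro ⟨x, b⟩
  have hW' : (0 : ℝ) < W := by exact_mod_cast hW
  rw [gr_eq]
  unfold plC
  rw [← Finset.sum_sub_distrib]
  have h1 : ∀ v, |w v * (c v * U P W (x + eb b - v - q)) - w v * (c v * U P W (x - v - q))| ≤
      w v * |c v| * (1 / W) := by
    intro v
    have h2 := U_GB (N := N) P hW (x - v - q, b)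
    rw [gr_eq] at h2
    have e1 : x - v - q + eb b = x + eb b - v - q := by ring
    rw [e1] at h2
    rw [← mul_sub, ← mul_sub, abs_mul, abs_mul, abs_of_nonneg (hw.nn v), mul_assoc]
    exact mul_le_mul_of_nonneg_left (mul_le_mul_of_nonneg_left h2 (abs_nonneg _)) (hw.nn v)
  refine (Finset.abs_sum_le_sum_abs _ _).trans ((Finset.sum_le_sum fun v _ => h1 v).trans ?_)
  rw [← Finset.sum_mul, mul_one_div]
  exact div_le_div_of_nonneg_right hM hW'.le

lemma Mc_nonneg (hw : Wts w s) (hM : ∑ v, w v * |c v| ≤ Mc) : 0 ≤ Mc :=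
  (Finset.sum_nonneg fun v _ => mul_nonneg (hw.nn v) (abs_nonneg _)).trans hM

/-- the energy -/
lemma plC_nrm (hw : Wts w s) (hW : 0 < W) (hM : ∑ v, w v * |c v| ≤ Mc)
    (hP : P + W + s ≤ 40 * W) : nrm (gr (plC P W w c q)) ≤ 14112 * Mc ^ 2 := by
  have hW' : (0 : ℝ) < W := by exact_mod_cast hW
  have h1 : GB (2 * Mc / ((2 * W : ℕ) : ℝ)) (plC P W w c q) := by
    have e : 2 * Mc / ((2 * W : ℕ) : ℝ) = Mc / W := by
      push_cast
      field_simp
    rw [e]
    exact plC_GB hw hW hM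
  have h2 := nrm_local (w := q) (l := 2 * W) (by omega) h1
    (fun x hx => plC_zero hw (by omega))
  refine h2.trans (le_of_eq ?_)
  ring

/-- the gradient vanishes near the centre -/
lemma gr_plC_one (hw : Wts w s) (hW : 0 < W) (hP : m + 1 + s ≤ P) {e : V N × Bool}
    (he : sz (e.1 - q) ≤ m) : gr (plC P W w c q) e = 0 := by
  obtain ⟨x, b⟩ := e
  have h1 := (sz_step (x - q) b).2
  simp only at he
  rw [gr_eq, plC_one hw hW (by rw [add_sub_right_comm]; omega), plC_one hw hW (by omega), sub_self]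

/-- the gradient vanishes far away -/
lemma gr_plC_zero (hw : Wts w s) (hpq : P + W + s + m + 1 ≤ sz (q - p))
    {e : V N × Bool} (he : sz (e.1 - p) ≤ m) : gr (plC P W w c q) e = 0 := by
  obtain ⟨x, b⟩ := e
  simp only at he
  have h1 := sz_add_le (q - x) (x - p)
  rw [sub_add_sub_cancel, sz_sub_comm q x] at h1
  have h2 := (sz_step (x - q) b).1
  rw [gr_eq, plC_zero hw (by rw [add_sub_right_comm]; omega), plC_zero hw (by omega), sub_self]

/-- the pair stays ideal -/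
lemma plC_idl {b0 : ℤ → ℤ → Bool → ℝ} (hw : Wts w s) (hW : 0 < W) (hP : m + 1 + s ≤ P)
    (hpq : P + W + s + m + 1 ≤ sz (q - p)) {g : V N → ℝ} (hI : Idl b0 m p q g) :
    Idl b0 m p q (fun x => plC P W w c q x + g x) := by
  constructor
  · intro e he
    rw [gr_add, gr_plC_zero hw hpq he, zero_add]
    exact hI.at0 e he
  · intro e he
    rw [gr_add, gr_plC_one hw hW hP he, zero_add]
    exact hI.at1 e he

lemma nrm_add_le (f g : V N → ℝ) :
    nrm (gr fun x => f x + g x) ≤ 2 * nrm (gr f) + 2 * nrm (gr g) := by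
  unfold nrm
  rw [Finset.mul_sum, Finset.mul_sum, ← Finset.sum_add_distrib]
  refine Finset.sum_le_sum fun e _ => ?_
  rw [gr_add]
  nlinarith [sq_nonneg (gr f e - gr g e)]

end one

/-! ### the step -/

section

variable {i : ℕ} {b t a ηf : ℝ} {n l r s P W R : ℕ} {Λ ε₂ ε₃ : ℝ} {D0 D1 : Dec}
  {b0 : ℤ → ℤ → Bool → ℝ} {r1 r2 B1 S1 Bg Gg Mc G : ℝ}
variable {η : ∀ R, Ed (sd i R) → ℤ} {φ : ∀ R, V (sd i R) → ℝ}

/-- **the inputs of the plateau step** at the pair `R`: the system on the torus `sd i R` with the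
lengths `l ≤ W`, the ideal correction `g`, and the non-quadratic part of smooth fields of energy `G` -/
structure PlI (i : ℕ) (b t a ηf : ℝ) (n l r s P W R : ℕ) (Λ ε₂ ε₃ : ℝ) (D0 D1 : Dec)
    (b0 : ℤ → ℤ → Bool → ℝ) (r1 r2 B1 S1 Bg Gg Mc G : ℝ) (g : V (sd i R) → ℝ) : Prop where
  sys : SysI (sd i R) l r Λ ε₂ ε₃ D0 D1 (rh (sd i R) b t a n)
  rb : RefB b0 (20 * l)
  tor : RealT (sd i R) b t a ηf D0 D1 r1 B1
  rR : r ≤ 2 * R
  Rr : R ≤ 4 * r
  lW : l ≤ W
  lP : 20 * l + 1 + s ≤ P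
  PW : P + W + s ≤ 40 * W
  PR : P + W + s + 20 * l + 1 ≤ R
  M0 : 0 ≤ Mc
  S0 : 0 ≤ S1
  big : 1000000 * (1 + CG + (Mc + S1) + (Mc + Bg)) ≤ Λ
  gb : GB (S1 / l) g
  gB : ∀ x, |g x| ≤ Bg
  gI : Idl b0 (20 * l) (0 : V (sd i R)) (R • H817.e1) (fun x => -g x)
  gG : nrm (gr g) ≤ Gg
  hG : 28224 * Mc ^ 2 + 2 * Gg ≤ G
  rf : ∀ X : V (sd i R) → ℝ, nrm (gr X) ≤ G → RF (sd i R) b t ((3 : ℝ) • X) ≤ r2

/-- **THE PLATEAU STEP**: a smeared plateau of average height `≤ Mc` changes `log Ψ_R` at a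
decorated ideal pair by at most `5 eB + 2 e5` -/
theorem plat_R (hb : 0 < b) (ht : 0 < t) (ha : 0 < a) (hη : 0 ≤ ηf) (hn : 1 ≤ n)
    (hφ : bD (0 : V (sd i R)) (R • H817.e1) = eF (η R) (φ R)) {g : V (sd i R) → ℝ}
    (H : PlI i b t a ηf n l r s P W R Λ ε₂ ε₃ D0 D1 b0 r1 r2 B1 S1 Bg Gg Mc G g)
    {F0 F1 : ℤ → ℤ → ℝ} (h0 : F0 ∈ D0) (h1 : F1 ∈ D1) {w c : V (sd i R) → ℝ} (hw : Wts w s)
    (hM : ∑ v, w v * |c v| ≤ Mc) :
    |Real.log (PsF b (sd i) (fun R => wTD (sd i R) b (η R)) φ t R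
        (fun x => edec F0 F1 0 (R • H817.e1) x + plC P W w c (R • H817.e1) x - g x)) -
      Real.log (PsF b (sd i) (fun R => wTD (sd i R) b (η R)) φ t R
        (fun x => edec F0 F1 0 (R • H817.e1) x - g x))| ≤
      5 * eB (sd i R) l ε₂ ε₃ + 2 * e5 a t ηf b B1 G r1 r2 n := by
  have hl4 := H.sys.hl
  have hl0 : 0 < l := by omega
  have hl' : (0 : ℝ) < l := by exact_mod_cast hl0
  have hW0 : 0 < W := lt_of_lt_of_le hl0 H.lW
  have hW' : (0 : ℝ) < W := by exact_mod_cast hW0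
  have hlW : (l : ℝ) ≤ W := by exact_mod_cast H.lW
  have hM0 := H.M0
  have hS0 := H.S0
  have hrN := H.sys.hrN
  have hszR : sz (R • (H817.e1 : V (sd i R))) = R :=
    H817.sz_ne1 (by have := H.Rr; omega)
  have hfar : Far r (0 : V (sd i R)) (R • H817.e1) := by
    unfold Far
    rw [sub_zero, hszR]
    exact ⟨H.rR, H.Rr⟩
  have hpq : P + W + s + 20 * l + 1 ≤ sz (R • (H817.e1 : V (sd i R)) - 0) := by
    rw [sub_zero, hszR]
    exact H.PR
  set u : V (sd i R) → ℝ := plC P W w c (R • H817.e1) with hu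
  have uGB : GB (Mc / l) u := (plC_GB hw hW0 hM).mono
    (div_le_div_of_nonneg_left hM0 hl' hlW)
  have gGB : GB ((Mc + S1) / l) (fun x => -g x) := H.gb.neg.mono
    (div_le_div_of_nonneg_right (by linarith) hl'.le)
  have ugGB : GB ((Mc + S1) / l) (fun x => u x + -g x) := by
    have := uGB.add H.gb.neg
    rwa [← add_div] at this
  have gB' : ∀ x, |(-g x)| ≤ Mc + Bg := fun x => by
    rw [abs_neg]
    have := H.gB x
    linarith
  have ugB : ∀ x, |u x + -g x| ≤ Mc + Bg := fun x => by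
    refine (abs_add_le _ _).trans (add_le_add (abs_plC hw hM x) ?_)
    rw [abs_neg]
    exact H.gB x
  have ugI : Idl b0 (20 * l) (0 : V (sd i R)) (R • H817.e1) (fun x => u x + -g x) :=
    plC_idl hw hW0 H.lP hpq H.gI
  have gN : nrm (gr fun x => -g x) ≤ G := by
    rw [H817.nrm_neg]
    have h2 : 0 ≤ nrm (gr g) := Finset.sum_nonneg fun e _ => sq_nonneg _
    have h3 := H.gG
    have h4 := H.hG
    nlinarith [sq_nonneg Mc]
  have ugN : nrm (gr fun x => u x + -g x) ≤ G := by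
    refine (nrm_add_le u _).trans ?_
    rw [H817.nrm_neg]
    have h2 := plC_nrm (q := R • (H817.e1 : V (sd i R))) (c := c) hw hW0 hM H.PW
    have h3 := H.gG
    have h4 := H.hG
    linarith
  have key := PT_plat (F0 := F0) (F1 := F1) (g := fun x => -g x) (g' := fun x => u x + -g x)
    (S := Mc + S1) (B := Mc + Bg) (r2 := r2) (G := G)
    hφ hb ht ha hη hn H.sys H.rb H.tor.hP h0 h1 hfar (by linarith) H.big gGB gB' H.gI ugGB ugB ugI
    (H.tor.R3 F0 (Or.inl h0)) (H.tor.R3 F1 (Or.inr h1)) (H.tor.nS F0 (Or.inl h0))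
    (H.tor.nS F1 (Or.inr h1)) (H.rf _ gN) (H.rf _ ugN) gN ugN
  rw [PsF_PT, PsF_PT]
  have e1 : (fun x => edec F0 F1 0 (R • H817.e1) x + (u x + -g x)) =
      fun x => edec F0 F1 0 (R • H817.e1) x + u x - g x := by
    funext x
    ring
  have e2 : (fun x => edec F0 F1 0 (R • H817.e1) x + -g x) =
      fun x => edec F0 F1 0 (R • H817.e1) x - g x := by
    funext x
    ring
  rw [e1, e2] at key
  exact key

/-- **(D)(c)**: the hypothesis `plat` of `loc_G`, with 191's plateau at the end of the path -/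
theorem plat_G (hb : 0 < b) (ht : 0 < t) (ha : 0 < a) (hη : 0 ≤ ηf) (hn : 1 ≤ n)
    (hφ : bD (0 : V (sd i R)) (R • H817.e1) = eF (η R) (φ R)) {gs : ∀ R, V (sd i R) → ℝ}
    (H : PlI i b t a ηf n l r s P W R Λ ε₂ ε₃ D0 D1 b0 r1 r2 B1 S1 Bg Gg Mc G (gs R)) {D : ℕ}
    {T0 T1 : (Bx D ⊕ Bx D → ℝ) → ℤ → ℤ → ℝ} {lc : ℕ} {μ w : V (sd i R) → ℝ} (hw : Wts w s)
    {F X : V (sd i R) → ℝ} (h0 : T0 (wdS (sd i) D R (gs R) F) ∈ D0)
    (h1 : T1 (wdS (sd i) D R (gs R) F) ∈ D1)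
    (hdec : ∀ x, dcs lc μ w 0 (R • H817.e1) X x =
      edec (T0 (wdS (sd i) D R (gs R) F)) (T1 (wdS (sd i) D R (gs R) F)) 0 (R • H817.e1) x)
    (hM : ∑ v, w v * |mn μ (R • H817.e1 + v) X - mn μ (0 + v) X| ≤ Mc) :
    |Real.log (PsF b (sd i) (fun R => wTD (sd i R) b (η R)) φ t R
        (fun x => dcs lc μ w 0 (R • H817.e1) X x +
          plp (U P W) μ w 0 (R • H817.e1) X x - gs R x)) -
      Real.log (PsF b (sd i) (fun R => wTD (sd i R) b (η R)) φ t R
        (dcF i D T0 T1 R (gs R) (wdS (sd i) D R (gs R) F)))| ≤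
      5 * eB (sd i R) l ε₂ ε₃ + 2 * e5 a t ηf b B1 G r1 r2 n := by
  have key := plat_R (η := η) (φ := φ) hb ht ha hη hn hφ H h0 h1 hw hM
  have e1 : (fun x => dcs lc μ w 0 (R • H817.e1) X x +
      plp (U P W) μ w 0 (R • H817.e1) X x - gs R x) =
      fun x => edec (T0 (wdS (sd i) D R (gs R) F)) (T1 (wdS (sd i) D R (gs R) F)) 0
        (R • H817.e1) x + plC P W w (fun v => mn μ (R • H817.e1 + v) X - mn μ (0 + v) X)
        (R • H817.e1) x - gs R x := by
    funext x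
    rw [hdec x, plp_plC]
  rw [e1]
  exact key

end

end

end Vale.Agent.P159.H686
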