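import Vale.Agent.P159.H686.Loc3
import Vale.Agent.P159.H770.Sti4
import Vale.Agent.P159.H145.Spc1
import Vale.Agent.P159.H446.Pr5

/-!
P159 / H686, module PLA1: **the plateau statement `PlaP` (helper145, `Spc0`) along the flow**: numbers of
the step `plat_G` and the statement at every pair of the window, from the outputs of the modules at the
pair (real smooth fields, locality, class of the decorations) and from the event of the heights.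
-/

set_option linter.all false

namespace Vale.Agent.P159.H686.Pla

open Finset Filter Topology MeasureTheory
open Vale.Agent.P159.TM.Spec (V)
open Vale.Agent.P159.H817
open Vale.Agent.P159.H963.Core (RF nS kap1 kap1_nonneg)
open Vale.Agent.P159.H972 (lg tn Par Good)
open Vale.Agent.P159.H859.Idl
open Vale.Agent.P159.H770 (Ed)
open Vale.Agent.P159.H770.Sti
open Vale.Agent.P159.H773 (sd sd_pow sd_ne sd_ge nuF)
open Vale.Agent.P159.H708 (Bx)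
open Vale.Agent.P159.H191 (Wts mn)
open Vale.Agent.P159.H801 (SFlow)
open Vale.Agent.P159.H37.Sf (kf)
open Vale.Agent.P159.H145.Sp (AxP PlaP MemP BridgeP HF dcR plR lR gC b0C wB)

noncomputable section

/-! ### the number of the step -/

lemma e5_le' {b a η B1 G r1 r2 : ℝ} {n : ℕ} (hb : 0 < b) (ha : 1 ≤ a) (ha2 : a ≤ 2) (hη : 0 < η)
    (hη1 : 2 * η ≤ 1) (hG : 0 ≤ G) :
    e5 a (tn n) (2 * η) b B1 G r1 r2 (dg n (2 * η)) ≤
      2 * η * (5 + b) * √(6 * B1 * G) + 6 * η * G + (2 * r1 + r2) / 3 := by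
  have h1 := kap0_le (n := n) ha ha2 (η := 2 * η) (by linarith) hη1
  have h2 := dg_Db (n := n) ha ha2 (η := 2 * η) (by linarith) hη1
  have h3 : kap1 (1 / b) a (tn n) (2 * η) (dg n (2 * η)) ≤ 2 * η * (5 + b) := by
    have h4 : 2 * a / Db (dg n (2 * η)) (tn n / a) ≤ 4 * (2 * η) := by
      have h5 : 0 < 1 / (2 * η) := by positivity
      rw [div_le_iff₀ (h5.trans_le h2)]
      have h6 := mul_le_mul_of_nonneg_left h2 (show 0 ≤ 4 * (2 * η) by positivity)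
      have h7 : 4 * (2 * η) * (1 / (2 * η)) = 4 := by field_simp
      linarith
    have h8 : 1 / (1 / b) = b := one_div_one_div b
    unfold kap1
    rw [h8]
    linarith
  have h4 : kap1 (1 / b) a (tn n) (2 * η) (dg n (2 * η)) * √(6 * B1 * G) ≤
      2 * η * (5 + b) * √(6 * B1 * G) := mul_le_mul_of_nonneg_right h3 (Real.sqrt_nonneg _)
  have h5 : kap0 a (tn n) (2 * η) (dg n (2 * η)) * G / 2 ≤ 6 * η * G := by nlinarith
  unfold e5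
  linarith

/-- the number of the plateau step, inputs of class and locality -/
theorem pla_num1 {sη p cL u c4 : ℝ}
    (h1 : 1 + c4 + 2 * p < sη - 2 * cL) (h2 : 1 + c4 + 2 * p < u) (i : ℕ) :
    ∃ Y0 : ℝ, 0 < Y0 ∧ Y0 ≤ 1 ∧
      ∀ (n k0 K1 w R : ℕ) (b a η y Λ εR ε₃ : ℝ), Lvn i n k0 K1 w b a η y sη p → y ≤ Y0 →
      0 ≤ Λ → Λ ≤ y ^ (-cL) → 0 ≤ εR → εR ≤ y ^ u → 0 ≤ ε₃ → ε₃ ≤ y ^ u →
      2 ^ k0 ≤ R → R ≤ 2 ^ K1 →
      5 * eB (sd i R) (2 ^ lK n (Nat.log 2 R)) (3528 * (12 * η) * Λ ^ 2 + εR) ε₃ ≤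
        y ^ (1 + c4) / 32 := by
  set s := min (sη - 2 * cL) u with hs
  have hs1 : s ≤ sη - 2 * cL := min_le_left _ _
  have hs2 : s ≤ u := min_le_right _ _
  have hs3 : 1 + c4 + 2 * p < s := lt_min h1 h2
  obtain ⟨Y1, q1, q2, hE⟩ := sum_E i (p := p) (s := s) (v := (1 + c4 + (s - 2 * p)) / 2)
    (C := 3 * (3528 * (12 * 17)) + 4) (D := 2) (by norm_num) (by norm_num) (by linarith)
  obtain ⟨Y2, q3, q4, hY⟩ := pow_div (s := (1 + c4 + (s - 2 * p)) / 2) (v := 1 + c4) (K := 32)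
    (by norm_num) (by linarith)
  refine ⟨min Y1 Y2, lt_min q1 q3, (min_le_left _ _).trans q2, ?_⟩
  intro n k0 K1 w R b a η y Λ εR ε₃ L hy0 hΛp hΛ hR0 hR h30 h3' hRa hRb
  have hyY1 : y ≤ Y1 := hy0.trans (min_le_left _ _)
  have hyY2 : y ≤ Y2 := hy0.trans (min_le_right _ _)
  have hy := L.hy0
  have hy1 := L.hy1
  have hη0 := L.hη0
  obtain ⟨g1, g2, g3⟩ := log_mem hRa hRb
  have hps : ∀ z, s ≤ z → y ^ z ≤ y ^ s := fun z hz =>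
    Real.rpow_le_rpow_of_exponent_ge hy hy1 hz
  set ε₂ : ℝ := 3528 * (12 * η) * Λ ^ 2 + εR with hε₂
  have hε₂0 : 0 ≤ ε₂ := by positivity
  set x : ℝ := 3 * ε₂ + ε₃ with hx
  have hx0 : 0 ≤ x := by positivity
  have hxs : x ≤ (3 * (3528 * (12 * 17)) + 4) * y ^ s := by
    have a1 : Λ ^ 2 ≤ y ^ (-(2 * cL)) := by
      have a2 : Λ ^ 2 ≤ (y ^ (-cL)) ^ 2 := pow_le_pow_left₀ hΛp hΛ 2
      have a3 : (y ^ (-cL)) ^ 2 = y ^ (-(2 * cL)) := by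
        rw [← Real.rpow_natCast (y ^ (-cL)) 2, ← Real.rpow_mul hy.le]
        congr 1
        push_cast
        ring
      rwa [a3] at a2
    have a4 : η * Λ ^ 2 ≤ 17 * y ^ s := by
      calc η * Λ ^ 2 ≤ (17 * y ^ sη) * y ^ (-(2 * cL)) :=
            mul_le_mul L.hη a1 (by positivity) (by positivity)
        _ = 17 * y ^ (sη - 2 * cL) := by
            rw [mul_assoc, ← Real.rpow_add hy]
            congr 2
        _ ≤ 17 * y ^ s := mul_le_mul_of_nonneg_left (hps _ hs1) (by norm_num)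
    have a5 := hps u hs2
    rw [hx, hε₂]
    linarith
  have hLw := L.hw
  have hLn := L.hn
  have hk60 := (L.nm _ g1 g2 0 (Nat.zero_le _)).hk
  have hw1 : 1 ≤ w := by omega
  have hw1' : (1 : ℝ) ≤ w := by exact_mod_cast hw1
  have hsd : sd i R ≤ sd i (2 ^ (Nat.log 2 R + 1)) := by
    unfold sd
    refine Nat.mul_le_mul_left _ (Nat.pow_le_pow_right (by norm_num) ?_)
    rw [Nat.clog_pow 2 _ (by norm_num)]
    exact (Nat.clog_le_iff_le_pow (by norm_num)).2 (Nat.lt_pow_succ_log_self (by norm_num) R).le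
  have b1 : eB (sd i R) (2 ^ lK n (Nat.log 2 R)) ε₂ ε₃ ≤
      eB (sd i (2 ^ (Nat.log 2 R + 1))) (2 ^ lK n (Nat.log 2 R)) ε₂ ε₃ := eB_le' hsd hx0
  have b2 := eB_val (n := n) (k := Nat.log 2 R) (w := w) i hx0 (by omega) (by omega)
  have b3 := hE y hy hyY1 w L.w1 L.w2 x hx0 hxs
  have b4 := hY y hy hyY2
  have hEE : 0 ≤ 500000 * (8 * (2 ^ (i + 1) * 2 ^ w) ^ 2 * x) := by positivity
  have b5 : 500000 * (8 * (2 ^ (i + 1) * 2 ^ w) ^ 2 * x) ≤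
      (4 * (w : ℝ)) * (500000 * (8 * (2 ^ (i + 1) * 2 ^ w) ^ 2 * x)) := by
    nlinarith
  have b6 : 0 ≤ eB (sd i R) (2 ^ lK n (Nat.log 2 R)) ε₂ ε₃ := by
    unfold eB
    positivity
  linarith

/-- the number of the plateau step, quadratic inputs -/
theorem pla_num2 {sη p cL cB u c4 b2 : ℝ} (hb2 : 0 ≤ b2) (hcL : 0 ≤ cL)
    (h1 : 1 + c4 < sη - 2 * cL) (h2 : 1 + c4 < u)
    (h3 : 1 + c4 < sη - cB / 2 - cL) :
    ∃ Y0 : ℝ, 0 < Y0 ∧ Y0 ≤ 1 ∧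
      ∀ (i n k0 K1 w : ℕ) (b a η y B1 Mc r1 r2 : ℝ),
      0 < b → b ≤ b2 → Lvn i n k0 K1 w b a η y sη p → y ≤ Y0 → 0 ≤ B1 → B1 ≤ y ^ (-cB) →
      0 ≤ Mc → Mc ≤ y ^ (-cL) → r1 ≤ y ^ u → r2 ≤ y ^ u →
      2 * e5 a (tn n) (2 * η) b B1 (28224 * Mc ^ 2 + 8 * s0 ^ 2) r1 r2 (dg n (2 * η)) ≤
      y ^ (1 + c4) / 32 := by
  set s' := min (min (sη - cB / 2 - cL) (sη - 2 * cL)) u with hs'
  have t1 : s' ≤ sη - cB / 2 - cL := (min_le_left _ _).trans (min_le_left _ _)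
  have t2 : s' ≤ sη - 2 * cL := (min_le_left _ _).trans (min_le_right _ _)
  have t3 : s' ≤ u := min_le_right _ _
  have t4 : 1 + c4 < s' := lt_min (lt_min h3 h1) h2
  have hs0 := s0_pos
  set W : ℝ := 168 + 3 * s0 with hW
  have hW0 : 0 < W := by positivity
  set C : ℝ := 2 * (102 * (5 + b2) * W + 102 * W ^ 2 + 1) with hC
  have hC0 : 0 < C := by positivity
  obtain ⟨Y3, q5, q6, hY3⟩ := pow_div (s := s') (v := 1 + c4) (K := 32 * C) (by positivity) t4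
  refine ⟨Y3, q5, q6, ?_⟩
  intro i n k0 K1 w b a η y B1 Mc r1 r2 hb hbb L hyY3 hB0 hB hM0 hM hr1 hr2
  have hy := L.hy0
  have hy1 := L.hy1
  have hη0 := L.hη0
  have hps' : ∀ z, s' ≤ z → y ^ z ≤ y ^ s' := fun z hz =>
    Real.rpow_le_rpow_of_exponent_ge hy hy1 hz
  set G : ℝ := 28224 * Mc ^ 2 + 8 * s0 ^ 2 with hG
  have hG0 : 0 ≤ G := by positivity
  have k3 := e5_le' (n := n) (r1 := r1) (r2 := r2) (B1 := B1) (G := G) hb L.ha L.ha2 hη0 L.hη1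
    hG0
  have hX1 : 1 ≤ y ^ (-cL) := Real.one_le_rpow_of_pos_of_le_one_of_nonpos hy hy1 (by linarith)
  have hX0 : 0 < y ^ (-cL) := Real.rpow_pos_of_pos hy _
  obtain ⟨X, hX⟩ : ∃ X, X = y ^ (-cL) := ⟨_, rfl⟩
  -- `168 Mc + 3 s0 ≤ W y^(-cL)`
  have m1 : 168 * Mc + 3 * s0 ≤ W * y ^ (-cL) := by
    rw [hW, ← hX]
    rw [← hX] at hM hX1
    nlinarith
  have m0 : 0 ≤ 168 * Mc + 3 * s0 := by positivity
  have m2 : G ≤ (168 * Mc + 3 * s0) ^ 2 := by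
    have : 0 ≤ Mc * s0 := by positivity
    rw [hG]
    nlinarith
  have m2' : G ≤ (W * y ^ (-cL)) ^ 2 := m2.trans (pow_le_pow_left₀ m0 m1 2)
  have m3 : G ≤ W ^ 2 * y ^ (-(2 * cL)) := by
    have a3 : (y ^ (-cL)) ^ 2 = y ^ (-(2 * cL)) := by
      rw [← Real.rpow_natCast (y ^ (-cL)) 2, ← Real.rpow_mul hy.le]
      congr 1
      push_cast
      ring
    rw [← a3, ← mul_pow]
    exact m2'
  have k4 : √B1 ≤ y ^ (-(cB / 2)) := by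
    have : y ^ (-(cB / 2)) = √(y ^ (-cB)) := by
      rw [Real.sqrt_eq_rpow, ← Real.rpow_mul hy.le]
      congr 1
      ring
    rw [this]
    exact Real.sqrt_le_sqrt hB
  have m4 : √(6 * B1 * G) ≤ 3 * √B1 * (W * y ^ (-cL)) := by
    refine Real.sqrt_le_iff.2 ⟨by positivity, ?_⟩
    have h11 : (3 * √B1 * (W * y ^ (-cL))) ^ 2 = 9 * B1 * (W * y ^ (-cL)) ^ 2 := by
      rw [mul_pow, mul_pow, Real.sq_sqrt hB0]
      ring
    rw [h11]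
    have h13 := mul_le_mul_of_nonneg_left m2' hB0
    have h14 : 0 ≤ B1 * (W * y ^ (-cL)) ^ 2 := by positivity
    linarith
  have m5 : η * √(6 * B1 * G) ≤ 51 * W * y ^ s' := by
    calc η * √(6 * B1 * G)
        ≤ (17 * y ^ sη) * (3 * y ^ (-(cB / 2)) * (W * y ^ (-cL))) := by
          refine mul_le_mul L.hη (m4.trans ?_) (Real.sqrt_nonneg _) (by positivity)
          refine mul_le_mul_of_nonneg_right ?_ (by positivity)
          linarith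
      _ = 51 * W * y ^ (sη - cB / 2 - cL) := by
          have e : sη - cB / 2 - cL = sη + (-(cB / 2)) + -cL := by ring
          rw [e, Real.rpow_add hy, Real.rpow_add hy]
          ring
      _ ≤ 51 * W * y ^ s' := mul_le_mul_of_nonneg_left (hps' _ t1) (by positivity)
  have m6 : η * G ≤ 17 * W ^ 2 * y ^ s' := by
    calc η * G ≤ (17 * y ^ sη) * (W ^ 2 * y ^ (-(2 * cL))) :=
          mul_le_mul L.hη m3 (by positivity) (by positivity)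
      _ = 17 * W ^ 2 * y ^ (sη - 2 * cL) := by
          have e : sη - 2 * cL = sη + -(2 * cL) := by ring
          rw [e, Real.rpow_add hy]
          ring
      _ ≤ 17 * W ^ 2 * y ^ s' := mul_le_mul_of_nonneg_left (hps' _ t2) (by positivity)
  have m7 := hps' u t3
  have m8 := hY3 y hy hyY3
  have m9 : C * y ^ s' ≤ y ^ (1 + c4) / 32 := by
    have h20 := mul_le_mul_of_nonneg_left m8 hC0.le
    refine h20.trans (le_of_eq ?_)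
    field_simp
  have hys : 0 < y ^ s' := Real.rpow_pos_of_pos hy _
  have m10 : 2 * η * (5 + b) * √(6 * B1 * G) ≤ 102 * (5 + b2) * W * y ^ s' := by
    calc 2 * η * (5 + b) * √(6 * B1 * G) = 2 * (5 + b) * (η * √(6 * B1 * G)) := by ring
      _ ≤ 2 * (5 + b2) * (51 * W * y ^ s') := by
          refine mul_le_mul (by linarith) m5 ?_ (by linarith)
          exact mul_nonneg hη0.le (Real.sqrt_nonneg _)
      _ = _ := by ring
  refine le_trans ?_ m9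
  rw [hC]
  linarith

/-- **the number of the plateau step** -/
theorem pla_num {sη p cL cB u c4 b2 : ℝ} (hb2 : 0 ≤ b2) (hcL : 0 ≤ cL)
    (h1 : 1 + c4 + 2 * p < sη - 2 * cL) (h2 : 1 + c4 + 2 * p < u) (hp : 0 ≤ p)
    (h3 : 1 + c4 < sη - cB / 2 - cL) (i : ℕ) :
    ∃ Y0 : ℝ, 0 < Y0 ∧ Y0 ≤ 1 ∧
      ∀ (n k0 K1 w R : ℕ) (b a η y Λ εR ε₃ B1 Mc r1 r2 : ℝ),
      0 < b → b ≤ b2 → Lvn i n k0 K1 w b a η y sη p → y ≤ Y0 → 0 ≤ Λ → Λ ≤ y ^ (-cL) →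
      0 ≤ εR → εR ≤ y ^ u → 0 ≤ ε₃ → ε₃ ≤ y ^ u → 0 ≤ B1 → B1 ≤ y ^ (-cB) →
      0 ≤ Mc → Mc ≤ y ^ (-cL) → r1 ≤ y ^ u → r2 ≤ y ^ u → 2 ^ k0 ≤ R → R ≤ 2 ^ K1 →
      5 * eB (sd i R) (2 ^ lK n (Nat.log 2 R)) (3528 * (12 * η) * Λ ^ 2 + εR) ε₃ +
        2 * e5 a (tn n) (2 * η) b B1 (28224 * Mc ^ 2 + 8 * s0 ^ 2) r1 r2 (dg n (2 * η)) ≤
      y ^ (1 + c4) / 16 := by
  obtain ⟨Y1, p1, p2, H1⟩ := pla_num1 (sη := sη) (p := p) (cL := cL) (u := u) (c4 := c4) h1 h2 i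
  obtain ⟨Y2, p3, p4, H2⟩ := pla_num2 (sη := sη) (p := p) (cL := cL) (cB := cB) (u := u)
    (c4 := c4) hb2 hcL (by linarith) (by linarith) h3
  refine ⟨min Y1 Y2, lt_min p1 p3, (min_le_left _ _).trans p2, ?_⟩
  intro n k0 K1 w R b a η y Λ εR ε₃ B1 Mc r1 r2 hb hbb L hy0 hΛp hΛ hR0 hR h30 h3' hB0 hB hM0 hM
    hr1 hr2 hRa hRb
  have k1 := H1 n k0 K1 w R b a η y Λ εR ε₃ L (hy0.trans (min_le_left _ _)) hΛp hΛ hR0 hR h30 h3'
    hRa hRb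
  have k2 := H2 i n k0 K1 w b a η y B1 Mc r1 r2 hb hbb L (hy0.trans (min_le_right _ _)) hB0 hB
    hM0 hM hr1 hr2
  linarith

/-! ### the statement at a pair -/

section pair

variable {b : ℝ} {i : ℕ} {η : ∀ R, Ed (sd i R) → ℤ} {φ : ∀ R, V (sd i R) → ℝ}

lemma PlaP.mono {t : ℝ} {n k q R : ℕ} {μ g : V (sd i R) → ℝ} {p p' s s' : ℝ}
    (h : PlaP b i η φ t n k q R μ g p s) (hp : p ≤ p') (hs : s ≤ s') :
    PlaP b i η φ t n k q R μ g p' s' := by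
  obtain ⟨G, h1, h2, h3⟩ := h
  exact ⟨G, h1, h2.trans hp, fun F hF => (h3 F hF).trans hs⟩

lemma wts_wB {N ρ : ℕ} [NeZero N] (h : 2 * ρ + 1 ≤ N) : Wts (wB N ρ) ρ := by
  have e : wB N ρ = H446.Pr.wV N ρ := (H446.Pr.wV_eq h).symm
  rw [e]
  exact H446.Pr.wts_wV ρ

lemma sd_clog (i R : ℕ) : sd i R = sd i (2 ^ Nat.clog 2 R) := by
  unfold sd
  rw [Nat.clog_pow 2 _ (by norm_num)]

/-- **`PlaP` at a pair** from the outputs of the modules at this pair -/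
theorem plaP_of {a ηf y sη p Λ εR ε₃ r1 r2 B1 Mc p3 p4 s : ℝ} {n k q k0 K1 w l0 R D : ℕ}
    {D0 D1 : Dec} {U0 U1 : (Bx D ⊕ Bx D → ℝ) → ℤ → ℤ → ℝ} {μ : V (sd i R) → ℝ} (hb : 0 < b)
    (A : AxP i η φ) (L : Lvn i n k0 K1 w b a ηf y sη p) (hD : DecC l0 D0 D1)
    (hl0 : l0 ≤ 2 ^ lK n k0) (hRa : 2 ^ k0 ≤ R) (hRb : R ≤ 2 ^ K1) (hεR : 0 ≤ εR) (hM0 : 0 ≤ Mc)
    (hΛ : 1000000 * (1 + CG + (Mc + 37 * s0) + (Mc + 1)) ≤ Λ)
    (hRe : RealN (sd i R) (2 ^ lK n (Nat.log 2 R)) b (tn n) Λ εR)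
    (hLo : LocN (sd i R) (2 ^ lK n (Nat.log 2 R)) (2 ^ Nat.log 2 R) b (tn n) Λ ε₃ D0 D1)
    (hR3 : ∀ F, F ∈ D0 ∨ F ∈ D1 → RF (sd i R) b (tn n) ((3 : ℝ) • dec F 0) ≤ r1)
    (hnS : ∀ F, F ∈ D0 ∨ F ∈ D1 → nS a (tn n) (dec F (0 : V (sd i R))) ≤ B1)
    (hrf : ∀ X : V (sd i R) → ℝ, nrm (gr X) ≤ 28224 * Mc ^ 2 + 8 * s0 ^ 2 →
      RF (sd i R) b (tn n) ((3 : ℝ) • X) ≤ r2)
    (hBr : BridgeP U0 U1 i n k q R μ (gC i n K1 R))
    (hMem : MemP b i (tn n) U0 U1 R (gC i n K1 R) D0 D1 p4)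
    (hdM : ∃ G : Set (V (sd i R) → ℝ), MeasurableSet G ∧
      (nuF b (sd i) (tn n) R).real Gᶜ ≤ p3 ∧ ∀ F ∈ G,
        ∑ v, wB (sd i R) (2 ^ n) v * |mn μ (R • H817.e1 + v) (HF i q R (gC i n K1 R) F) -
          mn μ (0 + v) (HF i q R (gC i n K1 R) F)| ≤ Mc)
    (hs : 5 * eB (sd i R) (2 ^ lK n (Nat.log 2 R)) (3528 * (12 * ηf) * Λ ^ 2 + εR) ε₃ +
      2 * e5 a (tn n) (2 * ηf) b B1 (28224 * Mc ^ 2 + 8 * s0 ^ 2) r1 r2 (dg n (2 * ηf)) ≤ s) :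
    PlaP b i η φ (tn n) n k q R μ (gC i n K1 R) (p3 + p4) s := by
  have hpr : IsProbabilityMeasure (nuF b (sd i) (tn n) R) :=
    H883.prob_nuM (H963.gw_wT hb.le) (H883.bw_wT hb)
      (H883.mf_scalar (by unfold tn; positivity)) 0
  have ht : 0 < tn n := by unfold tn; positivity
  obtain ⟨G3, mG3, q3, h3⟩ := hdM
  obtain ⟨G4, mG4, q4, h4⟩ := hMem
  obtain ⟨g1, g2, g3⟩ := log_mem hRa hRb
  have hR1 : 1 ≤ R := (Nat.one_le_two_pow (n := k0)).trans hRa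
  have Hk := L.nm _ g1 g2 l0 hl0
  have hN64 : ∀ k, k0 ≤ k → k ≤ K1 → NmK i n (sd i (2 ^ K1)) (2 ^ K1) l0 ηf k :=
    fun k h1 h2 => L.nm k h1 h2 l0 hl0
  have hkey := gsF_spec hN64 hRa hRb
  obtain ⟨b1, b2, b3, b4⟩ := hkey
  have hlR := l_le_R hN64 hRa hRb
  have h64 : 64 * 2 ^ Nat.log 2 R ≤ sd i R := (Nat.mul_le_mul_left 64 g3).trans (sd64 Hk.i6)
  have hc1 : k0 ≤ Nat.clog 2 R := by
    have h5 : 2 ^ k0 ≤ 2 ^ Nat.clog 2 R := hRa.trans (Nat.le_pow_clog (by norm_num) R)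
    exact (Nat.pow_le_pow_iff_right (by norm_num)).1 h5
  have hc2 : Nat.clog 2 R ≤ K1 := (Nat.clog_le_iff_le_pow (by norm_num)).2 hRb
  have hF : H972.FL b (tn n) a ηf (sd i R) := FL_cast (sd_clog i R) (L.fl _ hc1 hc2)
  have hSys := sysI_of Hk hb L.ha L.ha2 L.hη0 L.hη1 h64 hD hF hRe hεR le_rfl hLo
  have h2n : 2 ^ n ≤ 2 ^ lK n (Nat.log 2 R) :=
    Nat.pow_le_pow_right (by norm_num) (by unfold lK; omega)
  have hl4 := Hk.l4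
  have hRlt : R < 2 * 2 ^ Nat.log 2 R := by
    have := Nat.lt_pow_succ_log_self (b := 2) (by norm_num) R
    rw [pow_succ] at this
    omega
  have hPl : PlI i b (tn n) a (2 * ηf) (dg n (2 * ηf)) (2 ^ lK n (Nat.log 2 R))
      (2 ^ Nat.log 2 R) (2 ^ n) (30 * 2 ^ lK n (Nat.log 2 R)) (2 ^ lK n (Nat.log 2 R)) R Λ
      (3528 * (12 * ηf) * Λ ^ 2 + εR) ε₃ D0 D1 (bC (sd i (2 ^ K1)) (2 ^ K1)) r1 r2 B1 (37 * s0) 1
      (4 * s0 ^ 2) Mc (28224 * Mc ^ 2 + 8 * s0 ^ 2) (gsF i n K1 R) := {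
    sys := hSys
    rb := by
      refine refB ?_ _
      have h3 := sd64 (R := 2 ^ K1) Hk.i6
      have h4 : 0 < 2 ^ K1 := by positivity
      omega
    tor := ⟨fun p hp => flat_of_FL ht L.hη0.le hF hp, hR3, hnS⟩
    rR := by omega
    Rr := by omega
    lW := le_rfl
    lP := by omega
    PW := by omega
    PR := by omega
    M0 := hM0
    S0 := by have := s0_pos; positivity
    big := hΛ
    gb := b1
    gB := b2
    gI := b3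
    gG := b4
    hG := by linarith
    rf := hrf }
  have hw : Wts (wB (sd i R) (2 ^ n)) (2 ^ n) := wts_wB (by
    have : 2 ^ n ≤ R := by omega
    omega)
  refine ⟨G3 ∩ G4, mG3.inter mG4, real_inter_compl q3 q4, fun F hF' => ?_⟩
  obtain ⟨m0, m1⟩ := h4 F hF'.2
  have key := plat_G (η := η) (φ := φ) (gs := gC i n K1) (D := D) (T0 := U0) (T1 := U1)
    (lc := H145.Sp.lC n k) (μ := μ) (F := F) (X := HF i q R (gC i n K1 R) F)
    hb ht (by linarith [L.ha]) (by linarith [L.hη0]) (dg_pos n _) (A.bd R hR1) hPl hw m0 m1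
    (fun x => (hBr F x).symm) (h3 F hF'.1)
  have e : dcF i D U0 U1 R (gC i n K1 R) (wdS (sd i) D R (gC i n K1 R) F) =
      dcR i n k R μ (HF i q R (gC i n K1 R) F) - gC i n K1 R := by
    funext x
    unfold dcF
    rw [hBr F x]
    rfl
  rw [e] at key
  exact key.trans hs

end pair

/-! ### along the flow -/

section flow

variable {P : Par} {b σ c c1 q2 qx : ℝ} {a y ε xs : ℕ → ℝ} {c' r q A : ℝ} {N : ℕ}

/-- **`PlaP` AT EVERY PAIR OF THE WINDOW, ALONG THE FLOW** -/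
theorem pla_flow (hb : 0 < b) (hA : P.Adm) (hσ0 : 0 ≤ σ) (hσ : σ ≤ 1 / 4)
    (h : SFlow P b σ c c1 q2 qx a y ε xs c' r q A N) {ck : ℝ} (hck : 0 < ck)
    (hck1 : ck ≤ P.thp) (hth : 2 * P.th ≤ ck) {cL cB u c4 : ℝ} (hcL : 0 ≤ cL)
    (h1 : 1 + c4 + 4 * P.thp < (2 - 3 * σ) * P.pf - 2 * cL) (h2 : 1 + c4 + 4 * P.thp < u)
    (h3 : 1 + c4 < (2 - 3 * σ) * P.pf - cB / 2 - cL) (i : ℕ) (hi : 6 ≤ i) :
    ∀ᶠ n in atTop, ∀ k0 K1 : ℕ, k0 = n + kf ck y n →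
      K1 = (n + P.w (ε n)) + kf ck y (n + P.w (ε n)) →
      ∀ (l0 : ℕ) (Λ εR ε₃ r1 r2 B1 Mc : ℝ) (D0 D1 : Dec), DecC l0 D0 D1 →
        l0 ≤ 2 ^ lK n k0 → 1000000 * (1 + CG + (Mc + 37 * s0) + (Mc + 1)) ≤ Λ →
        Λ ≤ y n ^ (-cL) → 0 ≤ εR → εR ≤ y n ^ u → 0 ≤ ε₃ → ε₃ ≤ y n ^ u → 0 ≤ B1 →
        B1 ≤ y n ^ (-cB) → 0 ≤ Mc → r1 ≤ y n ^ u → r2 ≤ y n ^ u →
        ∀ R, 2 ^ k0 ≤ R → R ≤ 2 ^ K1 →
        RealN (sd i R) (2 ^ lK n (Nat.log 2 R)) b (tn n) Λ εR →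
        LocN (sd i R) (2 ^ lK n (Nat.log 2 R)) (2 ^ Nat.log 2 R) b (tn n) Λ ε₃ D0 D1 →
        (∀ F, F ∈ D0 ∨ F ∈ D1 → RF (sd i R) b (tn n) ((3 : ℝ) • dec F 0) ≤ r1) →
        (∀ F, F ∈ D0 ∨ F ∈ D1 → nS (a n) (tn n) (dec F (0 : V (sd i R))) ≤ B1) →
        (∀ X : V (sd i R) → ℝ, nrm (gr X) ≤ 28224 * Mc ^ 2 + 8 * s0 ^ 2 →
          RF (sd i R) b (tn n) ((3 : ℝ) • X) ≤ r2) →
        ∀ (η : ∀ R, Ed (sd i R) → ℤ) (φ : ∀ R, V (sd i R) → ℝ), AxP i η φ →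
        ∀ (D : ℕ) (U0 U1 : (Bx D ⊕ Bx D → ℝ) → ℤ → ℤ → ℝ) (k q : ℕ) (μ : V (sd i R) → ℝ)
          (p3 p4 : ℝ), BridgeP U0 U1 i n k q R μ (gC i n K1 R) →
        MemP b i (tn n) U0 U1 R (gC i n K1 R) D0 D1 p4 →
        (∃ G : Set (V (sd i R) → ℝ), MeasurableSet G ∧
          (nuF b (sd i) (tn n) R).real Gᶜ ≤ p3 ∧ ∀ F ∈ G,
            ∑ v, wB (sd i R) (2 ^ n) v * |mn μ (R • H817.e1 + v) (HF i q R (gC i n K1 R) F) -
              mn μ (0 + v) (HF i q R (gC i n K1 R) F)| ≤ Mc) →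
        PlaP b i η φ (tn n) n k q R μ (gC i n K1 R) (p3 + p4) (y n ^ (1 + c4) / 16) := by
  have hthp := P.thp0
  obtain ⟨Y1, p1, -, H1⟩ := pla_num (sη := (2 - 3 * σ) * P.pf) (p := 2 * P.thp) (cL := cL)
    (cB := cB) (u := u) (c4 := c4) hb.le hcL (by linarith) (by linarith) (by linarith) h3 i
  filter_upwards [lvn_flow hA hσ0 hσ h hck hck1 hth i hi,
    h.fl.yt.eventually (gt_mem_nhds p1)] with n L g1
  intro k0 K1 e0 e1
  subst e0 e1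
  intro l0 Λ εR ε₃ r1 r2 B1 Mc D0 D1 hD hl0 hΛ0 hΛ hR0 hR h30 h3' hB0 hB hM0 hr1 hr2 R hRa hRb
    hRe hLo hR3 hnS hrf η φ A D U0 U1 k q μ p3 p4 hBr hMem hdM
  have hMΛ : Mc ≤ Λ := by
    have := CG_pos
    have := s0_pos
    linarith
  exact plaP_of hb A L hD hl0 hRa hRb hR0 hM0 hΛ0 hRe hLo hR3 hnS hrf hBr hMem hdM
    (H1 n _ _ _ R b _ _ _ Λ εR ε₃ B1 Mc r1 r2 hb le_rfl L g1.le (hM0.trans hMΛ) hΛ hR0 hR h30 h3'
      hB0 hB hM0 (hMΛ.trans hΛ) hr1 hr2 hRa hRb)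

end flow

end

end Vale.Agent.P159.H686.Pla
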