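import Vale.Agent.P159.H789.StK
import Vale.Agent.P159.H663.Kap
import Vale.Agent.P159.H770.Sti4
import Vale.Agent.P159.H37.Lq5

/-!
P159 / H686, module PLA2: **the height event along the flow** (helper789's `supE`, at the length
`h = lC n k / 4` of helper663's mean profile `kT h`): all the differences of means are `≤ y ^ (-cM)` with
probability `≥ 1 - exp (-κ y^(-c3))`, for every `c3 < cM`.
-/

set_option linter.all false

namespace Vale.Agent.P159.H686.Pla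

open Finset Filter Topology MeasureTheory
open Vale.Agent.P159.TM.Spec (V)
open Vale.Agent.P159.TM.SpecC (wT)
open Vale.Agent.P159.H817 (sz gr GB)
open Vale.Agent.P159.H972 (lg tn Par Good)
open Vale.Agent.P159.H770.Sti
open Vale.Agent.P159.H773 (sd sd_pow sd_ne sd_ge nuF)
open Vale.Agent.P159.H191 (Wts mn)
open Vale.Agent.P159.H801 (SFlow)
open Vale.Agent.P159.H37.Sf (kf kE1 sf_big)
open Vale.Agent.P159.H145.Sp (lC muK)
open Vale.Agent.P159.H789 (supE supD Sv supE_prob osc_pair)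
open Vale.Agent.P159.H663.Dr (tT kT mn_kT wts_kT tT_add)
open Vale.Agent.P159.H276 (bxT)

noncomputable section

/-! ### the differences of means on the event -/

section det

variable {N h ρ K q s : ℕ} [NeZero N] {Λ B : ℝ}

lemma mn_add (μ : V N → ℝ) (c : V N) (H H' : V N → ℝ) : mn μ c (H + H') = mn μ c H + mn μ c H' := by
  unfold H191.mn
  rw [← sum_add_distrib]
  refine sum_congr rfl fun y _ => ?_
  rw [Pi.add_apply, mul_add]

lemma abs_mn {μ : V N → ℝ} (hμ : Wts μ s) (c : V N) {H : V N → ℝ} (hB : ∀ x, |H x| ≤ B) :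
    |mn μ c H| ≤ B := by
  unfold H191.mn
  have h1 : ∑ y, μ (y - c) = 1 := by
    rw [← hμ.one]
    exact Fintype.sum_equiv (Equiv.subRight c) _ _ fun y => rfl
  calc |∑ y, μ (y - c) * H y| ≤ ∑ y, |μ (y - c) * H y| := abs_sum_le_sum_abs _ _
    _ ≤ ∑ y, μ (y - c) * B := by
        refine sum_le_sum fun y _ => ?_
        rw [abs_mul, abs_of_nonneg (hμ.nn _)]
        exact mul_le_mul_of_nonneg_left (hB y) (hμ.nn _)
    _ = B := by rw [← sum_mul, h1, one_mul]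

lemma abs_bxT {H : V N → ℝ} (hq : 0 < q) (hB : ∀ x, |H x| ≤ B) (x : V N) : |bxT N q H x| ≤ B := by
  unfold H276.bxT
  have hq' : (0 : ℝ) < q := by exact_mod_cast hq
  rw [abs_mul, abs_of_nonneg (by positivity : (0 : ℝ) ≤ ((q : ℝ) ^ 2)⁻¹)]
  have h1 : |∑ i ∈ range q, ∑ j ∈ range q, H (x + ((i : ZMod N), (j : ZMod N)))| ≤
      (q : ℝ) ^ 2 * B := by
    refine (abs_sum_le_sum_abs _ _).trans ?_
    calc ∑ i ∈ range q, |∑ j ∈ range q, H (x + ((i : ZMod N), (j : ZMod N)))|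
        ≤ ∑ i ∈ range q, (q : ℝ) * B := by
          refine sum_le_sum fun i _ => (abs_sum_le_sum_abs _ _).trans ?_
          calc ∑ j ∈ range q, |H (x + ((i : ZMod N), (j : ZMod N)))| ≤ ∑ _j ∈ range q, B :=
                sum_le_sum fun j _ => hB _
            _ = q * B := by simp
      _ = (q : ℝ) ^ 2 * B := by simp; ring
  calc ((q : ℝ) ^ 2)⁻¹ * |∑ i ∈ range q, ∑ j ∈ range q, H (x + ((i : ZMod N), (j : ZMod N)))|
      ≤ ((q : ℝ) ^ 2)⁻¹ * ((q : ℝ) ^ 2 * B) := mul_le_mul_of_nonneg_left h1 (by positivity)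
    _ = B := by field_simp

lemma abs_tT {H : V N → ℝ} (hq : 0 < q) (hB : ∀ x, |H x| ≤ B) (x : V N) : |tT N q H x| ≤ B := by
  unfold H663.Dr.tT
  have hq' : (0 : ℝ) < q := by exact_mod_cast hq
  have hB' := abs_bxT hq hB
  rw [abs_mul, abs_of_nonneg (by positivity : (0 : ℝ) ≤ ((q : ℝ) ^ 2)⁻¹)]
  have h1 : |∑ i ∈ range q, ∑ j ∈ range q, bxT N q H (x - ((i : ZMod N), (j : ZMod N)))| ≤
      (q : ℝ) ^ 2 * B := by
    refine (abs_sum_le_sum_abs _ _).trans ?_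
    calc ∑ i ∈ range q, |∑ j ∈ range q, bxT N q H (x - ((i : ZMod N), (j : ZMod N)))|
        ≤ ∑ i ∈ range q, (q : ℝ) * B := by
          refine sum_le_sum fun i _ => (abs_sum_le_sum_abs _ _).trans ?_
          calc ∑ j ∈ range q, |bxT N q H (x - ((i : ZMod N), (j : ZMod N)))| ≤ ∑ _j ∈ range q, B :=
                sum_le_sum fun j _ => hB' _
            _ = q * B := by simp
      _ = (q : ℝ) ^ 2 * B := by simp; ring
  calc ((q : ℝ) ^ 2)⁻¹ * |∑ i ∈ range q, ∑ j ∈ range q, bxT N q H (x - ((i : ZMod N), (j : ZMod N)))|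
      ≤ ((q : ℝ) ^ 2)⁻¹ * ((q : ℝ) ^ 2 * B) := mul_le_mul_of_nonneg_left h1 (by positivity)
    _ = B := by field_simp

/-- **two means of the smoothed field on the event** -/
theorem mn_diff_sup (hh : 0 < h) (h1 : 2 * h ≤ ρ) (hN : N = 2 ^ K * h) (hq : 0 < q)
    {F g : V N → ℝ} (hF : F ∈ supE N q h K Λ) (hg : ∀ x, |g x| ≤ B) (c c' : V N) :
    |mn (muK N ρ (kT h)) c (tT N q (F + g)) - mn (muK N ρ (kT h)) c' (tT N q (F + g))| ≤
      6 * K * Λ + 2 * B := by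
  have hμ : Wts (muK N ρ (kT h)) (2 * h) := wts_kT hh h1
  rw [tT_add, mn_add, mn_add]
  have e1 : mn (muK N ρ (kT h)) c (tT N q F) = Sv N h (tT N q F) c := by
    rw [mn_kT h1]
    rfl
  have e2 : mn (muK N ρ (kT h)) c' (tT N q F) = Sv N h (tT N q F) c' := by
    rw [mn_kT h1]
    rfl
  rw [e1, e2]
  have hF' : tT N q F ∈ supD N h K Λ := by
    simp only [H789.supE, Set.mem_ofPred_eq] at hF
    exact hF
  have h2 := abs_le.1 (osc_pair hh hN hF' c c')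
  have h3 := abs_le.1 (abs_mn hμ c (abs_tT hq hg))
  have h4 := abs_le.1 (abs_mn hμ c' (abs_tT hq hg))
  rw [abs_le]
  constructor <;> linarith [h2.1, h2.2, h3.1, h3.2, h4.1, h4.2]

/-- the smeared difference of the two plateau values on the event -/
theorem dM_sup (hh : 0 < h) (h1 : 2 * h ≤ ρ) (hN : N = 2 ^ K * h) (hq : 0 < q)
    {F g w : V N → ℝ} (hF : F ∈ supE N q h K Λ) (hg : ∀ x, |g x| ≤ B) (hw : Wts w s)
    (p p' : V N) :
    ∑ v, w v * |mn (muK N ρ (kT h)) (p + v) (tT N q (F + g)) -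
      mn (muK N ρ (kT h)) (p' + v) (tT N q (F + g))| ≤ 6 * K * Λ + 2 * B := by
  calc _ ≤ ∑ v, w v * (6 * K * Λ + 2 * B) := by
        refine sum_le_sum fun v _ => mul_le_mul_of_nonneg_left ?_ (hw.nn v)
        exact mn_diff_sup hh h1 hN hq hF hg _ _
    _ = _ := by rw [← sum_mul, hw.one, one_mul]

end det

/-! ### numbers -/

/-- one scale: the event at the length `h` with `1 ≤ t h²` -/
lemma supE_exp {N q h K : ℕ} [NeZero N] {b t Z : ℝ} (hb : 0 < b) (ht : 0 < t) (x₀ : V N)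
    (hq : 0 < q) (hh : 0 < h) (hN : N = 2 ^ K * h) (hth : 1 ≤ t * (h : ℝ) ^ 2) :
    (H883.nuM (wT b N) (t • (1 : Matrix (V N) (V N) ℝ)) x₀).real
      (supE N q h K (4 * ((K + 2 + ⌈Z⌉₊ : ℕ) : ℝ) * (3 + b)))ᶜ ≤ Real.exp (-Z) := by
  obtain ⟨m, hm⟩ : ∃ m, m = K + 2 + ⌈Z⌉₊ := ⟨_, rfl⟩
  rw [← hm]
  have hm1 : (1 : ℝ) ≤ m := by
    rw [hm]
    push_cast
    have : (0 : ℝ) ≤ (K : ℝ) := K.cast_nonneg
    have : (0 : ℝ) ≤ (⌈Z⌉₊ : ℝ) := Nat.cast_nonneg _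
    linarith
  have h8 : 8 / (t * (h : ℝ) ^ 2) ≤ 8 := by
    rw [div_le_iff₀ (by linarith)]
    linarith
  have h1 := supE_prob (m := m) hb ht x₀ hq hh hN (Λ := 4 * (m : ℝ) * (3 + b)) (by positivity) (by
    have e : (4 * (m : ℝ) * (3 + b)) ^ 2 = 16 * (m : ℝ) ^ 2 * (3 + b) ^ 2 := by ring
    rw [e]
    refine mul_le_mul_of_nonneg_left ?_ (by positivity)
    nlinarith)
  refine h1.trans ?_
  have hh' : (0 : ℝ) < h := by exact_mod_cast hh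
  have e1 : (N : ℝ) / h = 2 ^ K := by
    rw [div_eq_iff hh'.ne', hN]
    push_cast
    ring
  rw [e1, hm, pow_add, pow_add]
  have e2 : ((2 : ℝ) ^ K) ^ 2 * (1 / 4) ^ K = 1 := by
    rw [← pow_mul, mul_comm K 2, pow_mul, ← mul_pow]
    norm_num
  have e3 : 11 * ((2 : ℝ) ^ K) ^ 2 * ((1 / 4) ^ K * (1 / 4) ^ 2 * (1 / 4) ^ ⌈Z⌉₊) =
      11 / 16 * (1 / 4) ^ ⌈Z⌉₊ * (((2 : ℝ) ^ K) ^ 2 * (1 / 4) ^ K) := by ring
  rw [e3, e2, mul_one]
  have h2 : (1 / 4 : ℝ) ^ ⌈Z⌉₊ ≤ Real.exp (-(⌈Z⌉₊ : ℝ)) := by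
    have h3 : (1 / 4 : ℝ) ≤ Real.exp (-1) := by
      rw [Real.exp_neg, one_div]
      refine inv_anti₀ (Real.exp_pos _) ?_
      have := Real.exp_one_lt_d9
      linarith
    calc (1 / 4 : ℝ) ^ ⌈Z⌉₊ ≤ Real.exp (-1) ^ ⌈Z⌉₊ := pow_le_pow_left₀ (by norm_num) h3 _
      _ = Real.exp (-(⌈Z⌉₊ : ℝ)) := by
          rw [← Real.exp_nat_mul]
          congr 1
          ring
  have h4 : Real.exp (-(⌈Z⌉₊ : ℝ)) ≤ Real.exp (-Z) :=
    Real.exp_le_exp.2 (neg_le_neg (Nat.le_ceil Z))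
  have h5 : 0 ≤ (1 / 4 : ℝ) ^ ⌈Z⌉₊ := by positivity
  linarith

section flow

variable {P : Par} {b σ c c1 q2 qx : ℝ} {a y ε xs : ℕ → ℝ} {c' r q A : ℝ} {N : ℕ}

/-- **THE HEIGHT EVENT ALONG THE FLOW** -/
theorem sup_flow (hb : 0 < b) (hA : P.Adm) (hσ0 : 0 ≤ σ) (hσ : σ ≤ 1 / 4)
    (h : SFlow P b σ c c1 q2 qx a y ε xs c' r q A N) {ck : ℝ} (hck : 0 < ck)
    (hck1 : ck ≤ P.thp) (hth : 2 * P.th ≤ ck) {c3 cM : ℝ} (h3 : 0 < c3) (hM : c3 < cM) (κ0 : ℝ)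
    (i : ℕ) (hi : 6 ≤ i) :
    ∀ᶠ n in atTop, ∀ R, 2 ^ (n + kf ck y n) ≤ R → R ≤ 2 ^ kE1 P ck y ε n →
      ∃ (K : ℕ) (Λ : ℝ), sd i R = 2 ^ K * (lC n (kf ck y n) / 4) ∧ 0 < lC n (kf ck y n) / 4 ∧
        0 < Λ ∧ Λ ≤ y n ^ (-cM) ∧ (K : ℝ) ≤ y n ^ (-(cM - c3)) ∧
        6 * K * Λ + 2 ≤ y n ^ (-cM) ∧
        ∀ q, 0 < q → (nuF b (sd i) (tn n) R).real
          (supE (sd i R) q (lC n (kf ck y n) / 4) K Λ)ᶜ ≤ Real.exp (-(κ0 * y n ^ (-c3))) := by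
  obtain ⟨δ, hδ⟩ : ∃ δ, δ = min c3 ((cM - c3) / 2) := ⟨_, rfl⟩
  have hδ0 : 0 < δ := by rw [hδ]; exact lt_min h3 (by linarith)
  have hδ1 : δ ≤ c3 := by rw [hδ]; exact min_le_left _ _
  have hδ2 : δ ≤ (cM - c3) / 2 := by rw [hδ]; exact min_le_right _ _
  obtain ⟨A1, hA1⟩ : ∃ A1 : ℝ, A1 = i + 2 + 8 * (1 + 2 / δ) := ⟨_, rfl⟩
  have hA10 : 0 < A1 := by rw [hA1]; positivity
  obtain ⟨A2, hA2⟩ : ∃ A2 : ℝ, A2 = 4 * (A1 + 3 + |κ0|) * (3 + b) := ⟨_, rfl⟩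
  have hA20 : 0 < A2 := by rw [hA2]; positivity
  have g1 := sf_big h (p := cM - c3 - δ) (M := 6 * A1 * A2 + 2 + A1 + A2) (by linarith)
    (by positivity)
  filter_upwards [lvn_flow hA hσ0 hσ h hck hck1 hth i hi, g1, eventually_ge_atTop 2] with n L hbig hn2
  intro R hRa hRb
  have hy := L.hy0
  have hy1 := L.hy1
  obtain ⟨k, hk⟩ : ∃ k, k = kf ck y n := ⟨_, rfl⟩
  have hK1 : kE1 P ck y ε n = (n + P.w (ε n)) + kf ck y (n + P.w (ε n)) := rfl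
  rw [hK1] at hRb
  have hk60 : n + 60 ≤ n + k := by
    have := (L.nm _ le_rfl L.h01 0 (Nat.zero_le _)).hk
    rw [hk]
    exact this
  have hc : Nat.clog 2 R ≤ (n + P.w (ε n)) + kf ck y (n + P.w (ε n)) :=
    (Nat.clog_le_iff_le_pow (by norm_num)).2 hRb
  have hkc : n + kf ck y n ≤ Nat.clog 2 R := by
    have h5 : 2 ^ (n + kf ck y n) ≤ 2 ^ Nat.clog 2 R := hRa.trans (Nat.le_pow_clog (by norm_num) R)
    exact (Nat.pow_le_pow_iff_right (by norm_num)).1 h5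
  rw [← hk] at hkc ⊢
  have hw := L.hw
  obtain ⟨e, he⟩ : ∃ e, e = n + k / 16 - 2 := ⟨_, rfl⟩
  have hh : lC n k / 4 = 2 ^ e := by
    unfold H145.Sp.lC
    have : n + k / 16 = e + 2 := by omega
    rw [this, pow_add]
    norm_num
  obtain ⟨K, hKd⟩ : ∃ K, K = i + Nat.clog 2 R - e := ⟨_, rfl⟩
  have hN : sd i R = 2 ^ K * 2 ^ e := by
    have h6 : sd i R = 2 ^ i * 2 ^ Nat.clog 2 R := rfl
    rw [h6, ← pow_add, ← pow_add]
    congr 1
    omega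
  have hKw : K ≤ i + 2 + 4 * P.w (ε n) := by omega
  -- sizes
  have hX : 1 ≤ y n ^ (-δ) := Real.one_le_rpow_of_pos_of_le_one_of_nonpos hy hy1 (by linarith)
  have hZ1 : 1 ≤ y n ^ (-c3) := Real.one_le_rpow_of_pos_of_le_one_of_nonpos hy hy1 (by linarith)
  have hXZ : y n ^ (-δ) ≤ y n ^ (-c3) := Real.rpow_le_rpow_of_exponent_ge hy hy1 (by linarith)
  have hlog : Real.logb 2 (1 / y n) ≤ 2 / δ * y n ^ (-δ) := by
    have h7 : Real.log (1 / y n) ≤ (1 / y n) ^ δ / δ :=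
      Real.log_le_rpow_div (by positivity) hδ0
    have h8 : (1 / y n) ^ δ = y n ^ (-δ) := by
      rw [one_div, Real.inv_rpow hy.le, Real.rpow_neg hy.le]
    rw [h8] at h7
    have h9 : (1 / 2 : ℝ) ≤ Real.log 2 := by
      have := Real.log_two_gt_d9
      linarith
    have h10 : 0 < Real.log 2 := by linarith
    unfold Real.logb
    rw [div_le_iff₀ h10]
    have h11 : 0 ≤ y n ^ (-δ) / δ := by positivity
    have h12 : 2 / δ * y n ^ (-δ) * Real.log 2 = 2 * Real.log 2 * (y n ^ (-δ) / δ) := by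
      field_simp
    rw [h12]
    nlinarith
  have hwr : (P.w (ε n) : ℝ) ≤ 2 * (1 + 2 / δ) * y n ^ (-δ) := by
    have := L.w1
    have h13 : (0 : ℝ) ≤ 2 / δ := by positivity
    nlinarith
  have hKA : (K : ℝ) ≤ A1 * y n ^ (-δ) := by
    have h14 : (K : ℝ) ≤ i + 2 + 4 * P.w (ε n) := by exact_mod_cast hKw
    have h15 : ((i : ℝ) + 2) * 1 ≤ ((i : ℝ) + 2) * y n ^ (-δ) :=
      mul_le_mul_of_nonneg_left hX (by positivity)
    rw [hA1]
    linarith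
  obtain ⟨Z, hZ⟩ : ∃ Z, Z = κ0 * y n ^ (-c3) := ⟨_, rfl⟩
  have hceil : (⌈Z⌉₊ : ℝ) ≤ |κ0| * y n ^ (-c3) + 1 := by
    have h16 : (⌈Z⌉₊ : ℝ) ≤ (⌈|κ0| * y n ^ (-c3)⌉₊ : ℝ) := by
      refine Nat.cast_le.2 (Nat.ceil_mono ?_)
      rw [hZ]
      exact mul_le_mul_of_nonneg_right (le_abs_self _) (by linarith)
    exact h16.trans (Nat.ceil_lt_add_one (by positivity)).le
  have hmA : ((K + 2 + ⌈Z⌉₊ : ℕ) : ℝ) ≤ (A1 + 3 + |κ0|) * y n ^ (-c3) := by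
    push_cast
    have h17 : A1 * y n ^ (-δ) ≤ A1 * y n ^ (-c3) := mul_le_mul_of_nonneg_left hXZ hA10.le
    linarith
  have hΛA : 4 * ((K + 2 + ⌈Z⌉₊ : ℕ) : ℝ) * (3 + b) ≤ A2 * y n ^ (-c3) := by
    rw [hA2]
    have h18 := mul_le_mul_of_nonneg_right hmA (show 0 ≤ 4 * (3 + b) by positivity)
    linarith
  have hm0 : (0 : ℝ) < ((K + 2 + ⌈Z⌉₊ : ℕ) : ℝ) := by
    push_cast
    positivity
  have hmul : y n ^ (-(cM - c3 - δ)) * (y n ^ (-δ) * y n ^ (-c3)) = y n ^ (-cM) := by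
    rw [← Real.rpow_add hy, ← Real.rpow_add hy]
    congr 1
    ring
  have hXX : 0 < y n ^ (-δ) * y n ^ (-c3) := by positivity
  have hXX1 : 1 ≤ y n ^ (-δ) * y n ^ (-c3) := one_le_mul_of_one_le_of_one_le hX hZ1
  have hfin : (6 * A1 * A2 + 2 + A1 + A2) * (y n ^ (-δ) * y n ^ (-c3)) ≤ y n ^ (-cM) := by
    rw [← hmul]
    exact mul_le_mul_of_nonneg_right hbig hXX.le
  refine ⟨K, 4 * ((K + 2 + ⌈Z⌉₊ : ℕ) : ℝ) * (3 + b), ?_, ?_, by positivity, ?_, ?_, ?_, ?_⟩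
  · rw [hh]
    exact hN
  · rw [hh]
    positivity
  · refine hΛA.trans (le_trans ?_ hfin)
    have h19 : A2 * (1 * y n ^ (-c3)) ≤ A2 * (y n ^ (-δ) * y n ^ (-c3)) :=
      mul_le_mul_of_nonneg_left (mul_le_mul_of_nonneg_right hX (by linarith)) hA20.le
    have h20 : 0 ≤ (6 * A1 * A2 + 2 + A1) * (y n ^ (-δ) * y n ^ (-c3)) := by positivity
    linarith
  · refine hKA.trans ?_
    have h21 : y n ^ (-(cM - c3)) = y n ^ (-(cM - c3 - δ)) * y n ^ (-δ) := by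
      rw [← Real.rpow_add hy]
      congr 1
      ring
    rw [h21]
    refine mul_le_mul_of_nonneg_right (le_trans ?_ hbig) (by linarith)
    have : 0 ≤ 6 * A1 * A2 := by positivity
    linarith
  · have h22 : (K : ℝ) * (4 * ((K + 2 + ⌈Z⌉₊ : ℕ) : ℝ) * (3 + b)) ≤
        (A1 * y n ^ (-δ)) * (A2 * y n ^ (-c3)) :=
      mul_le_mul hKA hΛA (by positivity) (by positivity)
    have h23 : 0 ≤ (A1 + A2) * (y n ^ (-δ) * y n ^ (-c3)) := by positivity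
    have e1 : (6 * A1 * A2 + 2 + A1 + A2) * (y n ^ (-δ) * y n ^ (-c3)) =
        6 * ((A1 * y n ^ (-δ)) * (A2 * y n ^ (-c3))) + 2 * (y n ^ (-δ) * y n ^ (-c3)) +
          (A1 + A2) * (y n ^ (-δ) * y n ^ (-c3)) := by ring
    rw [e1] at hfin
    linarith
  · intro q0 hq0
    have h24 := supE_exp (N := sd i R) (q := q0) (h := 2 ^ e) (K := K) (Z := Z) hb
      (show 0 < tn n by unfold tn; positivity) 0 hq0 (by positivity) hN (by
        unfold tn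
        rw [Nat.cast_pow, Nat.cast_ofNat, ← pow_mul, mul_comm e 2, pow_mul, ← div_eq_inv_mul,
          le_div_iff₀ (by positivity)]
        norm_num
        exact pow_le_pow_right₀ (by norm_num) (by omega))
    rw [hh]
    rw [hZ] at h24 ⊢
    exact h24

end flow

end

end Vale.Agent.P159.H686.Pla
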