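import Vale.Agent.P159.H686.Pla1
import Vale.Agent.P159.H686.Pla2

/-!
P159 / H686, module PLA3: **the field `pla` of the pairs of a level** (helper145's `PlaP`) in helper37's
form `Win`, from the comparison inputs of helper770 at every scale, smooth real fields, the class of
decorations, helper773's `MemP` and helper764's bridge.
-/

set_option linter.all false

namespace Vale.Agent.P159.H686.Pla

open Finset Filter Topology MeasureTheory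
open Vale.Agent.P159.TM.Spec (V)
open Vale.Agent.P159.H817
open Vale.Agent.P159.H963.Core (RF nS)
open Vale.Agent.P159.H972 (lg tn Par Good)
open Vale.Agent.P159.H859.Idl
open Vale.Agent.P159.H770 (Ed)
open Vale.Agent.P159.H770.Sti
open Vale.Agent.P159.H773 (sd sd_pow sd_ne sd_ge nuF)
open Vale.Agent.P159.H708 (Bx)
open Vale.Agent.P159.H191 (Wts mn)
open Vale.Agent.P159.H801 (SFlow)
open Vale.Agent.P159.H37.Sf (kf kE1 Win sf_big)
open Vale.Agent.P159.H145.Sp (AxP PlaP MemP BridgeP HF dcR plR lR gC b0C wB lC muK T0 T1 DC)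
open Vale.Agent.P159.H663.Dr (kT)

noncomputable section

section cast

variable {N M : ℕ} [NeZero N] [NeZero M]

lemma RealN_cast {l : ℕ} {b t Λ εR : ℝ} (h : N = M) (H : RealN M l b t Λ εR) :
    RealN N l b t Λ εR := by
  subst h
  exact H

lemma LocN_cast {l r : ℕ} {b t Λ ε₃ : ℝ} {D0 D1 : Dec} (h : N = M)
    (H : LocN M l r b t Λ ε₃ D0 D1) : LocN N l r b t Λ ε₃ D0 D1 := by
  subst h
  exact H

lemma R3_cast {b t r : ℝ} {F : ℤ → ℤ → ℝ} (h : N = M)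
    (H : RF M b t ((3 : ℝ) • dec F 0) ≤ r) : RF N b t ((3 : ℝ) • dec F 0) ≤ r := by
  subst h
  exact H

lemma nS_cast {a t B : ℝ} {F : ℤ → ℤ → ℝ} (h : N = M)
    (H : nS a t (dec F (0 : V M)) ≤ B) : nS a t (dec F (0 : V N)) ≤ B := by
  subst h
  exact H

lemma rf_cast {b t G r : ℝ} (h : N = M)
    (H : ∀ X : V M → ℝ, nrm (gr X) ≤ G → RF M b t ((3 : ℝ) • X) ≤ r) :
    ∀ X : V N → ℝ, nrm (gr X) ≤ G → RF N b t ((3 : ℝ) • X) ≤ r := by
  subst h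
  exact H

end cast

/-- the torus of `R` is one of the two tori of the scale `log2 R` -/
lemma sd_log {i R : ℕ} (hR : R ≠ 0) : sd i R = sd i (2 ^ Nat.log 2 R) ∨
    sd i R = sd i (2 ^ (Nat.log 2 R + 1)) := by
  rcases Nat.eq_or_lt_of_le (Nat.pow_log_le_self 2 hR) with h | h
  · left
    rw [h]
  · right
    have h1 : Nat.clog 2 R = Nat.log 2 R + 1 := by
      apply le_antisymm
      · exact (Nat.clog_le_iff_le_pow (by norm_num)).2
          (Nat.lt_pow_succ_log_self (by norm_num) R).le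
      · have h2 : ¬ Nat.clog 2 R ≤ Nat.log 2 R := by
          rw [Nat.clog_le_iff_le_pow (by norm_num)]
          omega
        omega
    rw [sd_clog, h1]

section flow

variable {P : Par} {b σ c c1 q2 qx : ℝ} {a y ε xs : ℕ → ℝ} {c' r q A : ℝ} {N : ℕ}

/-- **THE FIELD `pla`** -/
theorem plaP_win (hb : 0 < b) (hA : P.Adm) (hσ0 : 0 ≤ σ) (hσ : σ ≤ 1 / 4)
    (h : SFlow P b σ c c1 q2 qx a y ε xs c' r q A N) {ck : ℝ} (hck : 0 < ck)
    (hck1 : ck ≤ P.thp) (hth : 2 * P.th ≤ ck) {cL cB u c3 c4 : ℝ} (h3 : 0 < c3) (hcL : c3 < cL)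
    (g1 : 1 + c4 + 4 * P.thp < (2 - 3 * σ) * P.pf - 2 * cL) (g2 : 1 + c4 + 4 * P.thp < u)
    (g3 : 1 + c4 < (2 - 3 * σ) * P.pf - cB / 2 - cL) {i : ℕ} (hi : 6 ≤ i) {β C2 A0 : ℝ} {Am : ℕ}
    {η : ∀ R, Ed (sd i R) → ℤ} {φ : ∀ R, V (sd i R) → ℝ} (Ax : AxP i η φ)
    {D0 D1 : ℕ → Dec} {l0 : ℕ → ℕ} {B1 : ℕ → ℝ}
    (hD : ∀ᶠ n in atTop, DecC (l0 n) (D0 n) (D1 n) ∧ l0 n ≤ 2 ^ lK n (n + kf ck y n))
    (hR3 : ∀ᶠ n in atTop, ∀ k, n + kf ck y n ≤ k → k ≤ kE1 P ck y ε n → ∀ F, F ∈ D0 n ∨ F ∈ D1 n →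
      RF (sd i (2 ^ k)) b (tn n) ((3 : ℝ) • dec F 0) ≤ y n ^ u)
    (hB : ∀ᶠ n in atTop, 0 ≤ B1 n ∧ B1 n ≤ y n ^ (-cB))
    (hnS : ∀ᶠ n in atTop, ∀ k, n + kf ck y n ≤ k → k ≤ kE1 P ck y ε n → ∀ F, F ∈ D0 n ∨ F ∈ D1 n →
      nS (a n) (tn n) (dec F (0 : V (sd i (2 ^ k)))) ≤ B1 n)
    (hSm : ∀ᶠ n in atTop, ∀ k, n + kf ck y n ≤ k → k ≤ kE1 P ck y ε n →
      ∀ X : V (sd i (2 ^ k)) → ℝ, nrm (gr X) ≤ 392 * (y n ^ (-cL)) ^ 2 →
        RF (sd i (2 ^ k)) b (tn n) ((3 : ℝ) • X) ≤ y n ^ u)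
    (hMod : Win P b β C2 A0 Am i ck a y ε fun n R => ∀ k, n + kf ck y n ≤ k →
      k ≤ Nat.clog 2 R → ModK i n b (y n ^ (-cL)) (y n ^ u) (y n ^ u) (D0 n) (D1 n) k)
    {qn : ℕ → ℕ} (hq : ∀ᶠ n in atTop, 0 < qn n) {Dn : ℕ → ℕ}
    {U0 U1 : ∀ n, (Bx (Dn n) ⊕ Bx (Dn n) → ℝ) → ℤ → ℤ → ℝ}
    (mem : Win P b β C2 A0 Am i ck a y ε fun n R =>
      MemP b i (tn n) (U0 n) (U1 n) R (gC i n (kE1 P ck y ε n) R) (D0 n) (D1 n)
        (Real.exp (-(5 * y n ^ (-c3)))))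
    (br : Win P b β C2 A0 Am i ck a y ε fun n R =>
      BridgeP (U0 n) (U1 n) i n (kf ck y n) (qn n) R
        (muK (sd i R) (lC n (kf ck y n)) (kT (lC n (kf ck y n) / 4)))
        (gC i n (kE1 P ck y ε n) R)) :
    Win P b β C2 A0 Am i ck a y ε fun n R =>
      PlaP b i η φ (tn n) n (kf ck y n) (qn n) R
        (muK (sd i R) (lC n (kf ck y n)) (kT (lC n (kf ck y n) / 4)))
        (gC i n (kE1 P ck y ε n) R) (Real.exp (-(4 * y n ^ (-c3)))) (y n ^ (1 + c4) / 16) := by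
  have hCG := CG_pos
  have hs0 := s0_pos
  obtain ⟨cM, hcM⟩ : ∃ cM, cM = (c3 + cL) / 2 := ⟨_, rfl⟩
  have hcM1 : c3 < cM := by rw [hcM]; linarith
  have hcM2 : cM < cL := by rw [hcM]; linarith
  have k1 := sf_big h (p := cL - cM) (M := 1000000 * (1 + CG + 37 * s0 + 1 + 2)) (by linarith)
    (by positivity)
  have k2 := sf_big h (p := c3) (M := 1) h3 (by norm_num)
  unfold Win at hMod mem br ⊢
  filter_upwards [pla_flow hb hA hσ0 hσ h hck hck1 hth (cL := cL) (cB := cB) (u := u) (c4 := c4)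
    (by linarith) g1 g2 g3 i hi, lvn_flow hA hσ0 hσ h hck hck1 hth i hi,
    sup_flow hb hA hσ0 hσ h hck hck1 hth h3 hcM1 5 i hi, hD, hR3, hB, hnS, hSm, hMod, hq, mem, br,
    k1, k2] with n HP Lv HS HD HR3 HB HnS HSm HM Hq Hmem Hbr Hk1 Hk2
  intro n0 j hn R hR0 hR1 hK
  have hMk := HM n0 j hn R hR0 hR1 hK
  have hmem := Hmem n0 j hn R hR0 hR1 hK
  have hbr := Hbr n0 j hn R hR0 hR1 hK
  obtain ⟨K, Λ, e1, e2, e3, -, -, e4, e5⟩ := HS R hR0 hR1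
  have hK1 : kE1 P ck y ε n = (n + P.w (ε n)) + kf ck y (n + P.w (ε n)) := rfl
  have hy := Lv.hy0
  have hy1 := Lv.hy1
  have hc : Nat.clog 2 R ≤ kE1 P ck y ε n := (Nat.clog_le_iff_le_pow (by norm_num)).2 hR1
  have hkc : n + kf ck y n ≤ Nat.clog 2 R := by
    have h5 : 2 ^ (n + kf ck y n) ≤ 2 ^ Nat.clog 2 R := hR0.trans (Nat.le_pow_clog (by norm_num) R)
    exact (Nat.pow_le_pow_iff_right (by norm_num)).1 h5
  have hRne : R ≠ 0 := by
    have : 0 < 2 ^ (n + kf ck y n) := by positivity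
    omega
  have hkl : n + kf ck y n ≤ Nat.log 2 R := Nat.le_log_of_pow_le (by norm_num) hR0
  have hlc : Nat.log 2 R ≤ Nat.clog 2 R := Nat.log_le_clog 2 R
  obtain ⟨m1, m2, m3, m4, -⟩ := hMk (Nat.log 2 R) hkl hlc
  have hyu : 0 ≤ y n ^ u := (Real.rpow_pos_of_pos hy _).le
  -- the constant of the class
  have hM0 : (0 : ℝ) ≤ y n ^ (-cM) := (Real.rpow_pos_of_pos hy _).le
  have hM1 : 1 ≤ y n ^ (-cM) :=
    Real.one_le_rpow_of_pos_of_le_one_of_nonpos hy hy1 (by linarith)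
  have hML : y n ^ (-cL) = y n ^ (-(cL - cM)) * y n ^ (-cM) := by
    rw [← Real.rpow_add hy]
    congr 1
    ring
  have hΛ : 1000000 * (1 + CG + (y n ^ (-cM) + 37 * s0) + (y n ^ (-cM) + 1)) ≤ y n ^ (-cL) := by
    rw [hML]
    have h6 := mul_le_mul_of_nonneg_right Hk1 hM0
    have h7 : (1 + CG + 37 * s0 + 1) * 1 ≤ (1 + CG + 37 * s0 + 1) * y n ^ (-cM) :=
      mul_le_mul_of_nonneg_left hM1 (by positivity)
    linarith
  have hG : 28224 * (y n ^ (-cM)) ^ 2 + 8 * s0 ^ 2 ≤ 392 * (y n ^ (-cL)) ^ 2 := by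
    obtain ⟨X, hX⟩ : ∃ X, X = y n ^ (-cM) := ⟨_, rfl⟩
    obtain ⟨W, hW⟩ : ∃ W, W = y n ^ (-cL) := ⟨_, rfl⟩
    rw [← hX, ← hW] at hΛ
    rw [← hX] at hM0
    rw [← hX, ← hW]
    have h8 : 1000 * X ≤ W := by linarith
    have h9 : 1000 * s0 ≤ W := by linarith
    have h10 : (1000 * X) ^ 2 ≤ W ^ 2 := pow_le_pow_left₀ (by positivity) h8 2
    have h11 : (1000 * s0) ^ 2 ≤ W ^ 2 := pow_le_pow_left₀ (by positivity) h9 2
    nlinarith
  have hN : sd i R = sd i (2 ^ Nat.clog 2 R) := sd_clog i R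
  have key := HP (n + kf ck y n) (kE1 P ck y ε n) rfl hK1 (l0 n) (y n ^ (-cL)) (y n ^ u) (y n ^ u)
    (y n ^ u) (y n ^ u) (B1 n) (y n ^ (-cM)) (D0 n) (D1 n) HD.1 HD.2 hΛ le_rfl hyu le_rfl hyu
    le_rfl HB.1 HB.2 hM0 le_rfl le_rfl R hR0 hR1 ?_ ?_
    (fun F hF => R3_cast hN (HR3 _ hkc hc F hF)) (fun F hF => nS_cast hN (HnS _ hkc hc F hF))
    (rf_cast hN fun X hX => HSm _ hkc hc X (hX.trans hG)) η φ Ax (Dn n) (U0 n) (U1 n)
    (kf ck y n) (qn n) (muK (sd i R) (lC n (kf ck y n)) (kT (lC n (kf ck y n) / 4)))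
    (Real.exp (-(5 * y n ^ (-c3)))) (Real.exp (-(5 * y n ^ (-c3)))) hbr hmem ?_
  · refine H37.Sf.PlaP.mono' key ?_ le_rfl
    have h12 : Real.exp (-(4 * y n ^ (-c3))) =
        Real.exp (-(5 * y n ^ (-c3))) * Real.exp (y n ^ (-c3)) := by
      rw [← Real.exp_add]
      congr 1
      ring
    have h13 : 2 ≤ Real.exp (y n ^ (-c3)) := by
      have := Real.add_one_le_exp (y n ^ (-c3))
      linarith
    rw [h12]
    have h14 := Real.exp_pos (-(5 * y n ^ (-c3)))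
    nlinarith
  · rcases sd_log (i := i) hRne with e | e
    · exact RealN_cast e m1
    · exact RealN_cast e m2
  · rcases sd_log (i := i) hRne with e | e
    · exact LocN_cast e m3
    · exact LocN_cast e m4
  · refine ⟨_, H789.meas_supE (N := sd i R) (q := qn n) (h := lC n (kf ck y n) / 4) K Λ,
      e5 (qn n) Hq, fun F hF => ?_⟩
    have hspec := gsF_spec (K1 := kE1 P ck y ε n) (k0 := n + kf ck y n) (l0 := 0)
      (fun k h1 h2 => Lv.nm k h1 h2 0 (Nat.zero_le _)) hR0 hR1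
    have hgb : ∀ x, |gC i n (kE1 P ck y ε n) R x| ≤ 1 := hspec.2.1
    have h2n : 2 * 2 ^ n + 1 ≤ sd i R := by
      have h15 := sd64 (R := R) hi
      have h16 : 2 ^ n ≤ 2 ^ (n + kf ck y n) :=
        Nat.pow_le_pow_right (by norm_num) (Nat.le_add_right _ _)
      have h17 : 1 ≤ 2 ^ n := Nat.one_le_two_pow
      omega
    have hh4 : 2 * (lC n (kf ck y n) / 4) ≤ lC n (kf ck y n) := by omega
    have key2 := dM_sup (ρ := lC n (kf ck y n)) (s := 2 ^ n) e2 hh4 e1 Hq hF hgb (wts_wB h2n)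
      (R • H817.e1) 0
    refine le_trans (le_of_eq ?_) (key2.trans ?_)
    · rfl
    · linarith

end flow

end

end Vale.Agent.P159.H686.Pla
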