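import Vale.Agent.P159.H686.Pla3
import Vale.Agent.P159.H770.Sti9
import Vale.Agent.P159.H816.Sm3
import Vale.Agent.P159.H145.Spf

/-!
P159 / H686, module PLA4: **the field `pla`, final letters** (helper145's `PlaW`), with the field `st`
(helper770's `st_fin`), from helper773's `MemW` alone.
-/

set_option linter.all false

namespace Vale.Agent.P159.H686.Pla

open Finset Filter Topology MeasureTheory
open Vale.Agent.P159 Vale.Agent.P159.TM.H331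
open Vale.Agent.P159.TM.Spec (V)
open Vale.Agent.P159.H817
open Vale.Agent.P159.H963.Core (RF nS)
open Vale.Agent.P159.H972 (lg tn Par Good)
open Vale.Agent.P159.H859.Idl
open Vale.Agent.P159.H770 (Ed)
open Vale.Agent.P159.H770.Sti
open Vale.Agent.P159.H773 (sd sd_pow sd_ne sd_ge nuF DD)
open Vale.Agent.P159.H276 (FlD)
open Vale.Agent.P159.H276.Mf (ED)
open Vale.Agent.P159.H801 (SFlow Ev)
open Vale.Agent.P159.H37.Sf (kf kE1 Win sf_big)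
open Vale.Agent.P159.H145.Sp (AxP PlaP MemP BridgeP lC l0C muK T0 T1 DC gC scF qF kapF br_fin PlaW
  MemW StW)
open Vale.Agent.P159.H513 (LkS)

noncomputable section

/-- smooth real fields, energy form -/
lemma smK_rf {i k : ℕ} {b t Λ εR : ℝ} (hb : 0 < b) (ht : 0 < t) (H : SmK i b t Λ εR k)
    {X : V (sd i (2 ^ k)) → ℝ} (hX : nrm (gr X) ≤ 392 * Λ ^ 2) :
    RF (sd i (2 ^ k)) b t ((3 : ℝ) • X) ≤ εR := by
  obtain ⟨lc, _, Y, ρ, p, p', κ, j, k', h, h1, h2⟩ := H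
  have h3 := h.rf hb ht (z := 3) hX (by
    refine le_trans (le_of_eq ?_) h1
    ring)
  refine h3.trans (le_trans (le_of_eq ?_) h2)
  ring

/-- **THE FIELDS `pla` AND `st`, final letters, from the field `mem`** -/
theorem pla_ev {b b1 b2 pf : ℝ} (hb1 : 0 < b1) (h1 : b1 ≤ b) (hpf : 9 / 10 ≤ pf)
    (hA6 : TM.Spec.ThmA6 b1 b2 (5 / 2)) (Q : ℕ) (hh : 0 < helicity b)
    (hs : 1 / helicity b < 5 / 2) (hSi : ∀ i, 2 / Real.pi ≤ stiff (2 ^ i) b)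
    (hL : LkS b (2 / Real.pi)) :
    Ev b1 b2 pf Q fun P c1 => 
      ∀ {σ cc q2 qx : ℝ} {a y ε xs : ℕ → ℝ} {c' r q A : ℝ} {N : ℕ},
      SFlow P b σ cc c1 q2 qx a y ε xs c' r q A N → 0 ≤ σ → σ ≤ 1 / 6 → 0 ≤ cc → 40 * cc ≤ 1 →
      ∀ c4 : ℝ, c4 ≤ 1 / 16 →
      ∀ (β C2 A0 : ℝ) (Am : ℕ), 1 / 4 ≤ β → β < 1 / 2 → 1 ≤ C2 → 2 ≤ Am →
      ∀ (M : ℝ) (A' r1 : ℕ → ℝ), 0 ≤ M →
      (∀ᶠ n in atTop, 0 ≤ A' n ∧
        A' n ≤ M * 4 ^ (kf (P.thp / 4) y n / 16) * y n ^ (-(4 * c1))) →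
      (∀ᶠ n in atTop, r1 n ≤ y n ^ (9 / 8 : ℝ)) →
      ∃ i1 : ℕ, ∀ i, i1 ≤ i → ∀ (η : ∀ R, Ed (sd i R) → ℤ) (φ : ∀ R, V (sd i R) → ℝ),
        AxP i η φ →
        (MemW P b β C2 A0 Am i c1 a y ε (DF P i b (P.thp / 4) c1 y ε A' r1)
          (DF P i b (P.thp / 4) c1 y ε A' r1) fun n => Real.exp (-(5 * y n ^ (-(c1 / 2))))) →
        PlaW P b β C2 A0 Am i c1 c4 a y ε η φ ∧
        StW P b β C2 A0 Am i c4 a y ε (DF P i b (P.thp / 4) c1 y ε A' r1)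
          (DF P i b (P.thp / 4) c1 y ε A' r1) := by
  have hb : 0 < b := hb1.trans_le h1
  refine (((st_fin (b2 := b2) hb1 h1 hpf hA6 Q hh hs hSi hL).and
    (H816.smK_flow (b2 := b2) hb1 h1 (by linarith) Q)).and
    ((ev_pf Q).and (H37.Sf.ev_cS b1 b2 pf Q))).mono fun P c1 hP hH => ?_
  obtain ⟨⟨⟨hc1, -, hSt⟩, -, -, hSm⟩, hpfe, -, hc1t, hthp, hthpx, hth, hth4, hx1⟩ := hH
  intro σ cc q2 qx a y ε xs c' r q A N h hσ hσ1 hcc hcc1 c4 hc4 β C2 A0 Am hβ hβ2 hC2 hAm M A' r1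
    hM hA' hr1
  have hx := hP.x11
  have hck : 0 < P.thp / 4 := by linarith
  have hck1 : P.thp / 4 ≤ P.thp := by linarith
  obtain ⟨i1, g1⟩ := hSt h hσ hσ1 hcc hcc1 (P.thp / 4) (by linarith) hck1 c4 hc4 β C2 A0 Am hβ hβ2
    hC2 hAm M A' r1 hA' hr1
  refine ⟨max i1 6, fun i hi η φ Ax hMem => ?_⟩
  have hi1 : i1 ≤ i := (le_max_left _ _).trans hi
  have hi6 : 6 ≤ i := (le_max_right _ _).trans hi
  have hW := g1 i hi1
  have hE := edC_ED (c1 := c1) hA'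
  have hC := clP_flow (i := i) (P := P) (ε := ε) (cB := 1 / 8) (u := 9 / 8) (r1 := r1) hb h hck 6 hM
    (by linarith) hE.hρ hE.hrr hE.hA hr1 hE.neg hE.fl
  have hpf' : (3 / 2 : ℝ) * (9 / 10) ≤ (2 - 3 * σ) * P.pf := by
    rw [hpfe]
    exact mul_le_mul (by linarith) hpf (by norm_num) (by linarith)
  have hMod : Win P b β C2 A0 Am i (P.thp / 4) a y ε fun n R => ∀ k, n + kf (P.thp / 4) y n ≤ k →
      k ≤ Nat.clog 2 R → ModK i n b (y n ^ (-c1)) (y n ^ (9 / 8 : ℝ)) (y n ^ (9 / 8 : ℝ))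
        (DF P i b (P.thp / 4) c1 y ε A' r1 n) (DF P i b (P.thp / 4) c1 y ε A' r1 n) k :=
    hW.mono (Eventually.of_forall fun n R _ _ H => H.1)
  refine ⟨?_, hW.mono (Eventually.of_forall fun n R _ _ H => H.2)⟩
  refine plaP_win (cL := c1) (cB := 1 / 8) (u := 9 / 8) (c3 := c1 / 2) hb hP hσ (by linarith) h hck
    hck1 (by linarith) (by linarith) (by linarith) (by linarith) (by linarith) (by linarith) hi6 Ax
    (l0 := fun n => l0C n (kf (P.thp / 4) y n)) (B1 := fun n => A' n + A' n) ?_ ?_ ?_ ?_ ?_ hMod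
    (Eventually.of_forall fun n => H145.Sp.qF_pos c1 y n) hMem
    (br_fin h (by linarith) hck hck1)
  · filter_upwards [hC] with n hn
    exact ⟨hn.1.dc, hn.1.hl⟩
  · filter_upwards [hC] with n hn
    exact hn.1.R3
  · filter_upwards [hC] with n hn
    exact ⟨add_nonneg hn.1.A0 hn.1.J0, hn.2⟩
  · filter_upwards [hC, eventually_ge_atTop N] with n hn hnN k hk0 hk1 F hF
    refine nS_FlD (h.a1 n hnN) (hn.1.fl F hF) hn.1.A0 hn.1.J0 ?_
    have e0 : ∀ ρ rr M : ℕ, 2 * ρ + rr + 4 < M → 2 * ρ + 4 < M := fun _ _ _ _ => by omega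
    have e1 := e0 _ _ _ hn.1.hρr
    have e2 : 2 ^ (n + kf (P.thp / 4) y n) ≤ 2 ^ k := Nat.pow_le_pow_right (by norm_num) hk0
    have e3 := sd64 (R := 2 ^ k) hi6
    omega
  · filter_upwards [hSm h hσ (by linarith) (P.thp / 4) hck (by linarith) hck1 i (by omega)]
      with n hn k hk0 hk1 X hX
    have e1 : k ≤ n + P.w (ε n) + kf (P.thp / 4) y (n + P.w (ε n)) + 1 := by
      have : kE1 P (P.thp / 4) y ε n = n + P.w (ε n) + kf (P.thp / 4) y (n + P.w (ε n)) := rfl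
      omega
    exact smK_rf hb (tn_pos' n) (hn.2 k hk0 e1) hX

end

end Vale.Agent.P159.H686.Pla
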