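import Vale.Agent.P159.H556.Mms

/-!
P159 / H686, module RP: reflection positivity of the XY model for a mirror made of sites (a square
after conditioning on the spins of the mirror), and the inequality of Cauchy-Schwarz for the
two-point function in the plane.
-/

open MeasureTheory Filter Topology
open scoped BigOperators

set_option linter.unusedSectionVars false

namespace Vale.Agent.P159.H686.RP

open Vale.Agent.P159 Vale.Agent.P159.XY

section mir

variable {M P : Type*} [Fintype M] [Fintype P]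

/-- couplings: mirror `M`, two copies of `P` -/
noncomputable def JR (L : M → M → ℝ) (K : P → M → ℝ) (J : P → P → ℝ) :
    M ⊕ (P ⊕ P) → M ⊕ (P ⊕ P) → ℝ
  | Sum.inl m, Sum.inl n => L m n
  | Sum.inl m, Sum.inr (Sum.inl u) => K u m
  | Sum.inl m, Sum.inr (Sum.inr u) => K u m
  | Sum.inr (Sum.inl u), Sum.inl m => K u m
  | Sum.inr (Sum.inr u), Sum.inl m => K u m
  | Sum.inr (Sum.inl u), Sum.inr (Sum.inl v) => J u v
  | Sum.inr (Sum.inr u), Sum.inr (Sum.inr v) => J u v
  | Sum.inr (Sum.inl _), Sum.inr (Sum.inr _) => 0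
  | Sum.inr (Sum.inr _), Sum.inr (Sum.inl _) => 0

/-- energy of one side given the mirror -/
noncomputable def eS (K : P → M → ℝ) (J : P → P → ℝ) (m : M → T) (p : P → T) : ℝ :=
  energy J p + ∑ u, ∑ v, 2 * K u v * ct (p u - m v)

theorem energy_JR (L : M → M → ℝ) (K : P → M → ℝ) (J : P → P → ℝ) (θ : M ⊕ (P ⊕ P) → T) :
    energy (JR L K J) θ = energy L (fun m => θ (Sum.inl m)) +
      (eS K J (fun m => θ (Sum.inl m)) (fun u => θ (Sum.inr (Sum.inl u))) +
        eS K J (fun m => θ (Sum.inl m)) (fun u => θ (Sum.inr (Sum.inr u)))) := by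
  unfold energy eS energy
  simp only [Fintype.sum_sum_type, JR, Finset.sum_add_distrib, zero_mul, Finset.sum_const_zero,
    add_zero, zero_add]
  have h : ∀ a : P → P ⊕ P, ∑ x : M, ∑ y : P, K y x * ct (θ (Sum.inl x) - θ (Sum.inr (a y))) =
      ∑ u : P, ∑ v : M, K u v * ct (θ (Sum.inr (a u)) - θ (Sum.inl v)) := by
    intro a
    rw [Finset.sum_comm]
    refine Finset.sum_congr rfl fun u _ => Finset.sum_congr rfl fun v _ => ?_
    rw [← neg_sub, ct_neg]
  have h2 : ∀ a : P → P ⊕ P, ∑ u : P, ∑ v : M, 2 * K u v * ct (θ (Sum.inr (a u)) - θ (Sum.inl v)) =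
      2 * ∑ u : P, ∑ v : M, K u v * ct (θ (Sum.inr (a u)) - θ (Sum.inl v)) := by
    intro a
    rw [Finset.mul_sum]
    refine Finset.sum_congr rfl fun u _ => ?_
    rw [Finset.mul_sum]
    exact Finset.sum_congr rfl fun v _ => by ring
  have e1 := h Sum.inl
  have e2 := h Sum.inr
  have e3 := h2 Sum.inl
  have e4 := h2 Sum.inr
  rw [e1, e2, e3, e4]
  ring

theorem eS_cont (K : P → M → ℝ) (J : P → P → ℝ) :
    Continuous fun q : (M → T) × (P → T) => eS K J q.1 q.2 := by
  unfold eS
  fun_prop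

theorem eS_cont1 (K : P → M → ℝ) (J : P → P → ℝ) :
    Continuous fun z : (M → T) × ((P → T) × (P → T)) => eS K J z.1 z.2.1 := by
  unfold eS
  fun_prop

theorem eS_cont2 (K : P → M → ℝ) (J : P → P → ℝ) :
    Continuous fun z : (M → T) × ((P → T) × (P → T)) => eS K J z.1 z.2.2 := by
  unfold eS
  fun_prop

theorem eS_contm (K : P → M → ℝ) (J : P → P → ℝ) (m : M → T) :
    Continuous fun p : P → T => eS K J m p := by
  unfold eS
  fun_prop

/-- Fubini for the three parts -/
theorem integral_three {F : (M → T) × ((P → T) × (P → T)) → ℝ} (hF : Continuous F) :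
    ∫ θ : M ⊕ (P ⊕ P) → T, F (fun m => θ (Sum.inl m),
      (fun u => θ (Sum.inr (Sum.inl u)), fun u => θ (Sum.inr (Sum.inr u)))) ∂haarV (M ⊕ (P ⊕ P)) =
      ∫ m, ∫ q, F (m, q) ∂((haarV P).prod (haarV P)) ∂haarV M := by
  have h := measurePreserving_sumPiEquivProdPi (ι := M) (ι' := P ⊕ P) (X := fun _ => T)
    (fun _ => (AddCircle.haarAddCircle : Measure T))
  have h1 := h.integral_comp' (g := fun x : (M → T) × (P ⊕ P → T) =>
    F (x.1, (fun u => x.2 (Sum.inl u), fun u => x.2 (Sum.inr u))))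
  have h2 : ∫ x : (M → T) × (P ⊕ P → T), F (x.1, (fun u => x.2 (Sum.inl u),
      fun u => x.2 (Sum.inr u))) ∂((haarV M).prod (haarV (P ⊕ P))) =
      ∫ m, ∫ r, F (m, (fun u => r (Sum.inl u), fun u => r (Sum.inr u))) ∂haarV (P ⊕ P)
        ∂haarV M := by
    refine integral_prod _ ?_
    refine Continuous.integrable_of_hasCompactSupport ?_ (HasCompactSupport.of_compactSpace _)
    fun_prop
  refine (h1.trans h2).trans ?_
  refine integral_congr_ae (Eventually.of_forall fun m => ?_)
  exact H556.integral_pair fun q => F (m, q)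

/-- even part of the observable -/
noncomputable def gc (l : ℝ) (x y : P) (p : P → T) : ℝ := l * ct (p x) + ct (p y)

/-- odd part of the observable -/
noncomputable def gs (l : ℝ) (x y : P) (p : P → T) : ℝ := l * st (p x) + st (p y)

theorem gc_cont (l : ℝ) (x y : P) : Continuous (gc l x y) := by
  unfold gc
  fun_prop

theorem gs_cont (l : ℝ) (x y : P) : Continuous (gs l x y) := by
  unfold gs
  fun_prop

theorem comb (l : ℝ) (a b c d : T) :
    l * l * ct (a - c) + l * (ct (a - d) + ct (b - c)) + ct (b - d) =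
      (l * ct a + ct b) * (l * ct c + ct d) + (l * st a + st b) * (l * st c + st d) := by
  rw [ct_sub, ct_sub, ct_sub, ct_sub]
  ring

/-- the integrand after conditioning -/
noncomputable def FF (L : M → M → ℝ) (K : P → M → ℝ) (J : P → P → ℝ) (x y : P) (l : ℝ)
    (z : (M → T) × ((P → T) × (P → T))) : ℝ :=
  (gc l x y z.2.1 * gc l x y z.2.2 + gs l x y z.2.1 * gs l x y z.2.2) *
    Real.exp (energy L z.1 + (eS K J z.1 z.2.1 + eS K J z.1 z.2.2))

theorem FF_cont (L : M → M → ℝ) (K : P → M → ℝ) (J : P → P → ℝ) (x y : P) (l : ℝ) :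
    Continuous (FF L K J x y l) := by
  have hL : Continuous fun z : (M → T) × ((P → T) × (P → T)) => energy L z.1 :=
    (continuous_energy L).comp continuous_fst
  have hc1 := eS_cont1 K J
  have hc2 := eS_cont2 K J
  have g1 : Continuous fun z : (M → T) × ((P → T) × (P → T)) => gc l x y z.2.1 :=
    (gc_cont l x y).comp continuous_snd.fst
  have g2 : Continuous fun z : (M → T) × ((P → T) × (P → T)) => gc l x y z.2.2 :=
    (gc_cont l x y).comp continuous_snd.snd
  have g3 : Continuous fun z : (M → T) × ((P → T) × (P → T)) => gs l x y z.2.1 :=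
    (gs_cont l x y).comp continuous_snd.fst
  have g4 : Continuous fun z : (M → T) × ((P → T) × (P → T)) => gs l x y z.2.2 :=
    (gs_cont l x y).comp continuous_snd.snd
  exact ((g1.mul g2).add (g3.mul g4)).mul (Real.continuous_exp.comp (hL.add (hc1.add hc2)))

theorem inner_nonneg (L : M → M → ℝ) (K : P → M → ℝ) (J : P → P → ℝ) (x y : P) (l : ℝ)
    (m : M → T) : 0 ≤ ∫ q, FF L K J x y l (m, q) ∂((haarV P).prod (haarV P)) := by
  have hm : Continuous fun p : P → T => Real.exp (eS K J m p) :=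
    Real.continuous_exp.comp (eS_contm K J m)
  set a : (P → T) → ℝ := fun p => gc l x y p * Real.exp (eS K J m p) with ha
  set c : (P → T) → ℝ := fun p => gs l x y p * Real.exp (eS K J m p) with hc
  have ca : Continuous a := (gc_cont l x y).mul hm
  have cc : Continuous c := (gs_cont l x y).mul hm
  have e2 : ∀ q : (P → T) × (P → T), FF L K J x y l (m, q) =
      Real.exp (energy L m) * (a q.1 * a q.2) + Real.exp (energy L m) * (c q.1 * c q.2) := by
    intro q
    unfold FF
    simp only [ha, hc]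
    rw [Real.exp_add, Real.exp_add]
    ring
  simp_rw [e2]
  have i1 : Integrable (fun q : (P → T) × (P → T) => Real.exp (energy L m) * (a q.1 * a q.2))
      ((haarV P).prod (haarV P)) :=
    integrable_of_continuous (continuous_const.mul ((ca.comp continuous_fst).mul
      (ca.comp continuous_snd)))
  have i2 : Integrable (fun q : (P → T) × (P → T) => Real.exp (energy L m) * (c q.1 * c q.2))
      ((haarV P).prod (haarV P)) :=
    integrable_of_continuous (continuous_const.mul ((cc.comp continuous_fst).mul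
      (cc.comp continuous_snd)))
  rw [integral_add i1 i2, integral_const_mul, integral_const_mul,
    integral_prod_mul (μ := haarV P) (ν := haarV P) a a,
    integral_prod_mul (μ := haarV P) (ν := haarV P) c c]
  have := Real.exp_pos (energy L m)
  exact add_nonneg (mul_nonneg this.le (mul_self_nonneg _)) (mul_nonneg this.le (mul_self_nonneg _))

/-- the basic positivity: a combination of the two observables -/
theorem un_pos (L : M → M → ℝ) (K : P → M → ℝ) (J : P → P → ℝ) (x y : P) (l : ℝ) :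
    0 ≤ un (JR L K J) (fun θ =>
      l * l * ct (θ (Sum.inr (Sum.inl x)) - θ (Sum.inr (Sum.inr x))) +
      l * (ct (θ (Sum.inr (Sum.inl x)) - θ (Sum.inr (Sum.inr y))) +
        ct (θ (Sum.inr (Sum.inl y)) - θ (Sum.inr (Sum.inr x)))) +
      ct (θ (Sum.inr (Sum.inl y)) - θ (Sum.inr (Sum.inr y)))) := by
  have h := integral_three (FF_cont L K J x y l)
  have h2 : 0 ≤ ∫ m, ∫ q, FF L K J x y l (m, q) ∂((haarV P).prod (haarV P)) ∂haarV M :=
    integral_nonneg fun m => inner_nonneg L K J x y l m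
  rw [← h] at h2
  refine h2.trans (le_of_eq ?_)
  unfold un
  refine integral_congr_ae (Eventually.of_forall fun θ => ?_)
  simp only
  rw [energy_JR, comb]
  rfl

/-- **Cauchy-Schwarz through a mirror of sites** -/
theorem corr_JR {L : M → M → ℝ} (hL : ∀ u v, 0 ≤ L u v) {K : P → M → ℝ} (hK : ∀ u v, 0 ≤ K u v)
    {J : P → P → ℝ} (hJ : ∀ u v, 0 ≤ J u v) (x y : P) :
    XY.corr (JR L K J) (Sum.inr (Sum.inl x)) (Sum.inr (Sum.inr y)) ^ 2 ≤
      XY.corr (JR L K J) (Sum.inr (Sum.inl x)) (Sum.inr (Sum.inr x)) *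
      XY.corr (JR L K J) (Sum.inr (Sum.inl y)) (Sum.inr (Sum.inr y)) := by
  have hJJ : ∀ u v, 0 ≤ JR L K J u v := by
    rintro (m | u | u) (n | v | v) <;> simp only [JR] <;>
      first | exact hL _ _ | exact hK _ _ | exact hJ _ _ | exact le_rfl
  have hsw : ∀ u v, JR L K J u v = JR L K J
      (Equiv.sumCongr (Equiv.refl M) (Equiv.sumComm P P) u)
      (Equiv.sumCongr (Equiv.refl M) (Equiv.sumComm P P) v) := by
    rintro (m | u | u) (n | v | v) <;> rfl
  have s1 := corr_equiv (Equiv.sumCongr (Equiv.refl M) (Equiv.sumComm P P)) hJJ hsw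
    (Sum.inr (Sum.inl y)) (Sum.inr (Sum.inr x))
  have s1' : XY.corr (JR L K J) (Sum.inr (Sum.inl y)) (Sum.inr (Sum.inr x)) =
      XY.corr (JR L K J) (Sum.inr (Sum.inl x)) (Sum.inr (Sum.inr y)) := by
    rw [s1]
    exact corr_comm _ _ _
  obtain ⟨a, ha⟩ : ∃ a, a = XY.corr (JR L K J) (Sum.inr (Sum.inl x)) (Sum.inr (Sum.inr x)) :=
    ⟨_, rfl⟩
  obtain ⟨c, hc⟩ : ∃ c, c = XY.corr (JR L K J) (Sum.inr (Sum.inl y)) (Sum.inr (Sum.inr y)) :=
    ⟨_, rfl⟩
  obtain ⟨d, hd⟩ : ∃ d, d = XY.corr (JR L K J) (Sum.inr (Sum.inl x)) (Sum.inr (Sum.inr y)) :=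
    ⟨_, rfl⟩
  have key : ∀ l : ℝ, 0 ≤ a * (l * l) + 2 * d * l + c := by
    intro l
    have h1 : 0 ≤ ev (JR L K J) (fun θ =>
      l * l * ct (θ (Sum.inr (Sum.inl x)) - θ (Sum.inr (Sum.inr x))) +
      l * (ct (θ (Sum.inr (Sum.inl x)) - θ (Sum.inr (Sum.inr y))) +
        ct (θ (Sum.inr (Sum.inl y)) - θ (Sum.inr (Sum.inr x)))) +
      ct (θ (Sum.inr (Sum.inl y)) - θ (Sum.inr (Sum.inr y)))) :=
      div_nonneg (un_pos L K J x y l) (part_pos _).le
    rw [ev_add _ (by fun_prop) (by fun_prop), ev_add _ (by fun_prop) (by fun_prop),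
      ev_const_mul, ev_const_mul, ev_add _ (by fun_prop) (by fun_prop)] at h1
    have h2 : 0 ≤ l * l * XY.corr (JR L K J) (Sum.inr (Sum.inl x)) (Sum.inr (Sum.inr x)) +
      l * (XY.corr (JR L K J) (Sum.inr (Sum.inl x)) (Sum.inr (Sum.inr y)) +
        XY.corr (JR L K J) (Sum.inr (Sum.inl y)) (Sum.inr (Sum.inr x))) +
      XY.corr (JR L K J) (Sum.inr (Sum.inl y)) (Sum.inr (Sum.inr y)) := h1
    rw [s1', ← ha, ← hc, ← hd] at h2
    linarith
  have h3 := discrim_le_zero key
  unfold discrim at h3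
  rw [← ha, ← hc, ← hd]
  linarith

end mir

end Vale.Agent.P159.H686.RP
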