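import Vale.Agent.P159.H686.Rp2
import Vale.Agent.P159.H253.Rec2

/-!
P159 / H686, module RP, part 3: the price bound `RecAt` at the scale `R` propagates to all scales
`R ≤ R' ≤ A R`, and bounds the two-point function from below in every direction up to the distance
`A R` (log-convexity on the axis).
-/

open MeasureTheory Filter Topology
open scoped BigOperators

set_option linter.unusedSectionVars false

namespace Vale.Agent.P159.H686.RP

open Vale.Agent.P159 Vale.Agent.P159.XY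
open Vale.Agent.P159.H253.Rec (ga ua RecAt ga_anti ua_anti ga_nonneg ua_nonneg ga_le_ua)

variable {b α C0 : ℝ}

lemma ga_logconv (hb : 0 ≤ b) (m n : ℕ) : ga b (m + n) ^ 2 ≤ ga b (2 * m) * ga b (2 * n) :=
  C_logconv hb m n

/-- one step of an arithmetic progression -/
lemma ga_step (hb : 0 < b) {Q : ℝ} {i d : ℕ} (h : ga b (2 * i) ≤ Q * ga b (2 * (i + d))) :
    ga b (2 * (i + d)) ≤ Q * ga b (2 * (i + d + d)) := by
  have hp : ∀ n, 0 < ga b n := fun n => XY.C_axis_pos hb n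
  have h1 := ga_logconv hb.le i (i + d + d)
  have e : i + (i + d + d) = 2 * (i + d) := by ring
  rw [e] at h1
  have h2 : ga b (2 * (i + d)) ^ 2 ≤ Q * ga b (2 * (i + d)) * ga b (2 * (i + d + d)) :=
    h1.trans (mul_le_mul_of_nonneg_right h (hp _).le)
  have h3 : ga b (2 * (i + d)) * ga b (2 * (i + d)) ≤
      (Q * ga b (2 * (i + d + d))) * ga b (2 * (i + d)) := by
    calc ga b (2 * (i + d)) * ga b (2 * (i + d)) = ga b (2 * (i + d)) ^ 2 := by ring
      _ ≤ _ := h2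
      _ = _ := by ring
  exact le_of_mul_le_mul_right h3 (hp _)

lemma ga_prog (hb : 0 < b) {Q : ℝ} (hQ : 0 ≤ Q) {i d : ℕ}
    (h : ga b (2 * i) ≤ Q * ga b (2 * (i + d))) (k : ℕ) :
    ga b (2 * (i + k * d)) ≤ Q * ga b (2 * (i + k * d + d)) ∧
      ga b (2 * i) ≤ Q ^ (k + 1) * ga b (2 * (i + k * d + d)) := by
  induction k with
  | zero =>
    simp only [Nat.zero_mul, Nat.add_zero, zero_add, pow_one]
    exact ⟨h, h⟩
  | succ k ih =>
    have h1 := ga_step hb ih.1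
    have e : i + (k + 1) * d = i + k * d + d := by ring
    rw [e]
    refine ⟨h1, ?_⟩
    calc ga b (2 * i) ≤ Q ^ (k + 1) * ga b (2 * (i + k * d + d)) := ih.2
      _ ≤ Q ^ (k + 1) * (Q * ga b (2 * (i + k * d + d + d))) :=
          mul_le_mul_of_nonneg_left h1 (by positivity)
      _ = _ := by ring

/-- **lower bound beyond the scale** -/
theorem ga_up (hb : 0 < b) (hα0 : 0 ≤ α) (hα1 : α ≤ 1) (hC0 : 1 ≤ C0) {R : ℕ} (hR : 16 ≤ R)
    (h : RecAt b α C0 R) (A : ℕ) {R' : ℕ} (hR' : R' ≤ A * R) :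
    ga b R ≤ (4 * C0) ^ (8 * A + 2) * ga b R' := by
  have hp : ∀ n, 0 < ga b n := fun n => XY.C_axis_pos hb n
  obtain ⟨d, hd⟩ : ∃ d, d = R / 8 := ⟨_, rfl⟩
  obtain ⟨j, hj⟩ : ∃ j, j = R / 2 := ⟨_, rfl⟩
  obtain ⟨i, hi⟩ : ∃ i, i = j - d := ⟨_, rfl⟩
  have hid : i + d = j := by omega
  have hQ1 : (1 : ℝ) ≤ 4 * C0 := by linarith
  -- the base of the progression
  have hs1 : 1 ≤ i - 1 := by omega
  have hsR : i - 1 ≤ R := by omega
  have h1 : ga b (2 * i) ≤ ua b (i - 1) := ga_le_ua hb.le _ _ (by omega)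
  have h2 := h.2 (i - 1) hs1 hsR
  have hs0 : (0 : ℝ) < ((i - 1 : ℕ) : ℝ) := by exact_mod_cast hs1
  have h3 : (R : ℝ) / ((i - 1 : ℕ) : ℝ) ≤ 4 := by
    rw [div_le_iff₀ hs0]
    have : R ≤ 4 * (i - 1) := by omega
    exact_mod_cast this
  have h4 : ((R : ℝ) / ((i - 1 : ℕ) : ℝ)) ^ α ≤ 4 := by
    calc ((R : ℝ) / ((i - 1 : ℕ) : ℝ)) ^ α ≤ 4 ^ α :=
          Real.rpow_le_rpow (by positivity) h3 hα0
      _ ≤ 4 ^ (1 : ℝ) := Real.rpow_le_rpow_of_exponent_le (by norm_num) hα1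
      _ = 4 := Real.rpow_one 4
  have h5 : ga b (2 * i) ≤ 4 * C0 * ga b R := by
    refine h1.trans (h2.trans ?_)
    have := mul_le_mul_of_nonneg_left h4 (by linarith : (0 : ℝ) ≤ C0)
    exact mul_le_mul_of_nonneg_right (by linarith) (hp R).le
  have h6 : ga b R ≤ ga b (2 * (i + d)) := ga_anti hb.le (by omega)
  have h7 : ga b (2 * i) ≤ 4 * C0 * ga b (2 * (i + d)) :=
    h5.trans (mul_le_mul_of_nonneg_left h6 (by linarith))
  have h8 := (ga_prog hb (by linarith) h7 (8 * A)).2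
  have h9 : ga b R ≤ ga b (2 * i) := ga_anti hb.le (by omega)
  have h10 : ga b (2 * (i + 8 * A * d + d)) ≤ ga b R' := by
    refine ga_anti hb.le (hR'.trans ?_)
    have h11 : R ≤ 16 * d := by omega
    calc A * R ≤ A * (16 * d) := Nat.mul_le_mul_left _ h11
      _ = 2 * (8 * A * d) := by ring
      _ ≤ 2 * (i + 8 * A * d + d) := by omega
  calc ga b R ≤ ga b (2 * i) := h9
    _ ≤ (4 * C0) ^ (8 * A + 1) * ga b (2 * (i + 8 * A * d + d)) := h8
    _ ≤ (4 * C0) ^ (8 * A + 1) * ga b R' := mul_le_mul_of_nonneg_left h10 (by positivity)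
    _ ≤ (4 * C0) ^ (8 * A + 2) * ga b R' := by
        refine mul_le_mul_of_nonneg_right ?_ (hp R').le
        exact pow_le_pow_right₀ hQ1 (by omega)

/-- **the price bound propagates upwards** -/
theorem _root_.Vale.Agent.P159.H253.Rec.RecAt.up (hb : 0 < b) (hα0 : 0 ≤ α) (hα1 : α ≤ 1)
    (hC0 : 1 ≤ C0) {R : ℕ} (hR : 16 ≤ R) (h : RecAt b α C0 R) (A : ℕ) {R' : ℕ} (h1 : R ≤ R')
    (hR' : R' ≤ A * R) : RecAt b α (C0 * (4 * C0) ^ (8 * A + 2)) R' := by
  have hp : ∀ n, 0 < ga b n := fun n => XY.C_axis_pos hb n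
  have hu := ga_up hb hα0 hα1 hC0 hR h A hR'
  have hR0 : (0 : ℝ) < R := by
    have : 0 < R := by omega
    exact_mod_cast this
  have hRR : (R : ℝ) ≤ R' := by exact_mod_cast h1
  have hC : (0 : ℝ) ≤ C0 := by linarith
  refine ⟨hp _, fun s hs hsR => ?_⟩
  have hs0 : (0 : ℝ) < s := by exact_mod_cast hs
  rcases le_total s R with h2 | h2
  · have h3 := h.2 s hs h2
    calc ua b s ≤ C0 * ((R : ℝ) / s) ^ α * ga b R := h3
      _ ≤ C0 * ((R' : ℝ) / s) ^ α * ((4 * C0) ^ (8 * A + 2) * ga b R') := by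
          refine mul_le_mul (mul_le_mul_of_nonneg_left (Real.rpow_le_rpow (by positivity)
            (div_le_div_of_nonneg_right hRR hs0.le) hα0) hC) hu (hp R).le (by positivity)
      _ = _ := by ring
  · have h3 := h.2 R (by omega) le_rfl
    rw [div_self hR0.ne', Real.one_rpow, mul_one] at h3
    have h4 : ua b s ≤ ua b R := ua_anti hb.le h2
    have h5 : (1 : ℝ) ≤ ((R' : ℝ) / s) ^ α := by
      refine Real.one_le_rpow ?_ hα0
      rw [le_div_iff₀ hs0, one_mul]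
      exact_mod_cast hsR
    calc ua b s ≤ C0 * ga b R := h4.trans h3
      _ ≤ C0 * ((4 * C0) ^ (8 * A + 2) * ga b R') := mul_le_mul_of_nonneg_left hu hC
      _ = C0 * 1 * ((4 * C0) ^ (8 * A + 2) * ga b R') := by ring
      _ ≤ C0 * ((R' : ℝ) / s) ^ α * ((4 * C0) ^ (8 * A + 2) * ga b R') := by
          refine mul_le_mul_of_nonneg_right (mul_le_mul_of_nonneg_left h5 hC) ?_
          have := hp R'
          positivity
      _ = _ := by ring

/-- **lower bound of the two-point function in every direction** -/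
theorem far_low (hb : 0 < b) (hα0 : 0 ≤ α) (hα1 : α ≤ 1) (hC0 : 1 ≤ C0) {R : ℕ} (hR : 16 ≤ R)
    (h : RecAt b α C0 R) (A : ℕ) {x : ℤ × ℤ} (hx : nm x ≤ A * R) :
    ga b R ≤ (4 * C0) ^ (16 * A + 2) * XY.C b x := by
  have h1 := ga_up hb hα0 hα1 hC0 hR h (2 * A) (R' := 2 * nm x) (by
    rw [mul_assoc]
    exact Nat.mul_le_mul_left 2 hx)
  have h2 : ga b (2 * nm x) ≤ XY.C b x := C_ge_axis hb.le x
  have e : 8 * (2 * A) + 2 = 16 * A + 2 := by ring
  rw [e] at h1
  exact h1.trans (mul_le_mul_of_nonneg_left h2 (by positivity))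

/-- **upper bound of the two-point function in every direction** -/
theorem far_high (hb : 0 < b) (hα0 : 0 ≤ α) (hα1 : α ≤ 1) (hC0 : 1 ≤ C0) {R : ℕ}
    (h : RecAt b α C0 R) {B : ℝ} {x : ℤ × ℤ} (hx : 4 ≤ nm x)
    (hB : (R : ℝ) ≤ B * nm x) : XY.C b x ≤ C0 * (6 * B + 1) * ga b R := by
  have hp : 0 < ga b R := XY.C_axis_pos hb R
  have hn0 : (0 : ℝ) < nm x := by
    have : 0 < nm x := by omega
    exact_mod_cast this
  have hB0 : 0 ≤ B := by
    by_contra hc
    have h1 : B * (nm x : ℝ) < 0 := mul_neg_of_neg_of_pos (not_le.1 hc) hn0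
    have h2 : (0 : ℝ) ≤ R := Nat.cast_nonneg _
    linarith
  have h1 : XY.C b x ≤ ga b (nm x) := H556.mms hb.le x
  obtain ⟨s, hs⟩ : ∃ s, s = nm x / 2 - 1 := ⟨_, rfl⟩
  have hs1 : 1 ≤ s := by omega
  have h2 : ga b (nm x) ≤ ua b s := ga_le_ua hb.le _ _ (by omega)
  rcases le_total s R with h3 | h3
  · have h4 := h.2 s hs1 h3
    have hs0 : (0 : ℝ) < s := by exact_mod_cast hs1
    have h5 : (R : ℝ) / s ≤ 6 * B := by
      rw [div_le_iff₀ hs0]
      have h6 : (nm x : ℝ) ≤ 6 * s := by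
        have : nm x ≤ 6 * s := by omega
        exact_mod_cast this
      nlinarith [mul_le_mul_of_nonneg_left h6 hB0]
    have h7 : ((R : ℝ) / s) ^ α ≤ 6 * B + 1 := by
      have h8 : (0 : ℝ) ≤ (R : ℝ) / s := by positivity
      rcases le_total ((R : ℝ) / s) 1 with h9 | h9
      · exact (Real.rpow_le_one h8 h9 hα0).trans (by linarith)
      · calc ((R : ℝ) / s) ^ α ≤ ((R : ℝ) / s) ^ (1 : ℝ) :=
              Real.rpow_le_rpow_of_exponent_le h9 hα1
          _ = (R : ℝ) / s := Real.rpow_one _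
          _ ≤ 6 * B + 1 := by linarith
    refine h1.trans (h2.trans (h4.trans ?_))
    exact mul_le_mul_of_nonneg_right (mul_le_mul_of_nonneg_left h7 (by linarith)) hp.le
  · rcases Nat.eq_zero_or_pos R with h5 | h5
    · subst h5
      have h6 : XY.C b x ≤ 1 := C_le_one b x
      have h7 : ga b 0 = 1 := C_zero b
      rw [h7]
      nlinarith
    · have h6 := h.2 R h5 le_rfl
      have hR0 : (0 : ℝ) < R := by exact_mod_cast h5
      rw [div_self hR0.ne', Real.one_rpow, mul_one] at h6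
      have h7 : ua b s ≤ ua b R := ua_anti hb.le h3
      refine h1.trans (h2.trans (h7.trans (h6.trans ?_)))
      refine mul_le_mul_of_nonneg_right ?_ hp.le
      nlinarith

end Vale.Agent.P159.H686.RP
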