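import Vale.Agent.P159.H363.NL

/-!
P159 / H686: SWIN, part A. Weighted `L²` norms and the tilted conditional expectation
`E_W ψ (a) = ∫ W(a,g) ψ(a,g) / ∫ W(a,g)` on a product of probability spaces, `W ≥ 1`.
-/

namespace Vale.Agent.P159.H686

open MeasureTheory
open Vale.Agent.P159.H552 (int_cs)
open Vale.Agent.P159.H363 (one_le_intW nl1)

section wn

variable {Ω : Type*} [MeasurableSpace Ω]

/-- weighted `L²` norm -/
noncomputable def wn (μ : Measure Ω) (w u : Ω → ℝ) : ℝ := √(∫ x, w x * u x ^ 2 ∂μ)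

/-- finite weighted `L²` norm -/
structure InL (μ : Measure Ω) (w u : Ω → ℝ) : Prop where
  meas : AEStronglyMeasurable u μ
  int : Integrable (fun x => w x * u x ^ 2) μ

variable {μ : Measure Ω} {w u v : Ω → ℝ}

lemma wn_nonneg : 0 ≤ wn μ w u := Real.sqrt_nonneg _

lemma wn_sq (hw : ∀ x, 0 ≤ w x) : wn μ w u ^ 2 = ∫ x, w x * u x ^ 2 ∂μ :=
  Real.sq_sqrt (integral_nonneg fun x => mul_nonneg (hw x) (sq_nonneg _))

lemma InL.mul_int (hw : ∀ x, 0 ≤ w x) (hwm : AEStronglyMeasurable w μ) (hu : InL μ w u)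
    (hv : InL μ w v) : Integrable (fun x => w x * (u x * v x)) μ := by
  refine (hu.int.add hv.int).mono' (hwm.mul (hu.meas.mul hv.meas))
    (Filter.Eventually.of_forall fun x => ?_)
  rw [Real.norm_eq_abs, abs_mul, abs_of_nonneg (hw x), abs_mul, Pi.add_apply]
  have h1 : |u x| * |v x| ≤ u x ^ 2 + v x ^ 2 := by
    rw [← sq_abs (u x), ← sq_abs (v x)]
    nlinarith [sq_nonneg (|u x| - |v x|), sq_nonneg (|u x|), sq_nonneg (|v x|)]
  have := mul_le_mul_of_nonneg_left h1 (hw x)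
  linarith

lemma InL.add (hw : ∀ x, 0 ≤ w x) (hwm : AEStronglyMeasurable w μ) (hu : InL μ w u)
    (hv : InL μ w v) : InL μ w (fun x => u x + v x) := by
  refine ⟨hu.meas.add hv.meas, ?_⟩
  have e : (fun x => w x * (u x + v x) ^ 2)
      = fun x => w x * u x ^ 2 + 2 * (w x * (u x * v x)) + w x * v x ^ 2 := by
    funext x
    ring
  rw [e]
  exact (hu.int.add ((hu.mul_int hw hwm hv).const_mul 2)).add hv.int

lemma InL.neg (hu : InL μ w u) : InL μ w (fun x => -u x) :=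
  ⟨hu.meas.neg, by simpa using hu.int⟩

lemma wn_neg : wn μ w (fun x => -u x) = wn μ w u := by
  unfold wn
  simp

lemma InL.sub (hw : ∀ x, 0 ≤ w x) (hwm : AEStronglyMeasurable w μ) (hu : InL μ w u)
    (hv : InL μ w v) : InL μ w (fun x => u x - v x) := by
  have := hu.add hw hwm hv.neg
  simpa [sub_eq_add_neg] using this

lemma InL.const (hwi : Integrable w μ) (c : ℝ) : InL μ w (fun _ => c) :=
  ⟨aestronglyMeasurable_const, hwi.mul_const _⟩

/-- weighted Cauchy-Schwarz -/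
lemma wcs (hw : ∀ x, 0 ≤ w x) (hwm : AEStronglyMeasurable w μ) (hu : InL μ w u)
    (hv : InL μ w v) : (∫ x, w x * (u x * v x) ∂μ) ^ 2
      ≤ (∫ x, w x * u x ^ 2 ∂μ) * ∫ x, w x * v x ^ 2 ∂μ := by
  have e1 : ∀ x, (√(w x) * u x) ^ 2 = w x * u x ^ 2 := fun x => by
    rw [mul_pow, Real.sq_sqrt (hw x)]
  have e2 : ∀ x, (√(w x) * v x) ^ 2 = w x * v x ^ 2 := fun x => by
    rw [mul_pow, Real.sq_sqrt (hw x)]
  have e3 : ∀ x, (√(w x) * u x) * (√(w x) * v x) = w x * (u x * v x) := fun x => by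
    have := Real.mul_self_sqrt (hw x)
    calc (√(w x) * u x) * (√(w x) * v x) = (√(w x) * √(w x)) * (u x * v x) := by ring
      _ = _ := by rw [this]
  have h := int_cs (m := μ) (u := fun x => √(w x) * u x) (v := fun x => √(w x) * v x)
    (by simp only [e1]; exact hu.int) (by simp only [e2]; exact hv.int)
    (by simp only [e3]; exact hu.mul_int hw hwm hv)
  simpa only [e1, e2, e3] using h

lemma wcs' (hw : ∀ x, 0 ≤ w x) (hwm : AEStronglyMeasurable w μ) (hu : InL μ w u)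
    (hv : InL μ w v) : |∫ x, w x * (u x * v x) ∂μ| ≤ wn μ w u * wn μ w v := by
  refine abs_le_of_sq_le_sq ?_ (mul_nonneg wn_nonneg wn_nonneg)
  rw [mul_pow, wn_sq hw, wn_sq hw]
  exact wcs hw hwm hu hv

/-- triangle inequality -/
lemma wn_add_le (hw : ∀ x, 0 ≤ w x) (hwm : AEStronglyMeasurable w μ) (hu : InL μ w u)
    (hv : InL μ w v) : wn μ w (fun x => u x + v x) ≤ wn μ w u + wn μ w v := by
  have hc := (le_abs_self _).trans (wcs' hw hwm hu hv)
  have e : ∫ x, w x * (u x + v x) ^ 2 ∂μ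
      = ∫ x, w x * u x ^ 2 ∂μ + 2 * ∫ x, w x * (u x * v x) ∂μ + ∫ x, w x * v x ^ 2 ∂μ := by
    have e0 : ∀ x, w x * (u x + v x) ^ 2
        = w x * u x ^ 2 + 2 * (w x * (u x * v x)) + w x * v x ^ 2 := fun x => by ring
    simp only [e0]
    have i1 : Integrable (fun x => w x * u x ^ 2 + 2 * (w x * (u x * v x))) μ :=
      hu.int.add ((hu.mul_int hw hwm hv).const_mul 2)
    rw [integral_add i1 hv.int, integral_add hu.int ((hu.mul_int hw hwm hv).const_mul 2),
      integral_const_mul]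
  unfold wn
  apply Real.sqrt_le_iff.2
  refine ⟨add_nonneg (Real.sqrt_nonneg _) (Real.sqrt_nonneg _), ?_⟩
  have h1 := wn_sq (μ := μ) (u := u) hw
  have h2 := wn_sq (μ := μ) (u := v) hw
  unfold wn at h1 h2 hc
  rw [e]
  nlinarith

lemma wn_sub_le (hw : ∀ x, 0 ≤ w x) (hwm : AEStronglyMeasurable w μ) (hu : InL μ w u)
    (hv : InL μ w v) : wn μ w (fun x => u x - v x) ≤ wn μ w u + wn μ w v := by
  have h := wn_add_le hw hwm hu hv.neg
  rw [wn_neg] at h
  simpa [sub_eq_add_neg] using h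

lemma wn_mono (hw : ∀ x, 0 ≤ w x) (hwm : AEStronglyMeasurable w μ)
    (hu : AEStronglyMeasurable u μ) (hv : InL μ w v) (h : ∀ᵐ x ∂μ, |u x| ≤ |v x|) :
    InL μ w u ∧ wn μ w u ≤ wn μ w v := by
  have hp : ∀ᵐ x ∂μ, w x * u x ^ 2 ≤ w x * v x ^ 2 := by
    filter_upwards [h] with x hx
    refine mul_le_mul_of_nonneg_left ?_ (hw x)
    rw [← sq_abs (u x), ← sq_abs (v x)]
    exact pow_le_pow_left₀ (abs_nonneg _) hx 2
  have hI : Integrable (fun x => w x * u x ^ 2) μ := by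
    refine hv.int.mono' (hwm.mul (hu.pow 2)) ?_
    filter_upwards [hp] with x hx
    rw [Real.norm_eq_abs, abs_of_nonneg (mul_nonneg (hw x) (sq_nonneg _))]
    exact hx
  exact ⟨⟨hu, hI⟩, Real.sqrt_le_sqrt (integral_mono_ae hI hv.int hp)⟩

/-- norm of a constant -/
lemma wn_const (c : ℝ) : wn μ w (fun _ => c) = |c| * √(∫ x, w x ∂μ) := by
  unfold wn
  rw [integral_mul_const, mul_comm, Real.sqrt_mul (sq_nonneg c), Real.sqrt_sq_eq_abs]

/-- centring: removing the mean decreases the norm -/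
lemma wn_center_le (hw : ∀ x, 0 ≤ w x) (hwm : AEStronglyMeasurable w μ) (hwi : Integrable w μ)
    (hu : InL μ w u) (c : ℝ) {q : ℝ} (hq0 : 0 ≤ q) (hq : |∫ x, w x * u x ∂μ| ≤ q * ∫ x, w x ∂μ) :
    wn μ w u ≤ wn μ w (fun x => u x - c) + q * √(∫ x, w x ∂μ) := by
  set Z := ∫ x, w x ∂μ with hZ
  have hZ0 : 0 ≤ Z := integral_nonneg hw
  have i1 : Integrable (fun x => w x * u x) μ := by
    have := hu.mul_int hw hwm (InL.const hwi 1)
    simpa using this
  have e : ∫ x, w x * (u x - c) ^ 2 ∂μ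
      = ∫ x, w x * u x ^ 2 ∂μ - 2 * c * ∫ x, w x * u x ∂μ + c ^ 2 * Z := by
    have e0 : ∀ x, w x * (u x - c) ^ 2
        = w x * u x ^ 2 - 2 * c * (w x * u x) + c ^ 2 * w x := fun x => by ring
    simp only [e0]
    have i2 : Integrable (fun x => w x * u x ^ 2 - 2 * c * (w x * u x)) μ :=
      hu.int.sub (i1.const_mul _)
    rw [integral_add i2 (hwi.const_mul _), integral_sub hu.int (i1.const_mul _),
      integral_const_mul, integral_const_mul]
  set S := ∫ x, w x * (u x - c) ^ 2 ∂μ with hS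
  set m := ∫ x, w x * u x ∂μ with hm
  have hS0 : 0 ≤ S := integral_nonneg fun x => mul_nonneg (hw x) (sq_nonneg _)
  have h1 : ∫ x, w x * u x ^ 2 ∂μ ≤ S + q ^ 2 * Z := by
    have : ∫ x, w x * u x ^ 2 ∂μ = S + 2 * c * m - c ^ 2 * Z := by linarith
    rw [this]
    rcases hZ0.eq_or_lt with h0 | hpos
    · rw [← h0] at hq ⊢
      have : m = 0 := by
        have := abs_nonneg m
        exact abs_eq_zero.1 (le_antisymm (by simpa using hq) this)
      rw [this]
      simp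
    · have h2 : m ^ 2 ≤ (q * Z) ^ 2 := by
        rw [← sq_abs m]
        exact pow_le_pow_left₀ (abs_nonneg _) hq 2
      have h3 : 2 * c * m - c ^ 2 * Z ≤ m ^ 2 / Z := by
        rw [le_div_iff₀ hpos]
        nlinarith [sq_nonneg (c * Z - m)]
      have h4 : m ^ 2 / Z ≤ q ^ 2 * Z := by
        rw [div_le_iff₀ hpos]
        calc m ^ 2 ≤ (q * Z) ^ 2 := h2
          _ = q ^ 2 * Z * Z := by ring
      linarith
  unfold wn
  rw [← hS]
  calc √(∫ x, w x * u x ^ 2 ∂μ) ≤ √(S + q ^ 2 * Z) := Real.sqrt_le_sqrt h1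
    _ ≤ √S + √(q ^ 2 * Z) := by
        apply Real.sqrt_le_iff.2
        refine ⟨add_nonneg (Real.sqrt_nonneg _) (Real.sqrt_nonneg _), ?_⟩
        have a1 := Real.sq_sqrt hS0
        have a2 := Real.sq_sqrt (by positivity : 0 ≤ q ^ 2 * Z)
        nlinarith [Real.sqrt_nonneg S, Real.sqrt_nonneg (q ^ 2 * Z)]
    _ = √S + q * √Z := by
        rw [Real.sqrt_mul (sq_nonneg q), Real.sqrt_sq hq0]

end wn

end Vale.Agent.P159.H686
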