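import Vale.Agent.P159.H686.SwinA

/-!
P159 / H686: SWIN, part B. The tilted conditional expectation on a product of probability spaces:
contraction in the exact norms, comparison with the untilted expectation on bounded functions.
-/

namespace Vale.Agent.P159.H686

open MeasureTheory
open Vale.Agent.P159.H552 (int_cs)
open Vale.Agent.P159.H363 (one_le_intW nl1)

variable {Ω₁ Ω₂ : Type*} [MeasurableSpace Ω₁] [MeasurableSpace Ω₂]

/-- marginal weight -/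
noncomputable def mg (μ₂ : Measure Ω₂) (W : Ω₁ × Ω₂ → ℝ) (a : Ω₁) : ℝ := ∫ g, W (a, g) ∂μ₂

/-- tilted conditional expectation -/
noncomputable def tl (μ₂ : Measure Ω₂) (W ψ : Ω₁ × Ω₂ → ℝ) (a : Ω₁) : ℝ :=
  (∫ g, W (a, g) * ψ (a, g) ∂μ₂) / mg μ₂ W a

/-- untilted conditional expectation -/
noncomputable def pu (μ₂ : Measure Ω₂) (ψ : Ω₁ × Ω₂ → ℝ) (a : Ω₁) : ℝ := ∫ g, ψ (a, g) ∂μ₂

variable {μ₁ : Measure Ω₁} {μ₂ : Measure Ω₂} [IsProbabilityMeasure μ₁] [IsProbabilityMeasure μ₂]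
  {W ψ φ : Ω₁ × Ω₂ → ℝ}

lemma mg_nonneg (hW : ∀ p, 0 ≤ W p) (a : Ω₁) : 0 ≤ mg μ₂ W a := integral_nonneg fun _ => hW _

lemma mg_ge_one (hW1 : ∀ p, 1 ≤ W p) (hWi : Integrable W (μ₁.prod μ₂)) :
    ∀ᵐ a ∂μ₁, 1 ≤ mg μ₂ W a := by
  filter_upwards [hWi.prod_right_ae] with a ha
  exact one_le_intW (fun g => hW1 (a, g)) ha

lemma mg_int (hWi : Integrable W (μ₁.prod μ₂)) : Integrable (mg μ₂ W) μ₁ :=
  hWi.integral_prod_left

lemma int_mg (hWi : Integrable W (μ₁.prod μ₂)) :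
    ∫ a, mg μ₂ W a ∂μ₁ = ∫ p, W p ∂(μ₁.prod μ₂) := (integral_prod _ hWi).symm

lemma mg_meas (hWi : Integrable W (μ₁.prod μ₂)) : AEStronglyMeasurable (mg μ₂ W) μ₁ :=
  (mg_int hWi).1

lemma tl_meas (hWi : Integrable W (μ₁.prod μ₂)) (hψ : AEStronglyMeasurable ψ (μ₁.prod μ₂)) :
    AEStronglyMeasurable (tl μ₂ W ψ) μ₁ := by
  have h1 : AEStronglyMeasurable (fun a => ∫ g, W (a, g) * ψ (a, g) ∂μ₂) μ₁ :=
    AEStronglyMeasurable.integral_prod_right' (hWi.1.mul hψ)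
  exact (h1.aemeasurable.div (mg_meas hWi).aemeasurable).aestronglyMeasurable

/-- the tilted expectation is a contraction in the exact `L²` norms -/
lemma tl_L2 (hW1 : ∀ p, 1 ≤ W p) (hWi : Integrable W (μ₁.prod μ₂))
    (hψ : InL (μ₁.prod μ₂) W ψ) :
    InL μ₁ (mg μ₂ W) (tl μ₂ W ψ) ∧ wn μ₁ (mg μ₂ W) (tl μ₂ W ψ) ≤ wn (μ₁.prod μ₂) W ψ := by
  have hW0 : ∀ p, 0 ≤ W p := fun p => by linarith [hW1 p]
  have i1 : Integrable (fun p => W p * (ψ p * 1)) (μ₁.prod μ₂) :=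
    hψ.mul_int hW0 hWi.1 (InL.const hWi 1)
  simp only [mul_one] at i1
  have hpt : ∀ᵐ a ∂μ₁, mg μ₂ W a * tl μ₂ W ψ a ^ 2 ≤ ∫ g, W (a, g) * ψ (a, g) ^ 2 ∂μ₂ := by
    filter_upwards [mg_ge_one hW1 hWi, hψ.int.prod_right_ae, hWi.prod_right_ae,
      i1.prod_right_ae] with a h1 h2 h3 h4
    have hm : 0 < mg μ₂ W a := by linarith
    have ea : ∀ g, (√(W (a, g)) * ψ (a, g)) ^ 2 = W (a, g) * ψ (a, g) ^ 2 := fun g => by
      rw [mul_pow, Real.sq_sqrt (hW0 _)]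
    have eb : ∀ g, √(W (a, g)) ^ 2 = W (a, g) := fun g => Real.sq_sqrt (hW0 _)
    have ec : ∀ g, (√(W (a, g)) * ψ (a, g)) * √(W (a, g)) = W (a, g) * ψ (a, g) := fun g => by
      have := Real.mul_self_sqrt (hW0 (a, g))
      calc _ = (√(W (a, g)) * √(W (a, g))) * ψ (a, g) := by ring
        _ = _ := by rw [this]
    have h := int_cs (m := μ₂) (u := fun g => √(W (a, g)) * ψ (a, g)) (v := fun g => √(W (a, g)))
      (by simp only [ea]; exact h2) (by simp only [eb]; exact h3) (by simp only [ec]; exact h4)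
    simp only [ea, eb, ec] at h
    have e : mg μ₂ W a * tl μ₂ W ψ a ^ 2
        = (∫ g, W (a, g) * ψ (a, g) ∂μ₂) ^ 2 / mg μ₂ W a := by
      unfold tl
      field_simp
    rw [e, div_le_iff₀ hm]
    exact h
  have hr : Integrable (fun a => ∫ g, W (a, g) * ψ (a, g) ^ 2 ∂μ₂) μ₁ :=
    hψ.int.integral_prod_left
  have hmeas := tl_meas hWi hψ.meas
  have hI : Integrable (fun a => mg μ₂ W a * tl μ₂ W ψ a ^ 2) μ₁ := by
    refine hr.mono' ((mg_meas hWi).mul (hmeas.pow 2)) ?_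
    filter_upwards [hpt] with a ha
    rw [Real.norm_eq_abs, abs_of_nonneg (mul_nonneg (mg_nonneg hW0 a) (sq_nonneg _))]
    exact ha
  refine ⟨⟨hmeas, hI⟩, ?_⟩
  unfold wn
  apply Real.sqrt_le_sqrt
  refine (integral_mono_ae hI hr hpt).trans (le_of_eq ?_)
  exact (integral_prod _ hψ.int).symm

/-- contraction in `L¹` -/
lemma tl_L1 (hW1 : ∀ p, 1 ≤ W p) (hWi : Integrable W (μ₁.prod μ₂))
    (hψm : AEStronglyMeasurable ψ (μ₁.prod μ₂))
    (hψ : Integrable (fun p => W p * |ψ p|) (μ₁.prod μ₂)) :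
    Integrable (fun a => mg μ₂ W a * |tl μ₂ W ψ a|) μ₁ ∧
      ∫ a, mg μ₂ W a * |tl μ₂ W ψ a| ∂μ₁ ≤ ∫ p, W p * |ψ p| ∂(μ₁.prod μ₂) := by
  have hW0 : ∀ p, 0 ≤ W p := fun p => by linarith [hW1 p]
  have hpt : ∀ᵐ a ∂μ₁, mg μ₂ W a * |tl μ₂ W ψ a| ≤ ∫ g, W (a, g) * |ψ (a, g)| ∂μ₂ := by
    filter_upwards [mg_ge_one hW1 hWi] with a h1
    have hm : 0 < mg μ₂ W a := by linarith
    unfold tl
    rw [abs_div, abs_of_pos hm, mul_div_cancel₀ _ hm.ne']
    refine (abs_integral_le_integral_abs).trans (le_of_eq ?_)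
    refine integral_congr_ae (Filter.Eventually.of_forall fun g => ?_)
    simp only
    rw [abs_mul, abs_of_nonneg (hW0 _)]
  have hr : Integrable (fun a => ∫ g, W (a, g) * |ψ (a, g)| ∂μ₂) μ₁ := hψ.integral_prod_left
  have hI : Integrable (fun a => mg μ₂ W a * |tl μ₂ W ψ a|) μ₁ := by
    refine hr.mono' ((mg_meas hWi).mul (tl_meas hWi hψm).norm) ?_
    filter_upwards [hpt] with a ha
    rw [Real.norm_eq_abs, abs_of_nonneg (mul_nonneg (mg_nonneg hW0 a) (abs_nonneg _))]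
    exact ha
  exact ⟨hI, (integral_mono_ae hI hr hpt).trans (le_of_eq (integral_prod _ hψ).symm)⟩

/-- the mean is preserved -/
lemma tl_mean (hW1 : ∀ p, 1 ≤ W p) (hWi : Integrable W (μ₁.prod μ₂))
    (hψ : Integrable (fun p => W p * ψ p) (μ₁.prod μ₂)) :
    ∫ a, mg μ₂ W a * tl μ₂ W ψ a ∂μ₁ = ∫ p, W p * ψ p ∂(μ₁.prod μ₂) := by
  rw [integral_prod _ hψ]
  refine integral_congr_ae ?_
  filter_upwards [mg_ge_one hW1 hWi] with a h1
  have hm : 0 < mg μ₂ W a := by linarith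
  unfold tl
  rw [mul_div_cancel₀ _ hm.ne']

/-- additivity -/
lemma tl_add (hψ : Integrable (fun p => W p * ψ p) (μ₁.prod μ₂))
    (hφ : Integrable (fun p => W p * φ p) (μ₁.prod μ₂)) :
    ∀ᵐ a ∂μ₁, tl μ₂ W (fun p => ψ p + φ p) a = tl μ₂ W ψ a + tl μ₂ W φ a := by
  filter_upwards [hψ.prod_right_ae, hφ.prod_right_ae] with a h1 h2
  unfold tl
  rw [← add_div]
  congr 1
  rw [← integral_add h1 h2]
  refine integral_congr_ae (Filter.Eventually.of_forall fun g => ?_)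
  simp only
  ring

section bad

variable {B : Set (Ω₁ × Ω₂)} {η L : ℝ}

/-- weighted norm of a bounded function of the first variable -/
lemma wn_mg_le (hW1 : ∀ p, 1 ≤ W p) (hWi : Integrable W (μ₁.prod μ₂)) (hB : MeasurableSet B)
    (hη0 : 0 ≤ η) (hη : ∀ p, p ∉ B → W p ≤ 1 + η) {u : Ω₁ → ℝ}
    (hu : AEStronglyMeasurable u μ₁) (hL : ∀ a, |u a| ≤ L) :
    InL μ₁ (mg μ₂ W) u ∧ wn μ₁ (mg μ₂ W) u
      ≤ √(1 + η) * √(∫ a, u a ^ 2 ∂μ₁) + L * √(∫ p in B, W p ∂(μ₁.prod μ₂)) := by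
  have hW0 : ∀ p, 0 ≤ W p := fun p => by linarith [hW1 p]
  obtain ⟨a₀⟩ : Nonempty Ω₁ := by
    by_contra hne
    rw [not_nonempty_iff] at hne
    have h1 : μ₁ Set.univ = 0 := by
      rw [Set.eq_empty_of_isEmpty Set.univ, measure_empty]
    rw [measure_univ] at h1
    exact one_ne_zero h1
  have hL0 : 0 ≤ L := (abs_nonneg _).trans (hL a₀)
  have hu2 : ∀ a, u a ^ 2 ≤ L ^ 2 := fun a => by
    rw [← sq_abs]
    exact pow_le_pow_left₀ (abs_nonneg _) (hL a) 2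
  have iu : Integrable (fun a => u a ^ 2) μ₁ :=
    Integrable.of_bound (hu.pow 2) (L ^ 2) (Filter.Eventually.of_forall fun a => by
      rw [Real.norm_eq_abs, abs_of_nonneg (sq_nonneg _)]
      exact hu2 a)
  have hI : Integrable (fun a => mg μ₂ W a * u a ^ 2) μ₁ := by
    refine ((mg_int hWi).mul_const (L ^ 2)).mono' ((mg_meas hWi).mul (hu.pow 2))
      (Filter.Eventually.of_forall fun a => ?_)
    rw [Real.norm_eq_abs, abs_of_nonneg (mul_nonneg (mg_nonneg hW0 a) (sq_nonneg _))]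
    exact mul_le_mul_of_nonneg_left (hu2 a) (mg_nonneg hW0 a)
  refine ⟨⟨hu, hI⟩, ?_⟩
  -- lift to the product
  have hup : AEStronglyMeasurable (fun p : Ω₁ × Ω₂ => u p.1 ^ 2) (μ₁.prod μ₂) :=
    (hu.comp_fst).pow 2
  have iP : Integrable (fun p : Ω₁ × Ω₂ => W p * u p.1 ^ 2) (μ₁.prod μ₂) := by
    refine (hWi.mul_const (L ^ 2)).mono' (hWi.1.mul hup) (Filter.Eventually.of_forall fun p => ?_)
    rw [Real.norm_eq_abs, abs_of_nonneg (mul_nonneg (hW0 p) (sq_nonneg _))]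
    exact mul_le_mul_of_nonneg_left (hu2 p.1) (hW0 p)
  have iU : Integrable (fun p : Ω₁ × Ω₂ => u p.1 ^ 2) (μ₁.prod μ₂) := by
    refine Integrable.of_bound hup (L ^ 2) (Filter.Eventually.of_forall fun p => ?_)
    rw [Real.norm_eq_abs, abs_of_nonneg (sq_nonneg _)]
    exact hu2 p.1
  have e1 : ∫ a, mg μ₂ W a * u a ^ 2 ∂μ₁ = ∫ p, W p * u p.1 ^ 2 ∂(μ₁.prod μ₂) := by
    rw [integral_prod _ iP]
    refine integral_congr_ae (Filter.Eventually.of_forall fun a => ?_)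
    simp only
    rw [integral_mul_const]
    rfl
  have e2 : ∫ p, u p.1 ^ 2 ∂(μ₁.prod μ₂) = ∫ a, u a ^ 2 ∂μ₁ := by
    rw [integral_prod _ iU]
    refine integral_congr_ae (Filter.Eventually.of_forall fun a => ?_)
    simp
  set β := ∫ p in B, W p ∂(μ₁.prod μ₂) with hβ
  have hβ0 : 0 ≤ β := integral_nonneg fun p => hW0 p
  have hb : ∫ a, mg μ₂ W a * u a ^ 2 ∂μ₁ ≤ (1 + η) * (∫ a, u a ^ 2 ∂μ₁) + L ^ 2 * β := by
    rw [e1, ← integral_add_compl hB iP, ← e2]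
    have h1 : ∫ p in B, W p * u p.1 ^ 2 ∂(μ₁.prod μ₂) ≤ L ^ 2 * β := by
      rw [hβ, ← integral_const_mul]
      refine integral_mono iP.integrableOn (hWi.const_mul _).integrableOn fun p => ?_
      simp only
      rw [mul_comm (L ^ 2)]
      exact mul_le_mul_of_nonneg_left (hu2 p.1) (hW0 p)
    have h2 : ∫ p in Bᶜ, W p * u p.1 ^ 2 ∂(μ₁.prod μ₂)
        ≤ (1 + η) * ∫ p, u p.1 ^ 2 ∂(μ₁.prod μ₂) := by
      rw [← integral_const_mul]
      refine (setIntegral_mono_on iP.integrableOn (iU.const_mul _).integrableOn hB.compl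
        fun p hp => mul_le_mul_of_nonneg_right (hη p hp) (sq_nonneg _)).trans ?_
      exact setIntegral_le_integral (iU.const_mul _)
        (Filter.Eventually.of_forall fun p => mul_nonneg (by linarith) (sq_nonneg _))
    linarith
  have hU0 : 0 ≤ ∫ a, u a ^ 2 ∂μ₁ := integral_nonneg fun a => sq_nonneg _
  unfold wn
  refine (Real.sqrt_le_sqrt hb).trans ?_
  apply Real.sqrt_le_iff.2
  refine ⟨by positivity, ?_⟩
  have a1 := Real.sq_sqrt (by linarith : (0 : ℝ) ≤ 1 + η)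
  have a2 := Real.sq_sqrt hU0
  have a3 := Real.sq_sqrt hβ0
  have a4 : 0 ≤ √(1 + η) * √(∫ a, u a ^ 2 ∂μ₁) * (L * √β) := by positivity
  calc (1 + η) * (∫ a, u a ^ 2 ∂μ₁) + L ^ 2 * β
      = (√(1 + η) ^ 2 * √(∫ a, u a ^ 2 ∂μ₁) ^ 2) + L ^ 2 * √β ^ 2 := by rw [a1, a2, a3]
    _ ≤ _ := by nlinarith

/-- the tilted expectation of the indicator of the bad set -/
lemma wn_bad (hW1 : ∀ p, 1 ≤ W p) (hWi : Integrable W (μ₁.prod μ₂)) (hB : MeasurableSet B) :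
    InL μ₁ (mg μ₂ W) (tl μ₂ W (B.indicator fun _ => 1)) ∧
    wn μ₁ (mg μ₂ W) (tl μ₂ W (B.indicator fun _ => 1))
      ≤ √(∫ p in B, W p ∂(μ₁.prod μ₂)) := by
  have hW0 : ∀ p, 0 ≤ W p := fun p => by linarith [hW1 p]
  have e : (fun p => W p * (B.indicator (fun _ => (1 : ℝ)) p) ^ 2) = B.indicator W := by
    funext p
    by_cases hp : p ∈ B <;> simp [hp]
  have hI : InL (μ₁.prod μ₂) W (B.indicator fun _ => (1 : ℝ)) := by
    refine ⟨(measurable_const.indicator hB).aestronglyMeasurable, ?_⟩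
    rw [e]
    exact hWi.indicator hB
  have h := tl_L2 hW1 hWi hI
  refine ⟨h.1, h.2.trans (le_of_eq ?_)⟩
  unfold wn
  rw [e, integral_indicator hB]

lemma pu_meas (hψ : AEStronglyMeasurable ψ (μ₁.prod μ₂)) :
    AEStronglyMeasurable (pu μ₂ ψ) μ₁ := AEStronglyMeasurable.integral_prod_right' hψ

lemma abs_pu_le (hL : ∀ p, |ψ p| ≤ L) (a : Ω₁) : |pu μ₂ ψ a| ≤ L := by
  unfold pu
  have := norm_integral_le_of_norm_le_const (μ := μ₂) (f := fun g => ψ (a, g)) (C := L)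
    (Filter.Eventually.of_forall fun g => by rw [Real.norm_eq_abs]; exact hL _)
  simpa using this

/-- pointwise comparison of the tilted and the untilted expectation -/
lemma tl_sub_pu (hW1 : ∀ p, 1 ≤ W p) (hWi : Integrable W (μ₁.prod μ₂)) (hB : MeasurableSet B)
    (hη0 : 0 ≤ η) (hη : ∀ p, p ∉ B → W p ≤ 1 + η) (hψ : Measurable ψ) (hL : ∀ p, |ψ p| ≤ L) :
    ∀ᵐ a ∂μ₁, |tl μ₂ W ψ a - pu μ₂ ψ a|
      ≤ 2 * η * pu μ₂ (fun p => |ψ p|) a + 2 * L * tl μ₂ W (B.indicator fun _ => 1) a := by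
  filter_upwards [hWi.prod_right_ae] with a ha
  have hBa : MeasurableSet {g | (a, g) ∈ B} := measurable_prodMk_left hB
  have h := nl1 (μ := μ₂) (W := fun g => W (a, g)) (B := {g | (a, g) ∈ B}) (η := η)
    (fun g => hW1 (a, g)) ha hBa hη0 (fun g hg => hη (a, g) hg)
    (ψ := fun g => ((ψ (a, g) : ℝ) : ℂ))
    (Complex.continuous_ofReal.comp_aestronglyMeasurable
      (hψ.comp measurable_prodMk_left).aestronglyMeasurable) (M := L)
    (fun g => by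
      rw [Complex.norm_real, Real.norm_eq_abs]
      exact hL _)
  have e1 : ∫ g, (W (a, g) : ℂ) * ((ψ (a, g) : ℝ) : ℂ) ∂μ₂
      = ((∫ g, W (a, g) * ψ (a, g) ∂μ₂ : ℝ) : ℂ) := by
    rw [← integral_complex_ofReal]
    refine integral_congr_ae (Filter.Eventually.of_forall fun g => ?_)
    simp
  have e2 : ∫ g, ((ψ (a, g) : ℝ) : ℂ) ∂μ₂ = ((∫ g, ψ (a, g) ∂μ₂ : ℝ) : ℂ) :=
    integral_complex_ofReal
  have e3 : ∀ g, ‖((ψ (a, g) : ℝ) : ℂ)‖ = |ψ (a, g)| := fun g => by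
    rw [Complex.norm_real, Real.norm_eq_abs]
  rw [e1, e2, ← Complex.ofReal_div, ← Complex.ofReal_sub, Complex.norm_real,
    Real.norm_eq_abs] at h
  simp only [e3] at h
  have e4 : tl μ₂ W (B.indicator fun _ => (1 : ℝ)) a
      = (∫ g in {g | (a, g) ∈ B}, W (a, g) ∂μ₂) / ∫ g, W (a, g) ∂μ₂ := by
    unfold tl mg
    congr 1
    rw [← integral_indicator hBa]
    refine integral_congr_ae (Filter.Eventually.of_forall fun g => ?_)
    by_cases hg : (a, g) ∈ B <;> simp [Set.indicator, hg]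
  rw [e4]
  exact h

end bad

end Vale.Agent.P159.H686
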