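import Vale.Agent.P159.H686.SwinB

/-!
P159 / H686: SWIN, part C. The one-window theorem for a neutral functional in the exact norms.

`ψ = Ψ/c - 1 = u + v`, `|u|_{L²(ν)} ≤ d`, `|v|_{L¹(ν)} ≤ q₀`; decomposition
`u + v = loc + e₂ + e₁` with `loc` bounded and contracted by the untilted expectation.
Then `E_f ψ = u' + v'` with `|v'|_1 ≤ q` and
`|u'|_2 ≤ √(1+η) (κ + 2η) (d + e + √(L (q₀ + q))) + (4 + 2η) L √b + e + q`.
-/

namespace Vale.Agent.P159.H686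

open MeasureTheory

variable {Ω₁ Ω₂ : Type*} [MeasurableSpace Ω₁] [MeasurableSpace Ω₂]
  {μ₁ : Measure Ω₁} {μ₂ : Measure Ω₂} [IsProbabilityMeasure μ₁] [IsProbabilityMeasure μ₂]
  {W loc : Ω₁ × Ω₂ → ℝ} {B : Set (Ω₁ × Ω₂)} {η L : ℝ}

/-- scaling of the weighted norm -/
lemma wn_smul {Ω : Type*} [MeasurableSpace Ω] {μ : Measure Ω} {w u : Ω → ℝ} (c : ℝ) :
    wn μ w (fun x => c * u x) = |c| * wn μ w u := by
  unfold wn
  have e : ∀ x, w x * (c * u x) ^ 2 = c ^ 2 * (w x * u x ^ 2) := fun x => by ring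
  simp only [e]
  rw [integral_const_mul, Real.sqrt_mul (sq_nonneg c), Real.sqrt_sq_eq_abs]

lemma InL.smul {Ω : Type*} [MeasurableSpace Ω] {μ : Measure Ω} {w u : Ω → ℝ} (h : InL μ w u)
    (c : ℝ) : InL μ w (fun x => c * u x) := by
  refine ⟨h.meas.const_mul c, ?_⟩
  have e : (fun x => w x * (c * u x) ^ 2) = fun x => c ^ 2 * (w x * u x ^ 2) := by
    funext x
    ring
  rw [e]
  exact h.int.const_mul _

/-- Jensen for the untilted expectation -/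
lemma int_pu_sq_le (hψ : Measurable loc) (hL : ∀ p, |loc p| ≤ L) :
    ∫ a, pu μ₂ (fun p => |loc p|) a ^ 2 ∂μ₁ ≤ ∫ p, loc p ^ 2 ∂(μ₁.prod μ₂) := by
  have hm2 : Measurable fun p => loc p ^ 2 := hψ.pow_const 2
  have hb2 : ∀ p, ‖loc p ^ 2‖ ≤ L ^ 2 := fun p => by
    rw [Real.norm_eq_abs, abs_of_nonneg (sq_nonneg _), ← sq_abs]
    exact pow_le_pow_left₀ (abs_nonneg _) (hL p) 2
  have i2 : Integrable (fun p => loc p ^ 2) (μ₁.prod μ₂) :=
    Integrable.of_bound hm2.aestronglyMeasurable (L ^ 2) (Filter.Eventually.of_forall hb2)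
  rw [integral_prod _ i2]
  refine integral_mono_of_nonneg (Filter.Eventually.of_forall fun a => sq_nonneg _)
    i2.integral_prod_left (Filter.Eventually.of_forall fun a => ?_)
  have ma : Measurable fun g => loc (a, g) := hψ.comp measurable_prodMk_left
  have i1 : Integrable (fun g => |loc (a, g)|) μ₂ :=
    Integrable.of_bound ma.norm.aestronglyMeasurable L (Filter.Eventually.of_forall fun g => by
      rw [Real.norm_eq_abs, abs_abs]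
      exact hL _)
  have j2 : Integrable (fun g => loc (a, g) ^ 2) μ₂ :=
    Integrable.of_bound (ma.pow_const 2).aestronglyMeasurable (L ^ 2)
      (Filter.Eventually.of_forall fun g => hb2 _)
  have h := Vale.Agent.P159.H552.int_cs (m := μ₂) (u := fun g => |loc (a, g)|)
    (v := fun _ => (1 : ℝ)) (by simpa only [sq_abs] using j2) (by simp) (by simpa using i1)
  simpa [pu] using h

/-- comparison in the exact norm: `E_W loc` against a constant -/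
lemma wn_tl_loc_le (hW1 : ∀ p, 1 ≤ W p) (hWi : Integrable W (μ₁.prod μ₂)) (hB : MeasurableSet B)
    (hη0 : 0 ≤ η) (hη : ∀ p, p ∉ B → W p ≤ 1 + η) (hloc : Measurable loc)
    (hL0 : 0 ≤ L) (hL : ∀ p, |loc p| ≤ L) {m κ : ℝ} (hm : |m| ≤ L)
    (hκ : √(∫ a, (pu μ₂ loc a - m) ^ 2 ∂μ₁) ≤ κ * √(∫ p, loc p ^ 2 ∂(μ₁.prod μ₂))) :
    InL μ₁ (mg μ₂ W) (fun a => tl μ₂ W loc a - m) ∧
    wn μ₁ (mg μ₂ W) (fun a => tl μ₂ W loc a - m)
      ≤ √(1 + η) * (κ + 2 * η) * √(∫ p, loc p ^ 2 ∂(μ₁.prod μ₂))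
        + (4 + 2 * η) * L * √(∫ p in B, W p ∂(μ₁.prod μ₂)) := by
  have hW0 : ∀ p, 0 ≤ W p := fun p => by linarith [hW1 p]
  have hw := mg_nonneg (μ₂ := μ₂) hW0
  have hwm := mg_meas (μ₁ := μ₁) (μ₂ := μ₂) hWi
  have hLm : Measurable fun p => |loc p| := hloc.norm
  set S := √(∫ p, loc p ^ 2 ∂(μ₁.prod μ₂)) with hS
  set β := √(∫ p in B, W p ∂(μ₁.prod μ₂)) with hβ
  have hS0 : 0 ≤ S := Real.sqrt_nonneg _
  -- the untilted part
  have hpm : AEStronglyMeasurable (pu μ₂ loc) μ₁ := pu_meas hloc.aestronglyMeasurable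
  have h1 := wn_mg_le (u := fun a => pu μ₂ loc a - m) (L := 2 * L) hW1 hWi hB hη0 hη
    (hpm.sub aestronglyMeasurable_const) (fun a => by
      refine (abs_sub _ _).trans ?_
      have := abs_pu_le (μ₂ := μ₂) hL a
      linarith)
  have h1' : wn μ₁ (mg μ₂ W) (fun a => pu μ₂ loc a - m) ≤ √(1 + η) * (κ * S) + 2 * L * β :=
    h1.2.trans (add_le_add (mul_le_mul_of_nonneg_left hκ (Real.sqrt_nonneg _)) le_rfl)
  -- the absolute value
  have hpa : AEStronglyMeasurable (pu μ₂ fun p => |loc p|) μ₁ := pu_meas hLm.aestronglyMeasurable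
  have h2 := wn_mg_le (u := pu μ₂ fun p => |loc p|) (L := L) hW1 hWi hB hη0 hη hpa
    (fun a => abs_pu_le (fun p => by rw [abs_abs]; exact hL p) a)
  have h2' : wn μ₁ (mg μ₂ W) (pu μ₂ fun p => |loc p|) ≤ √(1 + η) * S + L * β := by
    refine h2.2.trans (add_le_add (mul_le_mul_of_nonneg_left ?_ (Real.sqrt_nonneg _)) le_rfl)
    exact Real.sqrt_le_sqrt (int_pu_sq_le hloc hL)
  have h3 := wn_bad (μ₁ := μ₁) (μ₂ := μ₂) hW1 hWi hB
  -- the tilt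
  have hbd : InL μ₁ (mg μ₂ W) (fun a => 2 * η * pu μ₂ (fun p => |loc p|) a
      + 2 * L * tl μ₂ W (B.indicator fun _ => 1) a) :=
    InL.add hw hwm (h2.1.smul _) (h3.1.smul _)
  have htm : AEStronglyMeasurable (tl μ₂ W loc) μ₁ := tl_meas hWi hloc.aestronglyMeasurable
  have h4 := wn_mono (u := fun a => tl μ₂ W loc a - pu μ₂ loc a) hw hwm (htm.sub hpm) hbd
    (by
      filter_upwards [tl_sub_pu hW1 hWi hB hη0 hη hloc hL] with a ha
      exact ha.trans (le_abs_self _))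
  have h5 : wn μ₁ (mg μ₂ W) (fun a => 2 * η * pu μ₂ (fun p => |loc p|) a
      + 2 * L * tl μ₂ W (B.indicator fun _ => 1) a)
      ≤ 2 * η * (√(1 + η) * S + L * β) + 2 * L * β := by
    refine (wn_add_le hw hwm (h2.1.smul _) (h3.1.smul _)).trans ?_
    rw [wn_smul, wn_smul, abs_of_nonneg (by positivity : 0 ≤ 2 * η),
      abs_of_nonneg (by positivity : 0 ≤ 2 * L)]
    exact add_le_add (mul_le_mul_of_nonneg_left h2' (by positivity))
      (mul_le_mul_of_nonneg_left h3.2 (by positivity))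
  have e : (fun a => tl μ₂ W loc a - m)
      = fun a => (tl μ₂ W loc a - pu μ₂ loc a) + (pu μ₂ loc a - m) := by
    funext a
    ring
  rw [e]
  refine ⟨InL.add hw hwm h4.1 h1.1, ?_⟩
  refine (wn_add_le hw hwm h4.1 h1.1).trans ((add_le_add (h4.2.trans h5) h1').trans (le_of_eq ?_))
  ring

/-- the size of `loc` in the exact norm -/
lemma wn_loc_le (hW1 : ∀ p, 1 ≤ W p) (hWi : Integrable W (μ₁.prod μ₂)) (hloc : Measurable loc)
    (hL0 : 0 ≤ L) (hL : ∀ p, |loc p| ≤ L) {u v e₂ e₁ : Ω₁ × Ω₂ → ℝ} {d e q q₀ Z : ℝ}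
    (hZ : Z = ∫ p, W p ∂(μ₁.prod μ₂))
    (hdec : ∀ p, u p + v p = loc p + e₂ p + e₁ p)
    (hu : InL (μ₁.prod μ₂) W u) (hvm : AEStronglyMeasurable v (μ₁.prod μ₂))
    (hvi : Integrable (fun p => W p * |v p|) (μ₁.prod μ₂))
    (he2 : InL (μ₁.prod μ₂) W e₂) (he1m : AEStronglyMeasurable e₁ (μ₁.prod μ₂))
    (he1i : Integrable (fun p => W p * |e₁ p|) (μ₁.prod μ₂))
    (hd : wn (μ₁.prod μ₂) W u ≤ d * √Z) (hq₀ : ∫ p, W p * |v p| ∂(μ₁.prod μ₂) ≤ q₀ * Z)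
    (he : wn (μ₁.prod μ₂) W e₂ ≤ e * √Z) (hq : ∫ p, W p * |e₁ p| ∂(μ₁.prod μ₂) ≤ q * Z) :
    InL (μ₁.prod μ₂) W loc ∧
      wn (μ₁.prod μ₂) W loc ≤ (d + e + √(L * (q₀ + q))) * √Z := by
  have hW0 : ∀ p, 0 ≤ W p := fun p => by linarith [hW1 p]
  have hI : InL (μ₁.prod μ₂) W loc := by
    refine ⟨hloc.aestronglyMeasurable, ?_⟩
    refine (hWi.mul_const (L ^ 2)).mono' (hWi.1.mul (hloc.pow_const 2).aestronglyMeasurable)
      (Filter.Eventually.of_forall fun p => ?_)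
    rw [Real.norm_eq_abs, abs_of_nonneg (mul_nonneg (hW0 p) (sq_nonneg _)), ← sq_abs (loc p)]
    exact mul_le_mul_of_nonneg_left (pow_le_pow_left₀ (abs_nonneg _) (hL p) 2) (hW0 p)
  refine ⟨hI, ?_⟩
  set X := wn (μ₁.prod μ₂) W loc with hX
  have hX0 : 0 ≤ X := wn_nonneg
  have hZ0 : 0 ≤ Z := by
    rw [hZ]
    exact integral_nonneg hW0
  have hX2 : X ^ 2 = ∫ p, W p * loc p ^ 2 ∂(μ₁.prod μ₂) := wn_sq hW0
  have i1 := hI.mul_int hW0 hWi.1 hu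
  have i2 := hI.mul_int hW0 hWi.1 he2
  have mI : ∀ {f : Ω₁ × Ω₂ → ℝ}, AEStronglyMeasurable f (μ₁.prod μ₂) →
      Integrable (fun p => W p * |f p|) (μ₁.prod μ₂) →
      Integrable (fun p => W p * (loc p * f p)) (μ₁.prod μ₂) ∧
      |∫ p, W p * (loc p * f p) ∂(μ₁.prod μ₂)| ≤ L * ∫ p, W p * |f p| ∂(μ₁.prod μ₂) := by
    intro f hf hfi
    have hb : ∀ p, ‖W p * (loc p * f p)‖ ≤ L * (W p * |f p|) := fun p => by
      rw [Real.norm_eq_abs, abs_mul, abs_mul, abs_of_nonneg (hW0 p)]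
      have := mul_le_mul_of_nonneg_right (hL p) (mul_nonneg (hW0 p) (abs_nonneg (f p)))
      nlinarith
    have hfi' := hfi.const_mul L
    have hI1 : Integrable (fun p => W p * (loc p * f p)) (μ₁.prod μ₂) :=
      hfi'.mono' (hWi.1.mul (hloc.aestronglyMeasurable.mul hf)) (Filter.Eventually.of_forall hb)
    refine ⟨hI1, ?_⟩
    rw [← integral_const_mul, ← Real.norm_eq_abs]
    exact norm_integral_le_of_norm_le hfi' (Filter.Eventually.of_forall hb)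
  have m1 := mI hvm hvi
  have m2 := mI he1m he1i
  have e0 : ∫ p, W p * loc p ^ 2 ∂(μ₁.prod μ₂)
      = ∫ p, W p * (loc p * u p) ∂(μ₁.prod μ₂) - ∫ p, W p * (loc p * e₂ p) ∂(μ₁.prod μ₂)
        + (∫ p, W p * (loc p * v p) ∂(μ₁.prod μ₂) - ∫ p, W p * (loc p * e₁ p) ∂(μ₁.prod μ₂)) := by
    have ha := integral_add (i1.sub i2) (m1.1.sub m2.1)
    simp only [Pi.sub_apply] at ha
    rw [← integral_sub i1 i2, ← integral_sub m1.1 m2.1, ← ha]
    refine integral_congr_ae (Filter.Eventually.of_forall fun p => ?_)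
    simp only
    have : loc p = u p + v p - e₂ p - e₁ p := by linarith [hdec p]
    calc W p * loc p ^ 2 = W p * (loc p * loc p) := by ring
      _ = W p * (loc p * (u p + v p - e₂ p - e₁ p)) := by rw [← this]
      _ = _ := by ring
  have c1 := (le_abs_self _).trans (wcs' hW0 hWi.1 hI hu)
  have c2 := (neg_le_abs _).trans (wcs' hW0 hWi.1 hI he2)
  have c3 := (le_abs_self _).trans m1.2
  have c4 := (neg_le_abs _).trans m2.2
  have hb : X ^ 2 ≤ X * ((d + e) * √Z) + L * (q₀ + q) * Z := by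
    rw [hX2, e0]
    have d1 : X * wn (μ₁.prod μ₂) W u ≤ X * (d * √Z) := mul_le_mul_of_nonneg_left hd hX0
    have d2 : X * wn (μ₁.prod μ₂) W e₂ ≤ X * (e * √Z) := mul_le_mul_of_nonneg_left he hX0
    have d3 := mul_le_mul_of_nonneg_left hq₀ hL0
    have d4 := mul_le_mul_of_nonneg_left hq hL0
    nlinarith
  have hr0 : 0 ≤ √(L * (q₀ + q)) * √Z := by positivity
  by_contra hcon
  rw [not_le] at hcon
  have hq0' : 0 ≤ q₀ * Z := le_trans (integral_nonneg fun p => mul_nonneg (hW0 p) (abs_nonneg _)) hq₀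
  have hq' : 0 ≤ q * Z := le_trans (integral_nonneg fun p => mul_nonneg (hW0 p) (abs_nonneg _)) hq
  have hZ1 : 1 ≤ Z := by
    rw [hZ]
    exact Vale.Agent.P159.H363.one_le_intW hW1 hWi
  have hqq : 0 ≤ q₀ + q := by
    have : 0 ≤ (q₀ + q) * Z := by linarith
    exact nonneg_of_mul_nonneg_left this (by linarith)
  have hr2 : (√(L * (q₀ + q)) * √Z) ^ 2 = L * (q₀ + q) * Z := by
    rw [mul_pow, Real.sq_sqrt (mul_nonneg hL0 hqq), Real.sq_sqrt hZ0]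
  set r := √(L * (q₀ + q)) * √Z with hr
  have hd0 : 0 ≤ (d + e) * √Z := by
    have := (wn_nonneg (μ := μ₁.prod μ₂) (w := W) (u := u)).trans hd
    have := (wn_nonneg (μ := μ₁.prod μ₂) (w := W) (u := e₂)).trans he
    linarith
  have hX3 : (d + e) * √Z + r < X := by
    rw [hr]
    linarith
  have : X * ((d + e) * √Z) + r ^ 2 < X ^ 2 := by
    have h1 : r ≤ X := by linarith
    nlinarith
  rw [hr2] at this
  linarith

/-- **SWIN**, general form, explicit functions. -/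
theorem swin_expl (hW1 : ∀ p, 1 ≤ W p) (hWi : Integrable W (μ₁.prod μ₂)) (hB : MeasurableSet B)
    (hη0 : 0 ≤ η) (hη : ∀ p, p ∉ B → W p ≤ 1 + η) (hloc : Measurable loc)
    (hL0 : 0 ≤ L) (hL : ∀ p, |loc p| ≤ L) {m κ : ℝ} (hm : |m| ≤ L) (hκ0 : 0 ≤ κ)
    (hκ : √(∫ a, (pu μ₂ loc a - m) ^ 2 ∂μ₁) ≤ κ * √(∫ p, loc p ^ 2 ∂(μ₁.prod μ₂)))
    {u v e₂ e₁ : Ω₁ × Ω₂ → ℝ} {d e q q₀ b Z : ℝ} (hZ : Z = ∫ p, W p ∂(μ₁.prod μ₂))
    (hdec : ∀ p, u p + v p = loc p + e₂ p + e₁ p)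
    (hu : InL (μ₁.prod μ₂) W u) (hvm : AEStronglyMeasurable v (μ₁.prod μ₂))
    (hvi : Integrable (fun p => W p * |v p|) (μ₁.prod μ₂))
    (he2 : InL (μ₁.prod μ₂) W e₂) (he1m : AEStronglyMeasurable e₁ (μ₁.prod μ₂))
    (he1i : Integrable (fun p => W p * |e₁ p|) (μ₁.prod μ₂))
    (hd : wn (μ₁.prod μ₂) W u ≤ d * √Z) (hq₀ : ∫ p, W p * |v p| ∂(μ₁.prod μ₂) ≤ q₀ * Z)
    (he : wn (μ₁.prod μ₂) W e₂ ≤ e * √Z) (hq : ∫ p, W p * |e₁ p| ∂(μ₁.prod μ₂) ≤ q * Z)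
    (hb : ∫ p in B, W p ∂(μ₁.prod μ₂) ≤ b * Z)
    (hmean : ∫ p, W p * (u p + v p) ∂(μ₁.prod μ₂) = 0) :
      (∀ᵐ a ∂μ₁, tl μ₂ W (fun p => u p + v p) a
        = tl μ₂ W (fun p => loc p + e₂ p) a + tl μ₂ W e₁ a) ∧
      InL μ₁ (mg μ₂ W) (tl μ₂ W fun p => loc p + e₂ p) ∧ AEStronglyMeasurable (tl μ₂ W e₁) μ₁ ∧
      Integrable (fun a => mg μ₂ W a * |tl μ₂ W e₁ a|) μ₁ ∧
      ∫ a, mg μ₂ W a * |tl μ₂ W e₁ a| ∂μ₁ ≤ q * Z ∧
      wn μ₁ (mg μ₂ W) (tl μ₂ W fun p => loc p + e₂ p)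
        ≤ (√(1 + η) * (κ + 2 * η) * (d + e + √(L * (q₀ + q))) + (4 + 2 * η) * L * √b + e + q)
          * √Z := by
  have hW0 : ∀ p, 0 ≤ W p := fun p => by linarith [hW1 p]
  have hw := mg_nonneg (μ₂ := μ₂) hW0
  have hwm := mg_meas (μ₁ := μ₁) (μ₂ := μ₂) hWi
  have hZ1 : 1 ≤ Z := by
    rw [hZ]
    exact Vale.Agent.P159.H363.one_le_intW hW1 hWi
  have hZ0 : 0 ≤ Z := by linarith
  obtain ⟨hI, hX⟩ := wn_loc_le hW1 hWi hloc hL0 hL hZ hdec hu hvm hvi he2 he1m he1i hd hq₀ he hq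
  have hq0 : 0 ≤ q := by
    have : 0 ≤ q * Z := le_trans (integral_nonneg fun p => mul_nonneg (hW0 p) (abs_nonneg _)) hq
    exact nonneg_of_mul_nonneg_left this (by linarith)
  -- integrabilities
  have one_int : InL (μ₁.prod μ₂) W (fun _ => (1 : ℝ)) := InL.const hWi 1
  have jl : Integrable (fun p => W p * loc p) (μ₁.prod μ₂) := by
    simpa using hI.mul_int hW0 hWi.1 one_int
  have j2 : Integrable (fun p => W p * e₂ p) (μ₁.prod μ₂) := by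
    simpa using he2.mul_int hW0 hWi.1 one_int
  have jabs : ∀ {f : Ω₁ × Ω₂ → ℝ}, AEStronglyMeasurable f (μ₁.prod μ₂) →
      Integrable (fun p => W p * |f p|) (μ₁.prod μ₂) →
      Integrable (fun p => W p * f p) (μ₁.prod μ₂) := fun hf hfi =>
    hfi.mono' (hWi.1.mul hf) (Filter.Eventually.of_forall fun p => by
      rw [Real.norm_eq_abs, abs_mul, abs_of_nonneg (hW0 p)])
  have j1 := jabs he1m he1i
  have jl2 : Integrable (fun p => W p * (loc p + e₂ p)) (μ₁.prod μ₂) := by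
    have := jl.add j2
    refine this.congr (Filter.Eventually.of_forall fun p => ?_)
    simp only [Pi.add_apply]
    ring
  have hI2 : InL (μ₁.prod μ₂) W (fun p => loc p + e₂ p) := hI.add hW0 hWi.1 he2
  -- the two pieces
  set u' : Ω₁ → ℝ := tl μ₂ W (fun p => loc p + e₂ p) with hu'
  set v' : Ω₁ → ℝ := tl μ₂ W e₁ with hv'
  have hU := tl_L2 (μ₁ := μ₁) (μ₂ := μ₂) hW1 hWi hI2
  have hV := tl_L1 (μ₁ := μ₁) (μ₂ := μ₂) hW1 hWi he1m he1i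
  have hsplit : ∀ᵐ a ∂μ₁, tl μ₂ W (fun p => u p + v p) a = u' a + v' a := by
    have h1 := tl_add (μ₁ := μ₁) (μ₂ := μ₂) jl2 j1
    filter_upwards [h1] with a ha
    rw [hu', hv', ← ha]
    simp only [hdec]
  refine ⟨hsplit, hU.1, tl_meas hWi he1m, hV.1, hV.2.trans hq, ?_⟩
  -- mean of `u'`
  have mu : ∫ a, mg μ₂ W a * u' a ∂μ₁ = ∫ p, W p * (loc p + e₂ p) ∂(μ₁.prod μ₂) :=
    tl_mean hW1 hWi jl2
  have hmu : |∫ a, mg μ₂ W a * u' a ∂μ₁| ≤ q * ∫ a, mg μ₂ W a ∂μ₁ := by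
    rw [int_mg hWi, ← hZ, mu]
    have e1 : ∫ p, W p * (loc p + e₂ p) ∂(μ₁.prod μ₂) = -∫ p, W p * e₁ p ∂(μ₁.prod μ₂) := by
      have h1 : ∫ p, W p * (u p + v p) ∂(μ₁.prod μ₂)
          = ∫ p, W p * (loc p + e₂ p) ∂(μ₁.prod μ₂) + ∫ p, W p * e₁ p ∂(μ₁.prod μ₂) := by
        rw [← integral_add jl2 j1]
        refine integral_congr_ae (Filter.Eventually.of_forall fun p => ?_)
        simp only [hdec]
        ring
      rw [hmean] at h1
      linarith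
    rw [e1, abs_neg]
    refine (abs_integral_le_integral_abs).trans (le_trans (le_of_eq ?_) hq)
    refine integral_congr_ae (Filter.Eventually.of_forall fun p => ?_)
    simp only
    rw [abs_mul, abs_of_nonneg (hW0 p)]
  have hc := wn_center_le hw hwm (mg_int hWi) hU.1 m hq0 hmu
  rw [int_mg hWi, ← hZ] at hc
  -- the main bound
  obtain ⟨hT1, hT2⟩ := wn_tl_loc_le hW1 hWi hB hη0 hη hloc hL0 hL hm hκ
  have hE := tl_L2 (μ₁ := μ₁) (μ₂ := μ₂) hW1 hWi he2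
  have hae : ∀ᵐ a ∂μ₁, |u' a - m| ≤ |(tl μ₂ W loc a - m) + tl μ₂ W e₂ a| := by
    filter_upwards [tl_add (μ₁ := μ₁) (μ₂ := μ₂) jl j2] with a ha
    rw [hu', ha]
    apply le_of_eq
    congr 1
    ring
  have hsum := InL.add hw hwm hT1 hE.1
  have hm1 := (wn_mono (u := fun a => u' a - m) hw hwm (hU.1.meas.sub aestronglyMeasurable_const)
    hsum hae).2
  have hm2 := hm1.trans (wn_add_le hw hwm hT1 hE.1)
  have hS : √(∫ p, loc p ^ 2 ∂(μ₁.prod μ₂)) ≤ (d + e + √(L * (q₀ + q))) * √Z := by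
    refine le_trans ?_ hX
    unfold wn
    apply Real.sqrt_le_sqrt
    refine integral_mono_of_nonneg (Filter.Eventually.of_forall fun p => sq_nonneg _) hI.int
      (Filter.Eventually.of_forall fun p => ?_)
    simp only
    nlinarith [hW1 p, sq_nonneg (loc p)]
  have hβ : √(∫ p in B, W p ∂(μ₁.prod μ₂)) ≤ √b * √Z := by
    have hb0 : 0 ≤ b := by
      have : 0 ≤ b * Z := le_trans (integral_nonneg fun p => hW0 p) hb
      exact nonneg_of_mul_nonneg_left this (by linarith)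
    rw [← Real.sqrt_mul hb0]
    exact Real.sqrt_le_sqrt hb
  have f1 : √(1 + η) * (κ + 2 * η) * √(∫ p, loc p ^ 2 ∂(μ₁.prod μ₂))
      ≤ √(1 + η) * (κ + 2 * η) * ((d + e + √(L * (q₀ + q))) * √Z) :=
    mul_le_mul_of_nonneg_left hS (by positivity)
  have f2 : (4 + 2 * η) * L * √(∫ p in B, W p ∂(μ₁.prod μ₂))
      ≤ (4 + 2 * η) * L * (√b * √Z) := mul_le_mul_of_nonneg_left hβ (by positivity)
  have f3 : wn μ₁ (mg μ₂ W) (tl μ₂ W e₂) ≤ e * √Z := hE.2.trans he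
  calc wn μ₁ (mg μ₂ W) u' ≤ wn μ₁ (mg μ₂ W) (fun a => u' a - m) + q * √Z := hc
    _ ≤ (√(1 + η) * (κ + 2 * η) * ((d + e + √(L * (q₀ + q))) * √Z)
        + (4 + 2 * η) * L * (√b * √Z) + e * √Z) + q * √Z := by linarith
    _ = _ := by ring

/-- **SWIN**, general form. -/
theorem swin_gen (hW1 : ∀ p, 1 ≤ W p) (hWi : Integrable W (μ₁.prod μ₂)) (hB : MeasurableSet B)
    (hη0 : 0 ≤ η) (hη : ∀ p, p ∉ B → W p ≤ 1 + η) (hloc : Measurable loc)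
    (hL0 : 0 ≤ L) (hL : ∀ p, |loc p| ≤ L) {m κ : ℝ} (hm : |m| ≤ L) (hκ0 : 0 ≤ κ)
    (hκ : √(∫ a, (pu μ₂ loc a - m) ^ 2 ∂μ₁) ≤ κ * √(∫ p, loc p ^ 2 ∂(μ₁.prod μ₂)))
    {u v e₂ e₁ : Ω₁ × Ω₂ → ℝ} {d e q q₀ b Z : ℝ} (hZ : Z = ∫ p, W p ∂(μ₁.prod μ₂))
    (hdec : ∀ p, u p + v p = loc p + e₂ p + e₁ p)
    (hu : InL (μ₁.prod μ₂) W u) (hvm : AEStronglyMeasurable v (μ₁.prod μ₂))
    (hvi : Integrable (fun p => W p * |v p|) (μ₁.prod μ₂))
    (he2 : InL (μ₁.prod μ₂) W e₂) (he1m : AEStronglyMeasurable e₁ (μ₁.prod μ₂))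
    (he1i : Integrable (fun p => W p * |e₁ p|) (μ₁.prod μ₂))
    (hd : wn (μ₁.prod μ₂) W u ≤ d * √Z) (hq₀ : ∫ p, W p * |v p| ∂(μ₁.prod μ₂) ≤ q₀ * Z)
    (he : wn (μ₁.prod μ₂) W e₂ ≤ e * √Z) (hq : ∫ p, W p * |e₁ p| ∂(μ₁.prod μ₂) ≤ q * Z)
    (hb : ∫ p in B, W p ∂(μ₁.prod μ₂) ≤ b * Z)
    (hmean : ∫ p, W p * (u p + v p) ∂(μ₁.prod μ₂) = 0) :
    ∃ u' v' : Ω₁ → ℝ,
      (∀ᵐ a ∂μ₁, tl μ₂ W (fun p => u p + v p) a = u' a + v' a) ∧
      InL μ₁ (mg μ₂ W) u' ∧ AEStronglyMeasurable v' μ₁ ∧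
      Integrable (fun a => mg μ₂ W a * |v' a|) μ₁ ∧
      ∫ a, mg μ₂ W a * |v' a| ∂μ₁ ≤ q * Z ∧
      wn μ₁ (mg μ₂ W) u'
        ≤ (√(1 + η) * (κ + 2 * η) * (d + e + √(L * (q₀ + q))) + (4 + 2 * η) * L * √b + e + q)
          * √Z :=
  ⟨_, _, swin_expl hW1 hWi hB hη0 hη hloc hL0 hL hm hκ0 hκ hZ hdec hu hvm hvi he2 he1m he1i hd hq₀
    he hq hb hmean⟩

end Vale.Agent.P159.H686
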