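import Vale.Agent.P159.H686.SwinC
import Vale.Agent.P159.H363.Pob3
import Vale.Agent.P159.H363.Doug

/-!
P159 / H686: SWIN, part D. The Gaussian instance: `F = F0 a + A g`, `a ~ gau J`, `g ~ gau I`,
`loc F` a function of the neutral data `D F`, and the Loewner inequality
`D F0 F0ᵀ Dᵀ ≤ ρ² D A Aᵀ Dᵀ` (Poincare + Bessel + Douglas).
-/

namespace Vale.Agent.P159.H686

open MeasureTheory Finset Matrix
open Vale.Agent.P159.H37 (gau)
open Vale.Agent.P159.H363 (Hs pob_var douglas measurable_mulVec abs_Hs_le)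
open scoped Real

variable {I J Λ β : Type*} [Fintype I] [Fintype J] [Fintype Λ] [Fintype β]

/-- the field as a function of the pair of standard Gaussian vectors -/
def fl (F0 : Matrix Λ J ℝ) (A : Matrix Λ I ℝ) (p : (J → ℝ) × (I → ℝ)) : Λ → ℝ :=
  F0 *ᵥ p.1 + A *ᵥ p.2

lemma measurable_fl (F0 : Matrix Λ J ℝ) (A : Matrix Λ I ℝ) : Measurable (fl F0 A) :=
  ((measurable_mulVec F0).comp measurable_fst).add ((measurable_mulVec A).comp measurable_snd)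

/-- Poincare + Bessel for a function with a transfer matrix `T` -/
lemma pob_pu {F0 : Matrix Λ J ℝ} {A : Matrix Λ I ℝ} {loc : (Λ → ℝ) → ℝ} {L ρ : ℝ}
    (hloc : Measurable loc) (hL : ∀ F, |loc F| ≤ L) (hρ0 : 0 ≤ ρ) (T : Matrix I J ℝ)
    (hT : ∀ u : I → ℝ, ∑ j, (u ᵥ* T) j ^ 2 ≤ ρ ^ 2 * ∑ i, u i ^ 2)
    (hF : ∀ (a : J → ℝ) (g : I → ℝ), loc (F0 *ᵥ a + A *ᵥ g) = loc (A *ᵥ (g + T *ᵥ a))) :
    ∃ m : ℝ, |m| ≤ L ∧
      √(∫ a, (pu (gau I) (fun p => loc (fl F0 A p)) a - m) ^ 2 ∂(gau J))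
        ≤ (√(π ^ 2 / 8) * ρ) * √(∫ p, loc (fl F0 A p) ^ 2 ∂((gau J).prod (gau I))) := by
  set Ψ : (I → ℝ) → ℝ := fun g => loc (A *ᵥ g) with hΨ
  have hΨm : Measurable Ψ := hloc.comp (measurable_mulVec A)
  have hΨL : ∀ g, |Ψ g| ≤ L := fun g => hL _
  have e1 : ∀ a : J → ℝ, pu (gau I) (fun p => loc (fl F0 A p)) a = Hs Ψ (T *ᵥ a) := by
    intro a
    unfold pu Hs fl
    refine integral_congr_ae (Filter.Eventually.of_forall fun g => ?_)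
    simp only
    rw [hF a g]
  refine ⟨∫ b, Hs Ψ (T *ᵥ b) ∂(gau J), ?_, ?_⟩
  · have := norm_integral_le_of_norm_le_const (μ := gau J) (f := fun b => Hs Ψ (T *ᵥ b)) (C := L)
      (Filter.Eventually.of_forall fun b => by
        rw [Real.norm_eq_abs]
        exact abs_Hs_le hΨL _)
    simpa using this
  · simp only [e1]
    have h := pob_var hΨm hΨL T hT
    have hm2 : Measurable fun p : (J → ℝ) × (I → ℝ) => loc (fl F0 A p) ^ 2 :=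
      (hloc.comp (measurable_fl F0 A)).pow_const 2
    have i2 : Integrable (fun p : (J → ℝ) × (I → ℝ) => loc (fl F0 A p) ^ 2)
        ((gau J).prod (gau I)) :=
      Integrable.of_bound hm2.aestronglyMeasurable (L ^ 2)
        (Filter.Eventually.of_forall fun p => by
          rw [Real.norm_eq_abs, abs_of_nonneg (sq_nonneg _), ← sq_abs]
          exact pow_le_pow_left₀ (abs_nonneg _) (hL _) 2)
    have e2 : ∫ a, ∫ g, Ψ (g + T *ᵥ a) ^ 2 ∂(gau I) ∂(gau J)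
        = ∫ p, loc (fl F0 A p) ^ 2 ∂((gau J).prod (gau I)) := by
      rw [integral_prod _ i2]
      refine integral_congr_ae (Filter.Eventually.of_forall fun a => ?_)
      simp only
      refine integral_congr_ae (Filter.Eventually.of_forall fun g => ?_)
      simp only [hΨ, fl]
      rw [hF a g]
    rw [e2] at h
    calc _ ≤ √((π ^ 2 / 8) * ρ ^ 2 * ∫ p, loc (fl F0 A p) ^ 2 ∂((gau J).prod (gau I))) :=
          Real.sqrt_le_sqrt h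
      _ = _ := by
          rw [Real.sqrt_mul (by positivity), Real.sqrt_mul (by positivity), Real.sqrt_sq hρ0]

/-- transfer matrix from the Loewner inequality on the neutral data -/
lemma exists_T {F0 : Matrix Λ J ℝ} {A : Matrix Λ I ℝ} (D : Matrix β Λ ℝ) {ρ : ℝ}
    (hD : ∀ l : β → ℝ, ∑ j, (l ᵥ* (D * F0)) j ^ 2 ≤ ρ ^ 2 * ∑ i, (l ᵥ* (D * A)) i ^ 2)
    {loc : (Λ → ℝ) → ℝ} (hloc : ∀ F G : Λ → ℝ, D *ᵥ F = D *ᵥ G → loc F = loc G) :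
    ∃ T : Matrix I J ℝ, (∀ u : I → ℝ, ∑ j, (u ᵥ* T) j ^ 2 ≤ ρ ^ 2 * ∑ i, u i ^ 2) ∧
      ∀ (a : J → ℝ) (g : I → ℝ), loc (F0 *ᵥ a + A *ᵥ g) = loc (A *ᵥ (g + T *ᵥ a)) := by
  obtain ⟨T, hT1, hT2⟩ := douglas (D * F0) (D * A) hD
  refine ⟨T, hT2, fun a g => hloc _ _ ?_⟩
  rw [mulVec_add, mulVec_add, mulVec_add, mulVec_mulVec, mulVec_mulVec, hT1, ← mulVec_mulVec,
    ← mulVec_mulVec, add_comm, mulVec_mulVec]

/-- **SWIN**: one window for a linear neutral functional, exact norms.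
`W = e^R ≥ 1`; `ν` has density `W / Z`, `Z = ∬ W`; `E_f ψ = P(Wψ)/P(W)`. -/
theorem swin {F0 : Matrix Λ J ℝ} {A : Matrix Λ I ℝ} (D : Matrix β Λ ℝ) {ρ : ℝ} (hρ0 : 0 ≤ ρ)
    (hD : ∀ l : β → ℝ, ∑ j, (l ᵥ* (D * F0)) j ^ 2 ≤ ρ ^ 2 * ∑ i, (l ᵥ* (D * A)) i ^ 2)
    {W : (Λ → ℝ) → ℝ} (hW1 : ∀ F, 1 ≤ W F)
    (hWi : Integrable (fun p => W (fl F0 A p)) ((gau J).prod (gau I)))
    {B : Set (Λ → ℝ)} (hB : MeasurableSet B) {η L : ℝ} (hη0 : 0 ≤ η)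
    (hη : ∀ F, F ∉ B → W F ≤ 1 + η)
    {loc : (Λ → ℝ) → ℝ} (hlm : Measurable loc) (hL0 : 0 ≤ L) (hL : ∀ F, |loc F| ≤ L)
    (hloc : ∀ F G : Λ → ℝ, D *ᵥ F = D *ᵥ G → loc F = loc G)
    {u v e₂ e₁ : (Λ → ℝ) → ℝ} {d e q q₀ b Z : ℝ}
    (hZ : Z = ∫ p, W (fl F0 A p) ∂((gau J).prod (gau I)))
    (hdec : ∀ F, u F + v F = loc F + e₂ F + e₁ F)
    (hum : Measurable u) (hvm : Measurable v) (he2m : Measurable e₂) (he1m : Measurable e₁)
    (hui : Integrable (fun p => W (fl F0 A p) * u (fl F0 A p) ^ 2) ((gau J).prod (gau I)))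
    (hvi : Integrable (fun p => W (fl F0 A p) * |v (fl F0 A p)|) ((gau J).prod (gau I)))
    (he2i : Integrable (fun p => W (fl F0 A p) * e₂ (fl F0 A p) ^ 2) ((gau J).prod (gau I)))
    (he1i : Integrable (fun p => W (fl F0 A p) * |e₁ (fl F0 A p)|) ((gau J).prod (gau I)))
    (hd0 : 0 ≤ d) (he0 : 0 ≤ e)
    (hd : ∫ p, W (fl F0 A p) * u (fl F0 A p) ^ 2 ∂((gau J).prod (gau I)) ≤ d ^ 2 * Z)
    (hq₀ : ∫ p, W (fl F0 A p) * |v (fl F0 A p)| ∂((gau J).prod (gau I)) ≤ q₀ * Z)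
    (he : ∫ p, W (fl F0 A p) * e₂ (fl F0 A p) ^ 2 ∂((gau J).prod (gau I)) ≤ e ^ 2 * Z)
    (hq : ∫ p, W (fl F0 A p) * |e₁ (fl F0 A p)| ∂((gau J).prod (gau I)) ≤ q * Z)
    (hb : ∫ p in (fl F0 A) ⁻¹' B, W (fl F0 A p) ∂((gau J).prod (gau I)) ≤ b * Z)
    (hmean : ∫ p, W (fl F0 A p) * (u (fl F0 A p) + v (fl F0 A p)) ∂((gau J).prod (gau I)) = 0) :
    ∃ u' v' : (J → ℝ) → ℝ,
      (∀ᵐ a ∂(gau J), tl (gau I) (fun p => W (fl F0 A p))
        (fun p => u (fl F0 A p) + v (fl F0 A p)) a = u' a + v' a) ∧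
      AEStronglyMeasurable u' (gau J) ∧ AEStronglyMeasurable v' (gau J) ∧
      Integrable (fun a => mg (gau I) (fun p => W (fl F0 A p)) a * u' a ^ 2) (gau J) ∧
      Integrable (fun a => mg (gau I) (fun p => W (fl F0 A p)) a * |v' a|) (gau J) ∧
      ∫ a, mg (gau I) (fun p => W (fl F0 A p)) a * |v' a| ∂(gau J) ≤ q * Z ∧
      ∫ a, mg (gau I) (fun p => W (fl F0 A p)) a * u' a ^ 2 ∂(gau J)
        ≤ (√(1 + η) * (√(π ^ 2 / 8) * ρ + 2 * η) * (d + e + √(L * (q₀ + q)))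
          + (4 + 2 * η) * L * √b + e + q) ^ 2 * Z := by
  have hfl := measurable_fl F0 A
  have hW0 : ∀ p : (J → ℝ) × (I → ℝ), 0 ≤ W (fl F0 A p) := fun p => by linarith [hW1 (fl F0 A p)]
  obtain ⟨T, hT1, hT2⟩ := exists_T D hD hloc
  obtain ⟨m, hm, hκ⟩ := pob_pu hlm hL hρ0 T hT1 hT2
  have hZ1 : 1 ≤ Z := by
    rw [hZ]
    exact Vale.Agent.P159.H363.one_le_intW (fun p => hW1 _) hWi
  have hZ0 : 0 ≤ Z := by linarith
  have s1 : ∀ {x y : ℝ}, 0 ≤ y → x ≤ y ^ 2 * Z → √x ≤ y * √Z := by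
    intro x y hy hx
    calc √x ≤ √(y ^ 2 * Z) := Real.sqrt_le_sqrt hx
      _ = y * √Z := by rw [Real.sqrt_mul (sq_nonneg y), Real.sqrt_sq hy]
  obtain ⟨u', v', h1, h2, h3, h4, h5, h6⟩ := swin_gen (μ₁ := gau J) (μ₂ := gau I)
    (W := fun p => W (fl F0 A p)) (loc := fun p => loc (fl F0 A p)) (B := (fl F0 A) ⁻¹' B)
    (η := η) (L := L) (m := m) (κ := √(π ^ 2 / 8) * ρ)
    (u := fun p => u (fl F0 A p)) (v := fun p => v (fl F0 A p))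
    (e₂ := fun p => e₂ (fl F0 A p)) (e₁ := fun p => e₁ (fl F0 A p))
    (d := d) (e := e) (q := q) (q₀ := q₀) (b := b) (Z := Z)
    (fun p => hW1 _) hWi (hfl hB) hη0 (fun p hp => hη _ hp) (hlm.comp hfl) hL0 (fun p => hL _)
    hm (by positivity) hκ hZ (fun p => hdec _)
    ⟨(hum.comp hfl).aestronglyMeasurable, hui⟩ (hvm.comp hfl).aestronglyMeasurable hvi
    ⟨(he2m.comp hfl).aestronglyMeasurable, he2i⟩ (he1m.comp hfl).aestronglyMeasurable he1i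
    (s1 hd0 hd) hq₀ (s1 he0 he) hq hb hmean
  refine ⟨u', v', h1, h2.meas, h3, h2.int, h4, h5, ?_⟩
  have hmg := mg_nonneg (μ₂ := gau I) hW0
  rw [← wn_sq hmg]
  refine (pow_le_pow_left₀ wn_nonneg h6 2).trans (le_of_eq ?_)
  rw [mul_pow, Real.sq_sqrt hZ0]

end Vale.Agent.P159.H686
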