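import Vale.Agent.P159.H686.SwinD
import Vale.Agent.P159.H686.GlueS

/-!
P159 / H686: SWIN, part F. The instance of `Stp` for a pair of Gaussian levels with a tilt:
joint law `W / Z` on `(a, g)`, `F = ah f + A g`, `f = C' a`.
-/

namespace Vale.Agent.P159.H686

open MeasureTheory Finset Matrix
open Vale.Agent.P159.H37 (gau)
open Vale.Agent.P159.H363 (measurable_mulVec)
open scoped Real

section dens

variable {Ω : Type*} [MeasurableSpace Ω] {μ : Measure Ω} {W : Ω → ℝ} {Z : ℝ}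

/-- the law with density `W / Z` -/
noncomputable def jm (μ : Measure Ω) (W : Ω → ℝ) (Z : ℝ) : Measure Ω :=
  μ.withDensity fun p => ENNReal.ofReal (W p / Z)

lemma jm_aem (hW : AEStronglyMeasurable W μ) :
    AEMeasurable (fun p => ENNReal.ofReal (W p / Z)) μ :=
  (hW.aemeasurable.div_const Z).ennreal_ofReal

lemma integral_jm (hW : AEStronglyMeasurable W μ) (hW0 : ∀ p, 0 ≤ W p) (hZ : 0 < Z) (ψ : Ω → ℝ) :
    ∫ p, ψ p ∂(jm μ W Z) = (∫ p, W p * ψ p ∂μ) / Z := by
  unfold jm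
  rw [integral_withDensity_eq_integral_toReal_smul₀ (jm_aem hW)
    (Filter.Eventually.of_forall fun _ => ENNReal.ofReal_lt_top), ← integral_div]
  refine integral_congr_ae (Filter.Eventually.of_forall fun p => ?_)
  simp only
  rw [ENNReal.toReal_ofReal (div_nonneg (hW0 p) hZ.le), smul_eq_mul]
  ring

lemma integrable_jm (hW : AEStronglyMeasurable W μ) (hW0 : ∀ p, 0 ≤ W p) (hZ : 0 < Z)
    {ψ : Ω → ℝ} : Integrable ψ (jm μ W Z) ↔ Integrable (fun p => W p * ψ p) μ := by
  unfold jm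
  rw [integrable_withDensity_iff_integrable_smul₀' (jm_aem hW)
    (Filter.Eventually.of_forall fun _ => ENNReal.ofReal_lt_top)]
  have e : (fun p => (ENNReal.ofReal (W p / Z)).toReal • ψ p)
      = fun p => Z⁻¹ * (W p * ψ p) := by
    funext p
    rw [ENNReal.toReal_ofReal (div_nonneg (hW0 p) hZ.le), smul_eq_mul]
    ring
  rw [e]
  constructor
  · intro h
    have h1 := h.const_mul Z
    refine h1.congr (Filter.Eventually.of_forall fun p => ?_)
    simp only
    rw [← mul_assoc, mul_inv_cancel₀ hZ.ne', one_mul]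
  · intro h
    exact h.const_mul _

lemma prob_jm (hWi : Integrable W μ) (hW0 : ∀ p, 0 ≤ W p) (hZ : 0 < Z)
    (hZe : Z = ∫ p, W p ∂μ) : IsProbabilityMeasure (jm μ W Z) := by
  constructor
  unfold jm
  rw [withDensity_apply _ MeasurableSet.univ, Measure.restrict_univ,
    ← ofReal_integral_eq_lintegral_ofReal (hWi.div_const Z)
      (Filter.Eventually.of_forall fun p => div_nonneg (hW0 p) hZ.le), integral_div, ← hZe,
    div_self hZ.ne', ENNReal.ofReal_one]

end dens

variable {I J Λ β X : Type*} [Fintype I] [Fintype J] [Fintype Λ] [Fintype β] [MeasurableSpace X]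

/-- tilted conditional expectation as a function of the field `f` -/
noncomputable def tlF (ah : Matrix Λ Λ ℝ) (A : Matrix Λ I ℝ) (W ψ : (Λ → ℝ) → ℝ)
    (f : Λ → ℝ) : ℝ :=
  (∫ g, W (ah *ᵥ f + A *ᵥ g) * ψ (ah *ᵥ f + A *ᵥ g) ∂(gau I))
    / ∫ g, W (ah *ᵥ f + A *ᵥ g) ∂(gau I)

lemma tlF_eq (ah : Matrix Λ Λ ℝ) (A : Matrix Λ I ℝ) (C' : Matrix Λ J ℝ) (W ψ : (Λ → ℝ) → ℝ)
    (a : J → ℝ) :
    tlF ah A W ψ (C' *ᵥ a)
      = tl (gau I) (fun p => W (fl (ah * C') A p)) (fun p => ψ (fl (ah * C') A p)) a := by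
  unfold tlF tl mg fl
  simp only [mulVec_mulVec]

lemma measurable_tlF {ah : Matrix Λ Λ ℝ} {A : Matrix Λ I ℝ} {W ψ : (Λ → ℝ) → ℝ}
    (hW : Measurable W) (hψ : Measurable ψ) : Measurable (tlF ah A W ψ) := by
  have hm : Measurable fun q : (Λ → ℝ) × (I → ℝ) => ah *ᵥ q.1 + A *ᵥ q.2 :=
    ((measurable_mulVec ah).comp measurable_fst).add ((measurable_mulVec A).comp measurable_snd)
  unfold tlF
  refine Measurable.div ?_ ?_
  · apply StronglyMeasurable.measurable
    apply StronglyMeasurable.integral_prod_right'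
      (f := fun q : (Λ → ℝ) × (I → ℝ) => W (ah *ᵥ q.1 + A *ᵥ q.2) * ψ (ah *ᵥ q.1 + A *ᵥ q.2))
    exact ((hW.comp hm).mul (hψ.comp hm)).stronglyMeasurable
  · apply StronglyMeasurable.measurable
    apply StronglyMeasurable.integral_prod_right'
      (f := fun q : (Λ → ℝ) × (I → ℝ) => W (ah *ᵥ q.1 + A *ᵥ q.2))
    exact (hW.comp hm).stronglyMeasurable

/-- law of the field `F` of the lower level -/
noncomputable def lawF (ah : Matrix Λ Λ ℝ) (C' : Matrix Λ J ℝ) (A : Matrix Λ I ℝ)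
    (W : (Λ → ℝ) → ℝ) (Z : ℝ) : Measure (Λ → ℝ) :=
  (jm ((gau J).prod (gau I)) (fun p => W (fl (ah * C') A p)) Z).map (fl (ah * C') A)

/-- law of the field `f` of the upper level -/
noncomputable def lawf (ah : Matrix Λ Λ ℝ) (C' : Matrix Λ J ℝ) (A : Matrix Λ I ℝ)
    (W : (Λ → ℝ) → ℝ) (Z : ℝ) : Measure (Λ → ℝ) :=
  (jm ((gau J).prod (gau I)) (fun p => W (fl (ah * C') A p)) Z).map fun p => C' *ᵥ p.1

variable {ah : Matrix Λ Λ ℝ} {C' : Matrix Λ J ℝ} {A : Matrix Λ I ℝ} {W : (Λ → ℝ) → ℝ} {Z : ℝ}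

section laws

variable (hWm : Measurable W) (hW1 : ∀ F, 1 ≤ W F)
  (hWi : Integrable (fun p => W (fl (ah * C') A p)) ((gau J).prod (gau I)))
  (hZ : Z = ∫ p, W (fl (ah * C') A p) ∂((gau J).prod (gau I)))

include hW1 hWi hZ in
lemma one_le_Z : 1 ≤ Z := by
  rw [hZ]
  exact Vale.Agent.P159.H363.one_le_intW (fun p => hW1 _) hWi

include hWm hW1 hWi hZ

lemma int_lawF {ψ : (Λ → ℝ) → ℝ} (hψ : Measurable ψ) :
    ∫ F, ψ F ∂(lawF ah C' A W Z)
      = (∫ p, W (fl (ah * C') A p) * ψ (fl (ah * C') A p) ∂((gau J).prod (gau I))) / Z := by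
  have hZ1 := one_le_Z hW1 hWi hZ
  unfold lawF
  rw [integral_map (measurable_fl _ _).aemeasurable hψ.aestronglyMeasurable,
    integral_jm hWi.1 (fun p => by linarith [hW1 (fl (ah * C') A p)]) (by linarith)]

lemma integrable_lawF {ψ : (Λ → ℝ) → ℝ} (hψ : Measurable ψ) :
    Integrable ψ (lawF ah C' A W Z)
      ↔ Integrable (fun p => W (fl (ah * C') A p) * ψ (fl (ah * C') A p))
        ((gau J).prod (gau I)) := by
  have hZ1 := one_le_Z hW1 hWi hZ
  unfold lawF
  rw [integrable_map_measure hψ.aestronglyMeasurable (measurable_fl _ _).aemeasurable,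
    integrable_jm hWi.1 (fun p => by linarith [hW1 (fl (ah * C') A p)]) (by linarith)]
  rfl

lemma prob_joint : IsProbabilityMeasure
    (jm ((gau J).prod (gau I)) (fun p => W (fl (ah * C') A p)) Z) := by
  have hZ1 := one_le_Z hW1 hWi hZ
  exact prob_jm hWi (fun p => by linarith [hW1 (fl (ah * C') A p)]) (by linarith) hZ

lemma prob_lawF : IsProbabilityMeasure (lawF ah C' A W Z) := by
  have := prob_joint hWm hW1 hWi hZ
  exact Measure.isProbabilityMeasure_map (measurable_fl _ _).aemeasurable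

lemma measurable_f : Measurable fun p : (J → ℝ) × (I → ℝ) => C' *ᵥ p.1 :=
  (measurable_mulVec C').comp measurable_fst

lemma prob_lawf : IsProbabilityMeasure (lawf ah C' A W Z) := by
  have := prob_joint hWm hW1 hWi hZ
  exact Measure.isProbabilityMeasure_map (measurable_f hWm hW1 hWi hZ).aemeasurable

lemma prod_fst_int {φ : (J → ℝ) → ℝ} (hφ : AEStronglyMeasurable φ (gau J))
    (hi : Integrable (fun a => mg (gau I) (fun p => W (fl (ah * C') A p)) a * |φ a|) (gau J)) :
    Integrable (fun p : (J → ℝ) × (I → ℝ) => W (fl (ah * C') A p) * φ p.1)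
      ((gau J).prod (gau I)) ∧
    ∫ p, W (fl (ah * C') A p) * φ p.1 ∂((gau J).prod (gau I))
      = ∫ a, mg (gau I) (fun p => W (fl (ah * C') A p)) a * φ a ∂(gau J) := by
  have hW0 : ∀ p, 0 ≤ W (fl (ah * C') A p) := fun p => by linarith [hW1 (fl (ah * C') A p)]
  have hI : Integrable (fun p : (J → ℝ) × (I → ℝ) => W (fl (ah * C') A p) * φ p.1)
      ((gau J).prod (gau I)) := by
    have hm : AEStronglyMeasurable (fun p : (J → ℝ) × (I → ℝ) => W (fl (ah * C') A p) * φ p.1)
        ((gau J).prod (gau I)) := hWi.1.mul hφ.comp_fst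
    rw [integrable_prod_iff hm]
    refine ⟨?_, ?_⟩
    · filter_upwards [hWi.prod_right_ae] with a ha
      exact ha.mul_const _
    · refine hi.congr (Filter.Eventually.of_forall fun a => ?_)
      simp only
      unfold mg
      rw [← integral_mul_const]
      refine integral_congr_ae (Filter.Eventually.of_forall fun g => ?_)
      simp only
      rw [norm_mul, Real.norm_eq_abs, Real.norm_eq_abs, abs_of_nonneg (hW0 _)]
  refine ⟨hI, ?_⟩
  rw [integral_prod _ hI]
  refine integral_congr_ae (Filter.Eventually.of_forall fun a => ?_)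
  simp only
  rw [integral_mul_const]
  rfl

/-- integrals of functions of `f` -/
lemma lawf_int {ψ : (Λ → ℝ) → ℝ} (hψ : Measurable ψ)
    (hi : Integrable (fun a => mg (gau I) (fun p => W (fl (ah * C') A p)) a * |ψ (C' *ᵥ a)|)
      (gau J)) :
    Integrable ψ (lawf ah C' A W Z) ∧
    ∫ f, ψ f ∂(lawf ah C' A W Z)
      = (∫ a, mg (gau I) (fun p => W (fl (ah * C') A p)) a * ψ (C' *ᵥ a) ∂(gau J)) / Z := by
  have hZ1 := one_le_Z hW1 hWi hZ
  have hmf := measurable_f (C' := C') (I := I) hWm hW1 hWi hZ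
  have h1 := prod_fst_int hWm hW1 hWi hZ (φ := fun a => ψ (C' *ᵥ a))
    (hψ.comp (measurable_mulVec C')).aestronglyMeasurable hi
  unfold lawf
  rw [integrable_map_measure hψ.aestronglyMeasurable hmf.aemeasurable,
    integral_map hmf.aemeasurable hψ.aestronglyMeasurable,
    integral_jm hWi.1 (fun p => by linarith [hW1 (fl (ah * C') A p)]) (by linarith)]
  refine ⟨?_, ?_⟩
  · have h2 := (integrable_jm (ψ := (ψ ∘ fun p : (J → ℝ) × (I → ℝ) => C' *ᵥ p.1)) hWi.1
      (fun p => by linarith [hW1 (fl (ah * C') A p)]) (by linarith : 0 < Z)).2 h1.1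
    exact h2
  · rw [h1.2]

end laws

end Vale.Agent.P159.H686
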