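import Vale.Agent.P159.H686.SwinF

/-!
P159 / H686: SWIN, part G. `Stp` for a pair of Gaussian levels (`stp_of`), push forward of `Stp`.
-/

namespace Vale.Agent.P159.H686

open MeasureTheory Finset Matrix
open Vale.Agent.P159.H37 (gau)
open Vale.Agent.P159.H363 (measurable_mulVec)
open scoped Real

variable {I J Λ β X : Type*} [Fintype I] [Fintype J] [Fintype Λ] [Fintype β] [MeasurableSpace X]
variable {ah : Matrix Λ Λ ℝ} {C' : Matrix Λ J ℝ} {A : Matrix Λ I ℝ} {W : (Λ → ℝ) → ℝ} {Z : ℝ}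

lemma abs_G_le {g L : ℝ} (h0 : 0 ≤ g) (h1 : g ≤ L) (hL : 1 ≤ L) : |g - 1| ≤ L := by
  rw [abs_le]
  constructor <;> linarith

section stp

variable (hWm : Measurable W) (hW1 : ∀ F, 1 ≤ W F)
  (hWi : Integrable (fun p => W (fl (ah * C') A p)) ((gau J).prod (gau I)))
  (hZ : Z = ∫ p, W (fl (ah * C') A p) ∂((gau J).prod (gau I)))

include hWm hW1 hWi hZ

/-- `L²` norms of functions of `F` -/
lemma wn_eq {ψ : (Λ → ℝ) → ℝ} (hψ : Measurable ψ) :
    wn ((gau J).prod (gau I)) (fun p => W (fl (ah * C') A p)) (fun p => ψ (fl (ah * C') A p))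
      = √(∫ F, ψ F ^ 2 ∂(lawF ah C' A W Z)) * √Z := by
  have hZ1 := one_le_Z hW1 hWi hZ
  have h := int_lawF hWm hW1 hWi hZ (ψ := fun F => ψ F ^ 2) (hψ.pow_const 2)
  rw [h, ← Real.sqrt_mul (div_nonneg (integral_nonneg fun p => mul_nonneg
    (by linarith [hW1 (fl (ah * C') A p)]) (sq_nonneg _)) (by linarith)), div_mul_cancel₀ _
    (by linarith)]
  rfl

lemma ae_lawf {P : (Λ → ℝ) → Prop} (hP : MeasurableSet {f | P f})
    (h : ∀ᵐ a ∂(gau J), P (C' *ᵥ a)) : ∀ᵐ f ∂(lawf ah C' A W Z), P f := by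
  unfold lawf
  rw [ae_map_iff (measurable_f hWm hW1 hWi hZ).aemeasurable hP]
  have h1 : ∀ᵐ p ∂((gau J).prod (gau I)), P (C' *ᵥ p.1) :=
    Measure.quasiMeasurePreserving_fst.ae h
  exact (withDensity_absolutelyContinuous _ _).ae_le h1

/-- **one window for a pair of Gaussian levels**, with the explicit decomposition -/
theorem stp_expl (D : Matrix β Λ ℝ) {ρ : ℝ} (hρ0 : 0 ≤ ρ)
    (hD : ∀ l : β → ℝ, ∑ j, (l ᵥ* (D * (ah * C'))) j ^ 2
      ≤ ρ ^ 2 * ∑ i, (l ᵥ* (D * A)) i ^ 2)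
    {B : Set (Λ → ℝ)} (hB : MeasurableSet B) {η b : ℝ} (hη0 : 0 ≤ η)
    (hη : ∀ F, F ∉ B → W F ≤ 1 + η)
    (hb : ∫ p in (fl (ah * C') A) ⁻¹' B, W (fl (ah * C') A p) ∂((gau J).prod (gau I)) ≤ b * Z)
    {w : (Λ → ℝ) → X} (hw : Measurable w) (hwD : ∀ F G : Λ → ℝ, D *ᵥ F = D *ᵥ G → w F = w G)
    {Ψ : (Λ → ℝ) → ℝ} (hΨ : Measurable Ψ) (hΨi : Integrable Ψ (lawF ah C' A W Z))
    {c : ℝ} (hc : 0 < c) (hmean : ∫ F, Ψ F ∂(lawF ah C' A W Z) = c)
    {G : X → ℝ} {e₂ e₁ : (Λ → ℝ) → ℝ} {L D0 e q : ℝ} (hG : Measurable G) (hG0 : ∀ z, 0 ≤ G z)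
    (hGL : ∀ z, G z ≤ L) (hL : 1 ≤ L) (he0 : 0 ≤ e)
    (he2m : Measurable e₂) (he1m : Measurable e₁)
    (hdec : ∀ F, Ψ F / c - 1 = (G (w F) - 1) + e₂ F + e₁ F)
    (hdst : dst (lawF ah C' A W Z) w G ≤ D0)
    (he2i : Integrable (fun F => e₂ F ^ 2) (lawF ah C' A W Z))
    (he2 : ∫ F, e₂ F ^ 2 ∂(lawF ah C' A W Z) ≤ e ^ 2)
    (he1i : Integrable (fun F => |e₁ F|) (lawF ah C' A W Z))
    (he1 : ∫ F, |e₁ F| ∂(lawF ah C' A W Z) ≤ q) :
    Integrable (fun f => tlF ah A W (fun F => (G (w F) - 1) + e₂ F) f ^ 2)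
      (lawf ah C' A W Z) ∧
    Integrable (fun f => |tlF ah A W e₁ f|) (lawf ah C' A W Z) ∧
    (∀ᵐ f ∂(lawf ah C' A W Z), tlF ah A W Ψ f / c
      = 1 + tlF ah A W (fun F => (G (w F) - 1) + e₂ F) f + tlF ah A W e₁ f) ∧
    ∫ f, tlF ah A W (fun F => (G (w F) - 1) + e₂ F) f ^ 2 ∂(lawf ah C' A W Z)
      ≤ dW (√(π ^ 2 / 8) * ρ) η b L D0 e q ^ 2 ∧
    ∫ f, |tlF ah A W e₁ f| ∂(lawf ah C' A W Z) ≤ q := by
  have hfl := measurable_fl (ah * C') A
  have hW0 : ∀ p : (J → ℝ) × (I → ℝ), 0 ≤ W (fl (ah * C') A p) := fun p => by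
    linarith [hW1 (fl (ah * C') A p)]
  have hZ1 := one_le_Z hW1 hWi hZ
  have hZ0 : 0 ≤ Z := by linarith
  have hL0 : 0 ≤ L := by linarith
  set loc : (Λ → ℝ) → ℝ := fun F => G (w F) - 1 with hloc
  have hlm : Measurable loc := (hG.comp hw).sub_const 1
  have hlL : ∀ F, |loc F| ≤ L := fun F => abs_G_le (hG0 _) (hGL _) hL
  have hlD : ∀ F F' : Λ → ℝ, D *ᵥ F = D *ᵥ F' → loc F = loc F' := fun F F' h => by
    simp only [hloc, hwD F F' h]
  obtain ⟨T, hT1, hT2⟩ := exists_T D hD hlD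
  obtain ⟨m, hm, hκ⟩ := pob_pu hlm hlL hρ0 T hT1 hT2
  -- integrals
  have il : Integrable (fun F => loc F ^ 2) (lawF ah C' A W Z) := by
    have := prob_lawF hWm hW1 hWi hZ
    refine Integrable.of_bound (hlm.pow_const 2).aestronglyMeasurable (L ^ 2)
      (Filter.Eventually.of_forall fun F => ?_)
    rw [Real.norm_eq_abs, abs_of_nonneg (sq_nonneg _), ← sq_abs]
    exact pow_le_pow_left₀ (abs_nonneg _) (hlL _) 2
  have Il : InL ((gau J).prod (gau I)) (fun p => W (fl (ah * C') A p))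
      (fun p => loc (fl (ah * C') A p)) :=
    ⟨(hlm.comp hfl).aestronglyMeasurable,
      (integrable_lawF hWm hW1 hWi hZ (hlm.pow_const 2)).1 il⟩
  have I2 : InL ((gau J).prod (gau I)) (fun p => W (fl (ah * C') A p))
      (fun p => e₂ (fl (ah * C') A p)) :=
    ⟨(he2m.comp hfl).aestronglyMeasurable,
      (integrable_lawF hWm hW1 hWi hZ (he2m.pow_const 2)).1 he2i⟩
  have i1 : Integrable (fun p => W (fl (ah * C') A p) * |e₁ (fl (ah * C') A p)|)
      ((gau J).prod (gau I)) :=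
    (integrable_lawF hWm hW1 hWi hZ (ψ := fun F => |e₁ F|) he1m.abs).1 he1i
  have IU : InL ((gau J).prod (gau I)) (fun p => W (fl (ah * C') A p))
      (fun p => loc (fl (ah * C') A p) + e₂ (fl (ah * C') A p)) := Il.add hW0 hWi.1 I2
  have n2 : wn ((gau J).prod (gau I)) (fun p => W (fl (ah * C') A p))
      (fun p => e₂ (fl (ah * C') A p)) ≤ e * √Z := by
    rw [wn_eq hWm hW1 hWi hZ he2m]
    refine mul_le_mul_of_nonneg_right ?_ (Real.sqrt_nonneg _)
    rw [← Real.sqrt_sq he0]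
    exact Real.sqrt_le_sqrt he2
  have nl : wn ((gau J).prod (gau I)) (fun p => W (fl (ah * C') A p))
      (fun p => loc (fl (ah * C') A p)) ≤ D0 * √Z := by
    rw [wn_eq hWm hW1 hWi hZ hlm]
    exact mul_le_mul_of_nonneg_right hdst (Real.sqrt_nonneg _)
  have nU : wn ((gau J).prod (gau I)) (fun p => W (fl (ah * C') A p))
      (fun p => loc (fl (ah * C') A p) + e₂ (fl (ah * C') A p)) ≤ (D0 + e) * √Z := by
    refine (wn_add_le hW0 hWi.1 Il I2).trans ?_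
    rw [add_mul]
    exact add_le_add nl n2
  have n1 : ∫ p, W (fl (ah * C') A p) * |e₁ (fl (ah * C') A p)| ∂((gau J).prod (gau I))
      ≤ q * Z := by
    have h := int_lawF hWm hW1 hWi hZ (ψ := fun F => |e₁ F|) he1m.abs
    rw [h, div_le_iff₀ (by linarith)] at he1
    exact he1
  -- mean
  have iΨ := (integrable_lawF hWm hW1 hWi hZ hΨ).1 hΨi
  have mΨ : ∫ p, W (fl (ah * C') A p) * Ψ (fl (ah * C') A p) ∂((gau J).prod (gau I)) = c * Z := by
    have h := int_lawF hWm hW1 hWi hZ hΨ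
    rw [hmean, eq_div_iff (by linarith)] at h
    exact h.symm
  have i0 : Integrable (fun p => W (fl (ah * C') A p) * (Ψ (fl (ah * C') A p) / c - 1))
      ((gau J).prod (gau I)) := by
    refine ((iΨ.div_const c).sub hWi).congr (Filter.Eventually.of_forall fun p => ?_)
    simp only [Pi.sub_apply]
    ring
  have hmn : ∫ p, W (fl (ah * C') A p) * ((loc (fl (ah * C') A p) + e₂ (fl (ah * C') A p))
      + e₁ (fl (ah * C') A p)) ∂((gau J).prod (gau I)) = 0 := by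
    have e1 : ∀ p : (J → ℝ) × (I → ℝ), W (fl (ah * C') A p)
        * ((loc (fl (ah * C') A p) + e₂ (fl (ah * C') A p)) + e₁ (fl (ah * C') A p))
        = W (fl (ah * C') A p) * Ψ (fl (ah * C') A p) / c - W (fl (ah * C') A p) := by
      intro p
      rw [← hdec (fl (ah * C') A p)]
      ring
    simp only [e1]
    rw [integral_sub (iΨ.div_const c) hWi, integral_div, mΨ, ← hZ]
    field_simp
    ring
  obtain ⟨s1, s2, s3, s4, s5, s6⟩ := swin_expl (μ₁ := gau J) (μ₂ := gau I)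
    (W := fun p => W (fl (ah * C') A p)) (loc := fun p => loc (fl (ah * C') A p))
    (B := (fl (ah * C') A) ⁻¹' B) (η := η) (L := L) (m := m) (κ := √(π ^ 2 / 8) * ρ)
    (u := fun p => loc (fl (ah * C') A p) + e₂ (fl (ah * C') A p))
    (v := fun p => e₁ (fl (ah * C') A p))
    (e₂ := fun p => e₂ (fl (ah * C') A p)) (e₁ := fun p => e₁ (fl (ah * C') A p))
    (d := D0 + e) (e := e) (q := q) (q₀ := q) (b := b) (Z := Z)
    (fun p => hW1 _) hWi (hfl hB) hη0 (fun p hp => hη _ hp) (hlm.comp hfl) hL0 (fun p => hlL _)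
    hm (by positivity) hκ hZ (fun p => rfl) IU (he1m.comp hfl).aestronglyMeasurable i1
    I2 (he1m.comp hfl).aestronglyMeasurable i1 nU n1 n2 n1 hb hmn
  have hum : Measurable (tlF ah A W fun F => loc F + e₂ F) := measurable_tlF hWm (hlm.add he2m)
  have hvm : Measurable (tlF ah A W e₁) := measurable_tlF hWm he1m
  have hpm : Measurable (tlF ah A W Ψ) := measurable_tlF hWm hΨ
  have eu : ∀ a, tlF ah A W (fun F => loc F + e₂ F) (C' *ᵥ a)
      = tl (gau I) (fun p => W (fl (ah * C') A p))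
        (fun p => loc (fl (ah * C') A p) + e₂ (fl (ah * C') A p)) a := fun a => tlF_eq _ _ _ _ _ _
  have ev : ∀ a, tlF ah A W e₁ (C' *ᵥ a)
      = tl (gau I) (fun p => W (fl (ah * C') A p)) (fun p => e₁ (fl (ah * C') A p)) a :=
    fun a => tlF_eq _ _ _ _ _ _
  have iu : Integrable (fun a => mg (gau I) (fun p => W (fl (ah * C') A p)) a
      * |(fun f => tlF ah A W (fun F => loc F + e₂ F) f ^ 2) (C' *ᵥ a)|) (gau J) := by
    refine s2.int.congr (Filter.Eventually.of_forall fun a => ?_)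
    simp only [eu, abs_pow, sq_abs]
  have iv : Integrable (fun a => mg (gau I) (fun p => W (fl (ah * C') A p)) a
      * |(fun f => |tlF ah A W e₁ f|) (C' *ᵥ a)|) (gau J) := by
    refine s4.congr (Filter.Eventually.of_forall fun a => ?_)
    simp only [ev, abs_abs]
  obtain ⟨ju, ku⟩ := lawf_int hWm hW1 hWi hZ (ψ := fun f =>
    tlF ah A W (fun F => loc F + e₂ F) f ^ 2) (hum.pow_const 2) iu
  obtain ⟨jv, kv⟩ := lawf_int hWm hW1 hWi hZ (ψ := fun f => |tlF ah A W e₁ f|) hvm.abs iv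
  refine ⟨ju, jv, ?_, ?_, ?_⟩
  · apply ae_lawf hWm hW1 hWi hZ
    · exact measurableSet_eq_fun (hpm.div_const c) ((hum.const_add 1).add hvm)
    · -- tilted expectation of `Ψ / c - 1`
      filter_upwards [s1, iΨ.prod_right_ae, hWi.prod_right_ae,
        mg_ge_one (μ₁ := gau J) (μ₂ := gau I) (fun p => hW1 (fl (ah * C') A p)) hWi]
        with a h1 h2 h3 h4
      rw [eu, ev, add_assoc, ← h1, tlF_eq]
      unfold tl
      have h0 : mg (gau I) (fun p => W (fl (ah * C') A p)) a ≠ 0 := by linarith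
      have e1 : ∫ g, W (fl (ah * C') A (a, g))
          * (loc (fl (ah * C') A (a, g)) + e₂ (fl (ah * C') A (a, g))
            + e₁ (fl (ah * C') A (a, g))) ∂(gau I)
          = (∫ g, W (fl (ah * C') A (a, g)) * Ψ (fl (ah * C') A (a, g)) ∂(gau I)) / c
            - mg (gau I) (fun p => W (fl (ah * C') A p)) a := by
        unfold mg
        rw [← integral_div, ← integral_sub (h2.div_const c) h3]
        refine integral_congr_ae (Filter.Eventually.of_forall fun g => ?_)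
        simp only
        rw [← hdec (fl (ah * C') A (a, g))]
        ring
      simp only at e1 ⊢
      rw [e1]
      field_simp
      ring
  · rw [ku, div_le_iff₀ (by linarith)]
    simp only [eu]
    have hmg := mg_nonneg (μ₂ := gau I) hW0
    rw [← wn_sq hmg]
    refine (pow_le_pow_left₀ wn_nonneg s6 2).trans (le_of_eq ?_)
    rw [mul_pow, Real.sq_sqrt hZ0]
    congr 2
    unfold dW
    have : L * (q + q) = 2 * L * q := by ring
    rw [this]
    ring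
  · rw [kv, div_le_iff₀ (by linarith)]
    simp only [ev]
    exact s5

/-- **`Stp` for a pair of Gaussian levels** -/
theorem stp_of (D : Matrix β Λ ℝ) {ρ : ℝ} (hρ0 : 0 ≤ ρ)
    (hD : ∀ l : β → ℝ, ∑ j, (l ᵥ* (D * (ah * C'))) j ^ 2
      ≤ ρ ^ 2 * ∑ i, (l ᵥ* (D * A)) i ^ 2)
    {B : Set (Λ → ℝ)} (hB : MeasurableSet B) {η b : ℝ} (hη0 : 0 ≤ η)
    (hη : ∀ F, F ∉ B → W F ≤ 1 + η)
    (hb : ∫ p in (fl (ah * C') A) ⁻¹' B, W (fl (ah * C') A p) ∂((gau J).prod (gau I)) ≤ b * Z)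
    {w : (Λ → ℝ) → X} (hw : Measurable w) (hwD : ∀ F G : Λ → ℝ, D *ᵥ F = D *ᵥ G → w F = w G)
    {Ψ : (Λ → ℝ) → ℝ} (hΨ : Measurable Ψ) (hΨi : Integrable Ψ (lawF ah C' A W Z))
    {c : ℝ} (hc : 0 < c) (hmean : ∫ F, Ψ F ∂(lawF ah C' A W Z) = c) :
    Stp (lawF ah C' A W Z) (lawf ah C' A W Z) Ψ (tlF ah A W Ψ) c w (√(π ^ 2 / 8) * ρ) η b := by
  intro G e₂ e₁ L D0 e q hG hG0 hGL hL _ he0 _ he2m he1m hdec hdst he2i he2 he1i he1
  obtain ⟨h1, h2, h3, h4, h5⟩ := stp_expl hWm hW1 hWi hZ D hρ0 hD hB hη0 hη hb hw hwD hΨ hΨi hc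
    hmean hG hG0 hGL hL he0 he2m he1m hdec hdst he2i he2 he1i he1
  exact ⟨_, _, (measurable_tlF hWm (((hG.comp hw).sub_const 1).add he2m)).aestronglyMeasurable,
    (measurable_tlF hWm he1m).aestronglyMeasurable, h1, h2, h3, h4, h5⟩

/-- **`Stp` for the pushed forward laws** (`σ` = subtraction of the value at the base point) -/
theorem stp_cen (D : Matrix β Λ ℝ) {ρ : ℝ} (hρ0 : 0 ≤ ρ)
    (hD : ∀ l : β → ℝ, ∑ j, (l ᵥ* (D * (ah * C'))) j ^ 2
      ≤ ρ ^ 2 * ∑ i, (l ᵥ* (D * A)) i ^ 2)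
    {B : Set (Λ → ℝ)} (hB : MeasurableSet B) {η b : ℝ} (hη0 : 0 ≤ η)
    (hη : ∀ F, F ∉ B → W F ≤ 1 + η)
    (hb : ∫ p in (fl (ah * C') A) ⁻¹' B, W (fl (ah * C') A p) ∂((gau J).prod (gau I)) ≤ b * Z)
    {w : (Λ → ℝ) → X} (hw : Measurable w) (hwD : ∀ F G : Λ → ℝ, D *ᵥ F = D *ᵥ G → w F = w G)
    {Ψ : (Λ → ℝ) → ℝ} (hΨ : Measurable Ψ) (hΨi : Integrable Ψ (lawF ah C' A W Z))
    {c : ℝ} (hc : 0 < c) (hmean : ∫ F, Ψ F ∂(lawF ah C' A W Z) = c)
    {σ : (Λ → ℝ) → Λ → ℝ} (hσ : Measurable σ) (hσσ : ∀ F, σ (σ F) = σ F)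
    (hσΨ : ∀ F, Ψ (σ F) = Ψ F) (hσw : ∀ F, w (σ F) = w F)
    (hσt : ∀ ψ : (Λ → ℝ) → ℝ, (∀ F, ψ (σ F) = ψ F) →
      ∀ f, tlF ah A W ψ (σ f) = tlF ah A W ψ f) :
    Stp ((lawF ah C' A W Z).map σ) ((lawf ah C' A W Z).map σ) Ψ (tlF ah A W Ψ) c w
      (√(π ^ 2 / 8) * ρ) η b := by
  intro G e₂ e₁ L D0 e q hG hG0 hGL hL _ he0 _ he2m he1m hdec hdst he2i he2 he1i he1
  have hGw : Measurable fun F => (G (w F) - 1) ^ 2 := ((hG.comp hw).sub_const 1).pow_const 2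
  have hlf : ∀ {ψ : (Λ → ℝ) → ℝ}, Measurable ψ → (∀ F, ψ (σ F) = ψ F) →
      (Integrable ψ (lawf ah C' A W Z) → Integrable ψ ((lawf ah C' A W Z).map σ)) ∧
      ∫ f, ψ f ∂((lawf ah C' A W Z).map σ) = ∫ f, ψ f ∂(lawf ah C' A W Z) := by
    intro ψ hψ hs
    constructor
    · intro h
      rw [integrable_map_measure hψ.aestronglyMeasurable hσ.aemeasurable]
      exact h.congr (Filter.Eventually.of_forall fun f => (hs f).symm)
    · rw [integral_map hσ.aemeasurable hψ.aestronglyMeasurable]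
      simp only [hs]
  have hdec' : ∀ F, Ψ F / c - 1 = (G (w F) - 1) + e₂ (σ F) + e₁ (σ F) := fun F => by
    have := hdec (σ F)
    rwa [hσΨ, hσw] at this
  have hdst' : dst (lawF ah C' A W Z) w G ≤ D0 := by
    have e : dst ((lawF ah C' A W Z).map σ) w G = dst (lawF ah C' A W Z) w G := by
      unfold dst
      rw [integral_map hσ.aemeasurable hGw.aestronglyMeasurable]
      simp only [hσw]
    rwa [e] at hdst
  have m2 : Measurable fun F => e₂ F ^ 2 := he2m.pow_const 2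
  rw [integrable_map_measure m2.aestronglyMeasurable hσ.aemeasurable] at he2i
  rw [integral_map hσ.aemeasurable m2.aestronglyMeasurable] at he2
  rw [integrable_map_measure he1m.abs.aestronglyMeasurable hσ.aemeasurable] at he1i
  rw [integral_map hσ.aemeasurable he1m.abs.aestronglyMeasurable] at he1
  obtain ⟨h1, h2, h3, h4, h5⟩ := stp_expl hWm hW1 hWi hZ D hρ0 hD hB hη0 hη hb hw hwD hΨ hΨi hc
    hmean hG hG0 hGL hL he0 (he2m.comp hσ) (he1m.comp hσ) hdec' hdst' he2i he2 he1i he1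
  have mu : Measurable (tlF ah A W fun F => (G (w F) - 1) + (e₂ ∘ σ) F) :=
    measurable_tlF hWm (((hG.comp hw).sub_const 1).add (he2m.comp hσ))
  have mv : Measurable (tlF ah A W (e₁ ∘ σ)) := measurable_tlF hWm (he1m.comp hσ)
  have mp : Measurable (tlF ah A W Ψ) := measurable_tlF hWm hΨ
  have su : ∀ f, tlF ah A W (fun F => (G (w F) - 1) + (e₂ ∘ σ) F) (σ f)
      = tlF ah A W (fun F => (G (w F) - 1) + (e₂ ∘ σ) F) f := hσt _ fun F => by
    simp only [Function.comp, hσw, hσσ]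
  have sv : ∀ f, tlF ah A W (e₁ ∘ σ) (σ f) = tlF ah A W (e₁ ∘ σ) f := hσt _ fun F => by
    simp only [Function.comp, hσσ]
  have sp := hσt Ψ hσΨ
  obtain ⟨k1, k2⟩ := hlf (mu.pow_const 2) (fun f => by simp only [su])
  obtain ⟨k3, k4⟩ := hlf mv.abs (fun f => by simp only [sv])
  refine ⟨_, _, mu.aestronglyMeasurable, mv.aestronglyMeasurable, k1 h1, k3 h2, ?_, ?_, ?_⟩
  · have hms : MeasurableSet {f | tlF ah A W Ψ f / c
        = 1 + tlF ah A W (fun F => (G (w F) - 1) + (e₂ ∘ σ) F) f + tlF ah A W (e₁ ∘ σ) f} :=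
      measurableSet_eq_fun (mp.div_const c) ((mu.const_add 1).add mv)
    rw [ae_map_iff hσ.aemeasurable hms]
    filter_upwards [h3] with f hf
    rw [sp, su, sv]
    exact hf
  · rw [k2]
    exact h4
  · rw [k4]
    exact h5

end stp

/-- subtraction of the value at the base point -/
def cn (x0 : Λ) (F : Λ → ℝ) : Λ → ℝ := fun x => F x - F x0

lemma measurable_cn (x0 : Λ) : Measurable (cn x0) :=
  measurable_pi_lambda _ fun x => (measurable_pi_apply x).sub (measurable_pi_apply x0)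

lemma cn_cn (x0 : Λ) (F : Λ → ℝ) : cn x0 (cn x0 F) = cn x0 F := by
  funext x
  simp [cn]

lemma cn_eq (x0 : Λ) (F : Λ → ℝ) : cn x0 F = F + fun _ => -F x0 := by
  funext x
  simp [cn, sub_eq_add_neg]

/-- `tlF` of a function invariant by constants is invariant -/
lemma tlF_cn {x0 : Λ} {r : ℝ} (hah : ah *ᵥ (fun _ => (1 : ℝ)) = fun _ => r)
    (hWc : ∀ F, W (cn x0 F) = W F) {ψ : (Λ → ℝ) → ℝ} (hψ : ∀ F, ψ (cn x0 F) = ψ F)
    (f : Λ → ℝ) : tlF ah A W ψ (cn x0 f) = tlF ah A W ψ f := by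
  have inv : ∀ {φ : (Λ → ℝ) → ℝ}, (∀ F, φ (cn x0 F) = φ F) → ∀ (F : Λ → ℝ) (s : ℝ),
      φ (F + fun _ => s) = φ F := by
    intro φ h F s
    rw [← h (F + fun _ => s), ← h F]
    congr 1
    funext x
    simp [cn]
  have e : ∀ g : I → ℝ, ah *ᵥ (cn x0 f) + A *ᵥ g = (ah *ᵥ f + A *ᵥ g) + fun _ => -f x0 * r := by
    intro g
    rw [cn_eq, mulVec_add]
    have : ah *ᵥ (fun _ => -f x0) = fun _ => -f x0 * r := by
      have h1 : (fun _ : Λ => -f x0) = (-f x0) • fun _ : Λ => (1 : ℝ) := by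
        funext x
        simp
      rw [h1, mulVec_smul, hah]
      funext x
      simp
    rw [this]
    abel
  unfold tlF
  simp only [e, inv hWc, inv hψ]

end Vale.Agent.P159.H686
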