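import Vale.Agent.P159.H686.SwinC

/-!
P159 / H686: XFER. State of a dislocation functional on one torus / position from the state on
another one, through a common window functional `G`, and the relation between the two means.

`Ψ/c = G(w)(1 ± δ)` on `Gd`, `Ψ'/κ = G(w')(1 ± δ)` on `Gd'`, `0 ≤ G ≤ L`; the window laws agree
up to a factor `1 ± h` and a small additive error. Then `c' = κ (1 + small)`.
-/

namespace Vale.Agent.P159.H686

open MeasureTheory

variable {Ω Ω' X : Type*} [MeasurableSpace Ω] [MeasurableSpace Ω'] [MeasurableSpace X]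

/-- locality: `Ψ/c` is `G ∘ w` up to the relative error `δ` on `Gd`, small mass off `Gd` -/
structure Lcl (ν : Measure Ω) (Ψ : Ω → ℝ) (c κ : ℝ) (w : Ω → X) (G : X → ℝ) (Gd : Set Ω)
    (L δ q b : ℝ) : Prop where
  hc : 0 < c
  hκ : 0 < κ
  Ψ0 : ∀ x, 0 ≤ Ψ x
  Ψm : Measurable Ψ
  Ψi : Integrable Ψ ν
  mean : ∫ x, Ψ x ∂ν = c
  wm : Measurable w
  Gm : Measurable G
  G0 : ∀ z, 0 ≤ G z
  Gb : ∀ z, G z ≤ L
  Gdm : MeasurableSet Gd
  loc : ∀ x ∈ Gd, |Ψ x / κ - G (w x)| ≤ δ * G (w x)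
  Q : ∫ x in Gdᶜ, Ψ x ∂ν ≤ q * c
  P : ν.real Gdᶜ ≤ b

/-- comparison of the window laws -/
def Cmp (ν : Measure Ω) (ν' : Measure Ω') (w : Ω → X) (w' : Ω' → X) (h τ : ℝ) : Prop :=
  ∀ (ψ : X → ℝ) (B : ℝ), Measurable ψ → (∀ z, 0 ≤ ψ z) → (∀ z, ψ z ≤ B) →
    |∫ x, ψ (w' x) ∂ν' - ∫ x, ψ (w x) ∂ν| ≤ h * ∫ x, ψ (w x) ∂ν + τ * B

variable {ν : Measure Ω} {ν' : Measure Ω'} [IsProbabilityMeasure ν] [IsProbabilityMeasure ν']
  {Ψ : Ω → ℝ} {Ψ' : Ω' → ℝ} {c c' κ : ℝ} {w : Ω → X} {w' : Ω' → X} {G : X → ℝ}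
  {Gd : Set Ω} {Gd' : Set Ω'} {L δ q b h τ : ℝ}

lemma Lcl.Gi (H : Lcl ν Ψ c κ w G Gd L δ q b) : Integrable (fun x => G (w x)) ν :=
  Integrable.of_bound (H.Gm.comp H.wm).aestronglyMeasurable L
    (Filter.Eventually.of_forall fun x => by
      rw [Real.norm_eq_abs, abs_of_nonneg (H.G0 _)]
      exact H.Gb _)

lemma Lcl.nonempty (_ : Lcl ν Ψ c κ w G Gd L δ q b) : Nonempty Ω := by
  by_contra hne
  rw [not_nonempty_iff] at hne
  have h1 : ν Set.univ = 0 := by
    rw [Set.eq_empty_of_isEmpty Set.univ, measure_empty]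
  rw [measure_univ] at h1
  exact one_ne_zero h1

lemma Lcl.L0 (H : Lcl ν Ψ c κ w G Gd L δ q b) : 0 ≤ L := by
  obtain ⟨x⟩ := H.nonempty
  exact (H.G0 (w x)).trans (H.Gb (w x))

lemma Lcl.b0 (H : Lcl ν Ψ c κ w G Gd L δ q b) : 0 ≤ b := measureReal_nonneg.trans H.P

/-- the mean of `G`, two-sided: `m = ∫ G(w)`, `r = c/κ` -/
lemma Lcl.mean_le (H : Lcl ν Ψ c κ w G Gd L δ q b) (hδ0 : 0 ≤ δ) :
    (1 - q) * (c / κ) ≤ (1 + δ) * ∫ x, G (w x) ∂ν ∧
      (1 - δ) * ∫ x, G (w x) ∂ν ≤ c / κ + L * b := by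
  set m := ∫ x, G (w x) ∂ν with hm
  have hκ := H.hκ
  have iG := H.Gi
  have iΨ : Integrable (fun x => Ψ x / κ) ν := H.Ψi.div_const κ
  have e1 : ∫ x, Ψ x / κ ∂ν = c / κ := by rw [integral_div, H.mean]
  have s1 := integral_add_compl H.Gdm iΨ
  have s2 := integral_add_compl H.Gdm iG
  have q1 : ∫ x in Gdᶜ, Ψ x / κ ∂ν ≤ q * (c / κ) := by
    rw [integral_div, ← mul_div_assoc]
    exact div_le_div_of_nonneg_right H.Q hκ.le
  have q0 : 0 ≤ ∫ x in Gdᶜ, Ψ x / κ ∂ν :=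
    integral_nonneg fun x => div_nonneg (H.Ψ0 x) hκ.le
  have g0 : 0 ≤ ∫ x in Gdᶜ, G (w x) ∂ν := integral_nonneg fun x => H.G0 _
  have g1 : ∫ x in Gdᶜ, G (w x) ∂ν ≤ L * b := by
    have h1 : ∫ x in Gdᶜ, G (w x) ∂ν ≤ ∫ _ in Gdᶜ, L ∂ν :=
      integral_mono iG.integrableOn (integrable_const _) fun x => H.Gb _
    refine h1.trans ?_
    rw [setIntegral_const, smul_eq_mul, mul_comm]
    exact mul_le_mul_of_nonneg_left H.P H.L0
  have a1 : ∫ x in Gd, Ψ x / κ ∂ν ≤ (1 + δ) * ∫ x in Gd, G (w x) ∂ν := by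
    rw [← integral_const_mul]
    refine setIntegral_mono_on iΨ.integrableOn (iG.const_mul _).integrableOn H.Gdm fun x hx => ?_
    have := (abs_le.1 (H.loc x hx)).2
    linarith
  have a2 : (1 - δ) * ∫ x in Gd, G (w x) ∂ν ≤ ∫ x in Gd, Ψ x / κ ∂ν := by
    rw [← integral_const_mul]
    refine setIntegral_mono_on (iG.const_mul _).integrableOn iΨ.integrableOn H.Gdm fun x hx => ?_
    have := (abs_le.1 (H.loc x hx)).1
    linarith
  have g2 : 0 ≤ ∫ x in Gd, G (w x) ∂ν := integral_nonneg fun x => H.G0 _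
  constructor
  · have h1 : ∫ x in Gd, G (w x) ∂ν ≤ m := by linarith
    nlinarith
  · nlinarith

/-- step 1: `L²` norm of `G - 1` from the state `u, v` (here `κ = c`) -/
theorem Lcl.norm_le (H : Lcl ν Ψ c c w G Gd L δ q b) (hδ0 : 0 ≤ δ) (hδ : δ ≤ 1 / 2)
    (hL : 1 ≤ L) {u v : Ω → ℝ} {d q₀ : ℝ} (hd0 : 0 ≤ d)
    (hum : AEStronglyMeasurable u ν) (hui : Integrable (fun x => u x ^ 2) ν)
    (hu : ∫ x, u x ^ 2 ∂ν ≤ d ^ 2) (hvi : Integrable (fun x => |v x|) ν)
    (hv : ∫ x, |v x| ∂ν ≤ q₀) (hdec : ∀ᵐ x ∂ν, Ψ x / c = 1 + u x + v x) :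
    √(∫ x, (G (w x) - 1) ^ 2 ∂ν) ≤ 2 * (δ + d) + √(2 * L * q₀ + L ^ 2 * b) := by
  have hGm : Measurable fun x => G (w x) - 1 := (H.Gm.comp H.wm).sub_const 1
  have hab : ∀ x, |G (w x) - 1| ≤ L := fun x => by
    have h0 := H.G0 (w x)
    have h1 := H.Gb (w x)
    rw [abs_le]
    constructor <;> linarith
  set S := ∫ x, (G (w x) - 1) ^ 2 ∂ν with hS
  have iS : Integrable (fun x => (G (w x) - 1) ^ 2) ν := by
    refine Integrable.of_bound (hGm.pow_const 2).aestronglyMeasurable (L ^ 2)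
      (Filter.Eventually.of_forall fun x => ?_)
    rw [Real.norm_eq_abs, abs_of_nonneg (sq_nonneg _), ← sq_abs]
    exact pow_le_pow_left₀ (abs_nonneg _) (hab x) 2
  have hS0 : 0 ≤ S := integral_nonneg fun x => sq_nonneg _
  -- pointwise bound on the good set
  have hpt : ∀ᵐ x ∂ν, x ∈ Gd → (G (w x) - 1) ^ 2
      ≤ |G (w x) - 1| * (2 * (δ + |u x|)) + 2 * L * |v x| := by
    filter_upwards [hdec] with x hx hxG
    have h1 := H.loc x hxG
    rw [hx] at h1
    have h0 := H.G0 (w x)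
    have h2 : |G (w x) - 1| ≤ δ * G (w x) + |u x| + |v x| := by
      have e : G (w x) - 1 = -((1 + u x + v x) - G (w x)) + (u x + v x) := by ring
      rw [e]
      refine (abs_add_le _ _).trans ?_
      rw [abs_neg]
      have := abs_add_le (u x) (v x)
      linarith
    have h3 : G (w x) ≤ 1 + |G (w x) - 1| := by
      have := le_abs_self (G (w x) - 1)
      linarith
    have h4 : |G (w x) - 1| ≤ 2 * (δ + |u x|) + 2 * |v x| := by
      have h5 : δ * G (w x) ≤ δ * (1 + |G (w x) - 1|) := mul_le_mul_of_nonneg_left h3 hδ0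
      have h6 : δ * |G (w x) - 1| ≤ 1 / 2 * |G (w x) - 1| :=
        mul_le_mul_of_nonneg_right hδ (abs_nonneg _)
      nlinarith [abs_nonneg (u x), abs_nonneg (v x)]
    have h7 := mul_le_mul_of_nonneg_left h4 (abs_nonneg (G (w x) - 1))
    have h8 : |G (w x) - 1| * (2 * |v x|) ≤ L * (2 * |v x|) :=
      mul_le_mul_of_nonneg_right (hab x) (by positivity)
    rw [← sq_abs]
    nlinarith
  have iu1 : Integrable (fun x => |u x|) ν := by
    refine ((integrable_const (1 : ℝ)).add hui).mono' hum.norm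
      (Filter.Eventually.of_forall fun x => ?_)
    rw [Real.norm_eq_abs, abs_abs, Pi.add_apply, ← sq_abs (u x)]
    nlinarith [sq_nonneg (|u x| - 1), abs_nonneg (u x)]
  have iA : Integrable (fun x => |G (w x) - 1| * (2 * (δ + |u x|))) ν := by
    have hA : Integrable (fun x => 2 * (δ + |u x|)) ν :=
      ((integrable_const δ).add iu1).const_mul 2
    exact hA.bdd_mul hGm.norm.aestronglyMeasurable
      (Filter.Eventually.of_forall fun x => by
        rw [Real.norm_eq_abs, abs_abs]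
        exact hab x)
  have iV : Integrable (fun x => 2 * L * |v x|) ν := hvi.const_mul _
  have iAV := iA.add iV
  have b1 : ∫ x in Gd, (G (w x) - 1) ^ 2 ∂ν
      ≤ ∫ x, (|G (w x) - 1| * (2 * (δ + |u x|)) + 2 * L * |v x|) ∂ν := by
    have hmono : ∫ x in Gd, (G (w x) - 1) ^ 2 ∂ν
        ≤ ∫ x in Gd, (|G (w x) - 1| * (2 * (δ + |u x|)) + 2 * L * |v x|) ∂ν := by
      refine setIntegral_mono_on_ae iS.integrableOn iAV.integrableOn H.Gdm ?_
      filter_upwards [hpt] with x hx hxG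
      exact hx hxG
    refine hmono.trans ?_
    refine setIntegral_le_integral iAV (Filter.Eventually.of_forall fun x => ?_)
    have hL0 : 0 ≤ L := by linarith
    simp only [Pi.zero_apply]
    positivity
  have b2 : ∫ x in Gdᶜ, (G (w x) - 1) ^ 2 ∂ν ≤ L ^ 2 * b := by
    have h1 : ∫ x in Gdᶜ, (G (w x) - 1) ^ 2 ∂ν ≤ ∫ _ in Gdᶜ, L ^ 2 ∂ν :=
      integral_mono iS.integrableOn (integrable_const _) fun x => by
        simp only
        rw [← sq_abs]
        exact pow_le_pow_left₀ (abs_nonneg _) (hab x) 2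
    refine h1.trans ?_
    rw [setIntegral_const, smul_eq_mul, mul_comm]
    exact mul_le_mul_of_nonneg_left H.P (sq_nonneg _)
  -- Cauchy-Schwarz
  have b3 : ∫ x, |G (w x) - 1| * (2 * (δ + |u x|)) ∂ν ≤ √S * (2 * (δ + d)) := by
    have iS1 : Integrable (fun x => |G (w x) - 1| * 1) ν := by
      simp only [mul_one]
      refine Integrable.of_bound hGm.norm.aestronglyMeasurable L
        (Filter.Eventually.of_forall fun x => ?_)
      rw [Real.norm_eq_abs, abs_abs]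
      exact hab x
    have cs1 := Vale.Agent.P159.H552.int_cs (m := ν) (u := fun x => |G (w x) - 1|)
      (v := fun _ => (1 : ℝ)) (by simpa only [sq_abs] using iS) (by simp) iS1
    simp only [sq_abs, mul_one, one_pow, integral_const, probReal_univ, smul_eq_mul] at cs1
    have cs1' : ∫ x, |G (w x) - 1| ∂ν ≤ √S := Real.le_sqrt_of_sq_le (by simpa using cs1)
    have iSu : Integrable (fun x => |G (w x) - 1| * |u x|) ν :=
      iu1.bdd_mul hGm.norm.aestronglyMeasurable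
        (Filter.Eventually.of_forall fun x => by
          rw [Real.norm_eq_abs, abs_abs]
          exact hab x)
    have cs2 := Vale.Agent.P159.H552.int_cs (m := ν) (u := fun x => |G (w x) - 1|)
      (v := fun x => |u x|) (by simpa only [sq_abs] using iS) (by simpa only [sq_abs] using hui) iSu
    simp only [sq_abs] at cs2
    have cs2' : ∫ x, |G (w x) - 1| * |u x| ∂ν ≤ √S * d := by
      refine le_trans (Real.le_sqrt_of_sq_le (cs2.trans (mul_le_mul_of_nonneg_left hu hS0))) ?_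
      rw [Real.sqrt_mul hS0, Real.sqrt_sq hd0]
    have e : ∀ x, |G (w x) - 1| * (2 * (δ + |u x|))
        = 2 * δ * |G (w x) - 1| + 2 * (|G (w x) - 1| * |u x|) := fun x => by ring
    simp only [e]
    simp only [mul_one] at iS1
    rw [integral_add (iS1.const_mul _) (iSu.const_mul _), integral_const_mul, integral_const_mul]
    have := mul_le_mul_of_nonneg_left cs1' (by positivity : 0 ≤ 2 * δ)
    have := mul_le_mul_of_nonneg_left cs2' (by norm_num : (0 : ℝ) ≤ 2)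
    nlinarith
  have hb : S ≤ √S * (2 * (δ + d)) + (2 * L * q₀ + L ^ 2 * b) := by
    have h1 : S = ∫ x in Gd, (G (w x) - 1) ^ 2 ∂ν + ∫ x in Gdᶜ, (G (w x) - 1) ^ 2 ∂ν :=
      (integral_add_compl H.Gdm iS).symm
    have h2 : ∫ x, (|G (w x) - 1| * (2 * (δ + |u x|)) + 2 * L * |v x|) ∂ν
        = ∫ x, |G (w x) - 1| * (2 * (δ + |u x|)) ∂ν + 2 * L * ∫ x, |v x| ∂ν := by
      rw [integral_add iA iV, integral_const_mul]
    have h3 : 2 * L * ∫ x, |v x| ∂ν ≤ 2 * L * q₀ := mul_le_mul_of_nonneg_left hv (by linarith)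
    rw [h2] at b1
    linarith
  have hq0 : 0 ≤ q₀ := (integral_nonneg fun x => abs_nonneg (v x)).trans hv
  set r := √(2 * L * q₀ + L ^ 2 * b) with hr
  have hr0 : 0 ≤ r := Real.sqrt_nonneg _
  have hb0 := H.b0
  have hr2 : r ^ 2 = 2 * L * q₀ + L ^ 2 * b := Real.sq_sqrt (by positivity)
  by_contra hcon
  rw [not_le] at hcon
  have hSS : √S ^ 2 = S := Real.sq_sqrt hS0
  have : √S * (2 * (δ + d)) + r ^ 2 < √S ^ 2 := by
    have h1 : r ≤ √S := by linarith [mul_nonneg (by norm_num : (0 : ℝ) ≤ 2) (add_nonneg hδ0 hd0)]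
    have h2 : 0 ≤ 2 * (δ + d) := by positivity
    nlinarith
  rw [hSS, hr2] at this
  linarith

end Vale.Agent.P159.H686
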