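import Vale.Agent.P159.H686.Xfer

/-!
P159 / H686: XFER, second part: the transfer theorem.
-/

namespace Vale.Agent.P159.H686

open MeasureTheory

variable {Ω Ω' X : Type*} [MeasurableSpace Ω] [MeasurableSpace Ω'] [MeasurableSpace X]
  {ν : Measure Ω} {ν' : Measure Ω'} [IsProbabilityMeasure ν] [IsProbabilityMeasure ν']
  {Ψ : Ω → ℝ} {Ψ' : Ω' → ℝ} {c c' κ : ℝ} {w : Ω → X} {w' : Ω' → X} {G : X → ℝ}
  {Gd : Set Ω} {Gd' : Set Ω'} {L δ q b h τ : ℝ}

/-- the `L²` distance of a window functional from `1` -/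
noncomputable def dst (ν : Measure Ω) (w : Ω → X) (G : X → ℝ) : ℝ :=
  √(∫ x, (G (w x) - 1) ^ 2 ∂ν)

lemma dst_nonneg : 0 ≤ dst ν w G := Real.sqrt_nonneg _

lemma dst_sq : dst ν w G ^ 2 = ∫ x, (G (w x) - 1) ^ 2 ∂ν :=
  Real.sq_sqrt (integral_nonneg fun _ => sq_nonneg _)

lemma abs_sub_one_le (hL : 1 ≤ L) {t : ℝ} (h0 : 0 ≤ t) (h1 : t ≤ L) : |t - 1| ≤ L := by
  rw [abs_le]
  constructor <;> linarith

section one

variable (hG : Measurable G) (hw : Measurable w) (hG0 : ∀ z, 0 ≤ G z) (hGb : ∀ z, G z ≤ L)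

include hG hw hG0 hGb

lemma int_abs_sub (hL : 1 ≤ L) : Integrable (fun x => |G (w x) - 1|) ν :=
  Integrable.of_bound ((hG.comp hw).sub_const 1).norm.aestronglyMeasurable L
    (Filter.Eventually.of_forall fun x => by
      rw [Real.norm_eq_abs, abs_abs]
      exact abs_sub_one_le hL (hG0 _) (hGb _))

lemma int_sub_sq (hL : 1 ≤ L) : Integrable (fun x => (G (w x) - 1) ^ 2) ν :=
  Integrable.of_bound (((hG.comp hw).sub_const 1).pow_const 2).aestronglyMeasurable (L ^ 2)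
    (Filter.Eventually.of_forall fun x => by
      rw [Real.norm_eq_abs, abs_of_nonneg (sq_nonneg _), ← sq_abs]
      exact pow_le_pow_left₀ (abs_nonneg _) (abs_sub_one_le hL (hG0 _) (hGb _)) 2)

lemma int_abs_le_dst (hL : 1 ≤ L) : ∫ x, |G (w x) - 1| ∂ν ≤ dst ν w G := by
  have h := Vale.Agent.P159.H552.int_cs (m := ν) (u := fun x => |G (w x) - 1|)
    (v := fun _ => (1 : ℝ)) (by simpa only [sq_abs] using int_sub_sq (ν := ν) hG hw hG0 hGb hL)
    (by simp) (by simpa using int_abs_sub (ν := ν) hG hw hG0 hGb hL)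
  simp only [sq_abs, mul_one, one_pow, integral_const, probReal_univ, smul_eq_mul] at h
  exact Real.le_sqrt_of_sq_le h

end one

/-- positive and negative parts of `G - 1` -/
lemma parts (hG : Measurable G) (hw : Measurable w) (hG0 : ∀ z, 0 ≤ G z) (hGb : ∀ z, G z ≤ L)
    (hL : 1 ≤ L) :
    ∫ x, G (w x) ∂ν = 1 + (∫ x, max (G (w x) - 1) 0 ∂ν - ∫ x, max (1 - G (w x)) 0 ∂ν) ∧
    ∫ x, |G (w x) - 1| ∂ν = ∫ x, max (G (w x) - 1) 0 ∂ν + ∫ x, max (1 - G (w x)) 0 ∂ν := by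
  have i1 : Integrable (fun x => max (G (w x) - 1) 0) ν :=
    Integrable.of_bound (((hG.comp hw).sub_const 1).max measurable_const).aestronglyMeasurable
      L (Filter.Eventually.of_forall fun x => by
        rw [Real.norm_eq_abs, abs_of_nonneg (le_max_right _ _)]
        exact max_le (by linarith [hGb (w x)]) (by linarith))
  have i2 : Integrable (fun x => max (1 - G (w x)) 0) ν :=
    Integrable.of_bound ((measurable_const.sub (hG.comp hw)).max
      measurable_const).aestronglyMeasurable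
      L (Filter.Eventually.of_forall fun x => by
        rw [Real.norm_eq_abs, abs_of_nonneg (le_max_right _ _)]
        exact max_le (by linarith [hG0 (w x)]) (by linarith))
  constructor
  · rw [← integral_sub i1 i2]
    have i3 : Integrable (fun x => max (G (w x) - 1) 0 - max (1 - G (w x)) 0) ν := i1.sub i2
    have e : ∀ x, G (w x) = 1 + (max (G (w x) - 1) 0 - max (1 - G (w x)) 0) := by
      intro x
      rcases le_total (G (w x)) 1 with h1 | h1
      · rw [max_eq_right (by linarith), max_eq_left (by linarith)]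
        ring
      · rw [max_eq_left (by linarith), max_eq_right (by linarith)]
        ring
    calc ∫ x, G (w x) ∂ν
        = ∫ x, (1 + (max (G (w x) - 1) 0 - max (1 - G (w x)) 0)) ∂ν :=
          integral_congr_ae (Filter.Eventually.of_forall e)
      _ = _ := by
          rw [integral_add (integrable_const _) i3]
          simp
  · rw [← integral_add i1 i2]
    refine integral_congr_ae (Filter.Eventually.of_forall fun x => ?_)
    simp only
    rcases le_total (G (w x)) 1 with h1 | h1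
    · rw [max_eq_right (by linarith), max_eq_left (by linarith), abs_of_nonpos (by linarith)]
      ring
    · rw [max_eq_left (by linarith), max_eq_right (by linarith), abs_of_nonneg (by linarith)]
      ring

/-- comparison of means and of `L²` distances -/
theorem cmp_dst (hG : Measurable G) (hw : Measurable w) (hw' : Measurable w')
    (hG0 : ∀ z, 0 ≤ G z) (hGb : ∀ z, G z ≤ L) (hL : 1 ≤ L) (hτ : 0 ≤ τ)
    (hc : Cmp ν ν' w w' h τ) :
    |∫ x, G (w' x) ∂ν' - ∫ x, G (w x) ∂ν| ≤ h * ∫ x, |G (w x) - 1| ∂ν + 2 * τ * L ∧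
      ∫ x, (G (w' x) - 1) ^ 2 ∂ν' ≤ (1 + h) * dst ν w G ^ 2 + τ * L ^ 2 := by
  constructor
  · -- positive and negative parts
    have hp := hc (fun z => max (G z - 1) 0) L ((hG.sub_const 1).max measurable_const)
      (fun z => le_max_right _ _) (fun z => max_le (by linarith [hGb z]) (by linarith))
    have hn := hc (fun z => max (1 - G z) 0) L ((measurable_const.sub hG).max measurable_const)
      (fun z => le_max_right _ _) (fun z => max_le (by linarith [hG0 z]) (by linarith))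
    obtain ⟨a3, a4⟩ := parts (ν := ν) hG hw hG0 hGb hL
    obtain ⟨b3, _⟩ := parts (ν := ν') hG hw' hG0 hGb hL
    rw [b3, a3, a4]
    have h1 := abs_le.1 hp
    have h2 := abs_le.1 hn
    rw [abs_le]
    constructor <;> nlinarith [h1.1, h1.2, h2.1, h2.2]
  · have h1 := hc (fun z => (G z - 1) ^ 2) (L ^ 2) ((hG.sub_const 1).pow_const 2)
      (fun z => sq_nonneg _) (fun z => by
        rw [← sq_abs]
        exact pow_le_pow_left₀ (abs_nonneg _) (abs_sub_one_le hL (hG0 _) (hGb _)) 2)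
    have h2 := (abs_le.1 h1).2
    rw [dst_sq]
    linarith

/-- the scalar part of XFER -/
lemma xfer_scal {q δ x h t m m' r D1 D : ℝ} (hδ0 : 0 ≤ δ) (hq0 : 0 ≤ q)
    (hh0 : 0 ≤ h) (ht : 0 ≤ t) (hx : 0 ≤ x)
    (hsm : q + 2 * δ + x + 3 * h + 2 * t ≤ 1 / 8)
    (ha1 : (1 - q) * 1 ≤ (1 + δ) * m) (ha2 : (1 - δ) * m ≤ 1 + x)
    (hb1 : (1 - q) * r ≤ (1 + δ) * m') (hb2 : (1 - δ) * m' ≤ r + x)
    (hm1 : |m' - m| ≤ h * D1 + 2 * t) (d0 : 0 ≤ D1) (dm : D1 ≤ m + 1) (dD : D1 ≤ D) :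
    |r - 1| ≤ 3 * q + 4 * δ + 2 * x + h * min D 3 + 2 * t ∧ |r - 1| ≤ 3 / 8 := by
  have hδ8 : δ ≤ 1 / 8 := by linarith
  have hq8 : q ≤ 1 / 8 := by linarith
  have hx8 : x ≤ 1 / 8 := by linarith
  have m1 : m ≤ 1 + x + 2 * δ := by
    by_contra hcon
    rw [not_le] at hcon
    nlinarith
  have m2 : 1 - q - δ ≤ m := by
    by_contra hcon
    rw [not_le] at hcon
    nlinarith
  have d3 : D1 ≤ 3 := by linarith
  have hhD : h * D1 ≤ 3 * h := by nlinarith
  have hhm : h * D1 ≤ h * min D 3 := mul_le_mul_of_nonneg_left (le_min dD d3) hh0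
  have hhD0 : 0 ≤ h * D1 := mul_nonneg hh0 d0
  have a1 := (abs_le.1 hm1).1
  have a2 := (abs_le.1 hm1).2
  obtain ⟨E, hE⟩ : ∃ E, E = q + 2 * δ + x + h * D1 + 2 * t := ⟨_, rfl⟩
  have hE8 : E ≤ 1 / 8 := by linarith
  have m3 : m' ≤ 1 + E := by linarith
  have m4 : 1 - E ≤ m' := by linarith
  have hE0 : 0 ≤ E := by linarith
  have r1 : r ≤ 1 + (E + 2 * δ + 2 * q) := by
    by_contra hcon
    rw [not_le] at hcon
    have h1 : (1 - q) * (1 + (E + 2 * δ + 2 * q)) < (1 + δ) * (1 + E) := by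
      calc (1 - q) * (1 + (E + 2 * δ + 2 * q)) < (1 - q) * r :=
            mul_lt_mul_of_pos_left hcon (by linarith)
        _ ≤ (1 + δ) * m' := hb1
        _ ≤ (1 + δ) * (1 + E) := mul_le_mul_of_nonneg_left m3 (by linarith)
    nlinarith [mul_nonneg hq0 hE0, mul_nonneg hq0 hδ0, mul_nonneg hδ0 hE0, mul_nonneg hq0 hq0]
  have r2 : 1 - (E + δ + x) ≤ r := by
    have h1 : (1 - δ) * (1 - E) ≤ (1 - δ) * m' := mul_le_mul_of_nonneg_left m4 (by linarith)
    nlinarith [mul_nonneg hδ0 hE0]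
  have hrE : |r - 1| ≤ E + 2 * δ + 2 * q + x := by
    rw [abs_le]
    constructor <;> linarith
  exact ⟨hrE.trans (by linarith), hrE.trans (by linarith)⟩

/-- rescaling of the window functional -/
lemma Lcl.resc (H' : Lcl ν' Ψ' c' κ w' G Gd' L δ q b) (hr : (κ / c') ≤ 8 / 5) (hL0 : 0 ≤ L) :
    Lcl ν' Ψ' c' c' w' (fun z => κ / c' * G z) Gd' (2 * L) δ q b := by
  have hp : 0 < κ / c' := div_pos H'.hκ H'.hc
  refine ⟨H'.hc, H'.hc, H'.Ψ0, H'.Ψm, H'.Ψi, H'.mean, H'.wm, H'.Gm.const_mul _, fun z => ?_,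
    fun z => ?_, H'.Gdm, fun x hx => ?_, H'.Q, H'.P⟩
  · exact mul_nonneg hp.le (H'.G0 z)
  · have h1 := mul_le_mul hr (H'.Gb z) (H'.G0 z) (by norm_num)
    linarith
  · have h1 := mul_le_mul_of_nonneg_left (H'.loc x hx) hp.le
    have e : Ψ' x / c' - κ / c' * G (w' x) = κ / c' * (Ψ' x / κ - G (w' x)) := by
      have h2 := H'.hc.ne'
      have h3 := H'.hκ.ne'
      field_simp
    rw [e, abs_mul, abs_of_pos hp]
    calc _ ≤ _ := h1
      _ = _ := by ring

/-- distance after rescaling -/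
lemma dst_resc (hG : Measurable G) (hw' : Measurable w') (hG0 : ∀ z, 0 ≤ G z)
    (hGb : ∀ z, G z ≤ L) (hL : 1 ≤ L) {t : ℝ} (ht : 0 < t) :
    dst ν' w' (fun z => t * G z) ≤ t * √(∫ x, (G (w' x) - 1) ^ 2 ∂ν') + |t - 1| := by
  have hI := int_sub_sq (ν := ν') hG hw' hG0 hGb hL
  have hone : ∀ _ : Ω', (0 : ℝ) ≤ 1 := fun _ => by norm_num
  have hlin1 : InL ν' (fun _ => (1 : ℝ)) (fun x => t * (G (w' x) - 1)) := by
    refine ⟨(((hG.comp hw').sub_const 1).const_mul _).aestronglyMeasurable, ?_⟩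
    simp only [one_mul, mul_pow]
    exact hI.const_mul _
  have hlin2 : InL ν' (fun _ => (1 : ℝ)) (fun _ => t - 1) :=
    InL.const (integrable_const _) _
  have ht' := wn_add_le hone aestronglyMeasurable_const hlin1 hlin2
  rw [wn_smul, wn_const] at ht'
  have e1 : dst ν' w' (fun z => t * G z)
      = wn ν' (fun _ => (1 : ℝ)) (fun x => t * (G (w' x) - 1) + (t - 1)) := by
    unfold dst wn
    congr 1
    refine integral_congr_ae (Filter.Eventually.of_forall fun x => ?_)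
    simp only
    ring
  have e2 : wn ν' (fun _ => (1 : ℝ)) (fun x => G (w' x) - 1)
      = √(∫ x, (G (w' x) - 1) ^ 2 ∂ν') := by
    unfold wn
    simp only [one_mul]
  have e3 : √(∫ _, (1 : ℝ) ∂ν') = 1 := by simp
  rw [e3, mul_one, abs_of_pos ht, e2] at ht'
  rw [e1]
  exact ht'

/-- **XFER**: relation between the means and transfer of the state -/
theorem xfer (H : Lcl ν Ψ c c w G Gd L δ q b) (H' : Lcl ν' Ψ' c' κ w' G Gd' L δ q b)
    (hc : Cmp ν ν' w w' h τ) (hL : 1 ≤ L) (hδ0 : 0 ≤ δ) (hq0 : 0 ≤ q) (hh0 : 0 ≤ h)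
    (hτ : 0 ≤ τ) (hsm : q + 2 * δ + L * b + 3 * h + 2 * (τ * L) ≤ 1 / 8) :
    |c' / κ - 1| ≤ 3 * q + 4 * δ + 2 * (L * b) + h * min (dst ν w G) 3 + 2 * (τ * L) ∧
      |c' / κ - 1| ≤ 3 / 8 ∧
      Lcl ν' Ψ' c' c' w' (fun z => κ / c' * G z) Gd' (2 * L) δ q b ∧
      dst ν' w' (fun z => κ / c' * G z)
        ≤ (1 + 2 * |c' / κ - 1|) * √((1 + h) * dst ν w G ^ 2 + τ * L ^ 2)
          + 2 * |c' / κ - 1| := by
  obtain ⟨hm1, hm2⟩ := cmp_dst H.Gm H.wm H'.wm H.G0 H.Gb hL hτ hc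
  obtain ⟨ha1, ha2⟩ := H.mean_le hδ0
  obtain ⟨hb1, hb2⟩ := H'.mean_le hδ0
  rw [div_self H.hc.ne'] at ha1 ha2
  have hL0 : 0 ≤ L := by linarith
  have hr0 : 0 < c' / κ := div_pos H'.hc H'.hκ
  have d1 : ∫ x, |G (w x) - 1| ∂ν ≤ dst ν w G := int_abs_le_dst H.Gm H.wm H.G0 H.Gb hL
  have d0 : 0 ≤ ∫ x, |G (w x) - 1| ∂ν := integral_nonneg fun x => abs_nonneg _
  have d2 : ∫ x, |G (w x) - 1| ∂ν ≤ ∫ x, G (w x) ∂ν + 1 := by
    have : ∫ x, |G (w x) - 1| ∂ν ≤ ∫ x, (G (w x) + 1) ∂ν := by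
      refine integral_mono (int_abs_sub H.Gm H.wm H.G0 H.Gb hL)
        (H.Gi.add (integrable_const _)) fun x => ?_
      simp only
      rw [abs_le]
      have := H.G0 (w x)
      constructor <;> linarith
    rw [integral_add H.Gi (integrable_const _)] at this
    simpa using this
  have e2 : 2 * τ * L = 2 * (τ * L) := by ring
  rw [e2] at hm1
  obtain ⟨hr1, hr38⟩ := xfer_scal hδ0 hq0 hh0 (mul_nonneg hτ hL0) (mul_nonneg hL0 H.b0) hsm
    ha1 ha2 hb1 hb2 hm1 d0 d2 d1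
  have hr58 : 5 / 8 ≤ c' / κ := by
    have := (abs_le.1 hr38).1
    linarith
  have hinv : κ / c' = (c' / κ)⁻¹ := by rw [inv_div]
  have hrinv : κ / c' ≤ 8 / 5 := by
    rw [hinv, inv_le_comm₀ hr0 (by norm_num)]
    norm_num
    exact hr58
  have hp : 0 < κ / c' := div_pos H'.hκ H'.hc
  have hrinv1 : |κ / c' - 1| ≤ 2 * |c' / κ - 1| := by
    have e : κ / c' - 1 = -(κ / c' * (c' / κ - 1)) := by
      have h2 := H'.hc.ne'
      have h3 := H'.hκ.ne'
      field_simp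
      ring
    rw [e, abs_neg, abs_mul, abs_of_pos hp]
    have := abs_nonneg (c' / κ - 1)
    nlinarith
  refine ⟨hr1, hr38, H'.resc hrinv hL0, ?_⟩
  refine (dst_resc H'.Gm H'.wm H'.G0 H'.Gb hL hp).trans (add_le_add ?_ hrinv1)
  have h1 : κ / c' ≤ 1 + 2 * |c' / κ - 1| := by
    have := (abs_le.1 hrinv1).2
    linarith
  exact mul_le_mul h1 (Real.sqrt_le_sqrt hm2) (Real.sqrt_nonneg _) (by positivity)

end Vale.Agent.P159.H686
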